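import Vale.Agent.P092.H217.PK5
import Vale.Agent.P092.H604.Kp

/-!
P092, TEAM P, [P-KEY] (helper217), part 6: bounds of the zoomed matrix; exact chains and Borel
sets.
-/

set_option linter.all false

namespace Vale.Agent.P092.H217.PK

open Finset Matrix
open Vale.Agent.P092.H820 (wd)
open Vale.Agent.P092.H464 (Pv CI)
open Vale.Agent.P092.H835.PlF (w3 Alt sq sq_wd alt_wd alt_sq bl sq_apply)
open Vale.Agent.P092.H835.PlGr (wd_of_w3)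
open Vale.Agent.P092.H835.NF (w3_norm_le sq_le sq_mul sq_smul)
open Vale.Agent.P092.H87.N (cn mulVec_le)
open Vale.Agent.P092.H589.K2 (mn mn_wd wd_norm_le chain_mn Nrm nrm_ne nrm_one w3_sq)

section chain

variable {X Y : Type} [TopologicalSpace X] [CompactSpace X] [TopologicalSpace.MetrizableSpace X]
  [MeasurableSpace X] [BorelSpace X] [TopologicalSpace Y] [CompactSpace Y]
  [TopologicalSpace.MetrizableSpace Y] [MeasurableSpace Y] [BorelSpace Y]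
  {K : Type} [NormedAddCommGroup K] [InnerProductSpace ℂ K] [CompleteSpace K]

omit [TopologicalSpace.MetrizableSpace X] [MeasurableSpace X] [BorelSpace X]
  [MeasurableSpace Y] [BorelSpace Y] in
lemma sat_closed {Inc : X → Y → Prop} (hI : IsClosed {z : X × Y | Inc z.1 z.2}) {B : Set X}
    (hB : IsClosed B) : IsClosed {y | ∃ x ∈ B, Inc x y} := by
  have e : {y | ∃ x ∈ B, Inc x y} =
      Prod.snd '' ({z : X × Y | Inc z.1 z.2} ∩ (Prod.fst ⁻¹' B)) := by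
    ext y
    constructor
    · rintro ⟨x, hx, hxy⟩
      exact ⟨(x, y), ⟨hxy, hx⟩, rfl⟩
    · rintro ⟨⟨x, y'⟩, ⟨h1, h2⟩, rfl⟩
      exact ⟨x, h2, h1⟩
  rw [e]
  exact (((hI.inter (hB.preimage continuous_fst)).isCompact).image continuous_snd).isClosed

omit [CompactSpace X] [TopologicalSpace.MetrizableSpace Y] [MeasurableSpace X] [BorelSpace X]
  [MeasurableSpace Y] [BorelSpace Y] in
lemma sat_closed' {Inc : X → Y → Prop} (hI : IsClosed {z : X × Y | Inc z.1 z.2}) {D : Set Y}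
    [CompactSpace X] (hD : IsClosed D) : IsClosed {x | ∃ y ∈ D, Inc x y} := by
  have e : {x | ∃ y ∈ D, Inc x y} =
      Prod.fst '' ({z : X × Y | Inc z.1 z.2} ∩ (Prod.snd ⁻¹' D)) := by
    ext x
    constructor
    · rintro ⟨y, hy, hxy⟩
      exact ⟨(x, y), ⟨hxy, hy⟩, rfl⟩
    · rintro ⟨⟨x', y⟩, ⟨h1, h2⟩, rfl⟩
      exact ⟨y, h2, h1⟩
  rw [e]
  exact (((hI.inter (hD.preimage continuous_snd)).isCompact).image continuous_fst).isClosed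

/-- **exact chains** `x - ν - y - ω` and Borel sets -/
theorem chainB {Inc : X → Y → Prop} (hI : IsClosed {z : X × Y | Inc z.1 z.2})
    (b z : C(X, ℂ) →⋆ₐ[ℂ] (K →L[ℂ] K)) (l n : C(Y, ℂ) →⋆ₐ[ℂ] (K →L[ℂ] K))
    (hbn : CI Inc (H466.pv b) (H466.pv n)) (hzn : CI Inc (H466.pv z) (H466.pv n))
    (hzl : CI Inc (H466.pv z) (H466.pv l)) {B : Set X} (hB : IsClosed B) {A : Set X}
    (hA : MeasurableSet A) {D D' : Set Y} (hD : MeasurableSet D) (hD' : MeasurableSet D')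
    {E W : K →L[ℂ] K} (hE : E * H466.pv b B = E)
    (hEn : ∀ D, MeasurableSet D → E * H466.pv n D = H466.pv n D * E)
    (hWz : ∀ D, MeasurableSet D → W * H466.pv z D = H466.pv z D * W)
    (hno : ∀ ν ∈ D, ∀ ω ∈ D', ∀ x ∈ B, ∀ y ∈ A, Inc x ν → Inc y ν → Inc y ω → False) :
    H466.pv n D * (E * (W * (H466.pv l D' * H466.pv z A))) = 0 := by
  have pz := H604.pv_Pv z
  have pn := H604.pv_Pv n
  -- closed case
  have hcl : ∀ G : Set Y, G ⊆ D → IsClosed G →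
      H466.pv n G * (E * (W * (H466.pv l D' * H466.pv z A))) = 0 := by
    intro G hGD hG
    set BB : Set Y := {y | ∃ x ∈ B, Inc x y} with hBB
    have hBBc : IsClosed BB := sat_closed hI hB
    set G₁ : Set Y := G ∩ BB with hG₁
    have hG₁c : IsClosed G₁ := hG.inter hBBc
    have hG₁m := hG₁c.measurableSet
    have hE1 : H466.pv n G * E = H466.pv n G₁ * E := by
      have h3 : H466.pv n G = H466.pv n G₁ + H466.pv n (G \ BB) :=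
        pn.split hBBc.measurableSet hG.measurableSet
      have h4 : H466.pv n (G \ BB) * E = 0 := by
        have hm := hG.measurableSet.diff hBBc.measurableSet
        rw [← hEn _ hm, ← hE, mul_assoc, hbn.inc B (G \ BB) hB.measurableSet hm ?_, mul_zero]
        intro x hx y hy hxy
        exact hy.2 ⟨x, hx, hxy⟩
      rw [h3, add_mul, h4, add_zero]
    set AA : Set X := {x | ∃ y ∈ G₁, Inc x y} with hAA
    have hAAc : IsClosed AA := sat_closed' hI hG₁c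
    set A₁ : Set X := A ∩ AA with hA₁
    have hA₁m : MeasurableSet A₁ := hA.inter hAAc.measurableSet
    have hZ1 : H466.pv n G₁ * H466.pv z A = H466.pv n G₁ * H466.pv z A₁ := by
      have h3 : H466.pv z A = H466.pv z A₁ + H466.pv z (A \ AA) :=
        pz.split hAAc.measurableSet hA
      have hm := hA.diff hAAc.measurableSet
      have h4 : H466.pv n G₁ * H466.pv z (A \ AA) = 0 := by
        rw [← hzn.comm _ _ hm hG₁m]
        refine hzn.inc _ _ hm hG₁m fun x hx y hy hxy => hx.2 ⟨y, hy, hxy⟩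
      rw [h3, mul_add, h4, add_zero]
    have hZ2 : H466.pv z A₁ * H466.pv l D' = 0 := by
      refine hzl.inc _ _ hA₁m hD' ?_
      rintro y ⟨hyA, ν, ⟨hνG, x, hx, hxν⟩, hyν⟩ ω hω hyω
      exact hno ν (hGD hνG) ω hω x hx y hyA hxν hyν hyω
    calc H466.pv n G * (E * (W * (H466.pv l D' * H466.pv z A)))
        = (H466.pv n G * E) * (W * (H466.pv z A * H466.pv l D')) := by
          rw [← hzl.comm A D' hA hD', mul_assoc]
      _ = (H466.pv n G₁ * E) * ((W * H466.pv z A) * H466.pv l D') := by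
          rw [hE1, mul_assoc W]
      _ = E * ((H466.pv n G₁ * H466.pv z A) * (W * H466.pv l D')) := by
          rw [hWz _ hA, ← hEn _ hG₁m]; simp only [mul_assoc]
      _ = E * (H466.pv n G₁ * ((W * H466.pv z A₁) * H466.pv l D')) := by
          rw [hZ1, hWz _ hA₁m]; simp only [mul_assoc]
      _ = 0 := by rw [mul_assoc W, hZ2, mul_zero, mul_zero, mul_zero]
  refine ContinuousLinearMap.ext fun v => ?_
  rw [ContinuousLinearMap.mul_apply, ContinuousLinearMap.zero_apply]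
  set u := (E * (W * (H466.pv l D' * H466.pv z A))) v with hu
  have h0 : ∀ ε : ℝ, 0 < ε → ‖H466.pv n D u‖ ≤ ε := by
    intro ε hε
    obtain ⟨G, hGD, hG, h1⟩ := H466.exists_closed_approx n hD u hε
    have h2 : H466.pv n G u = 0 := by
      have := congrArg (fun T : K →L[ℂ] K => T v) (hcl G hGD hG)
      simpa [hu] using this
    rwa [h2, sub_zero] at h1
  exact norm_le_zero_iff.1 (le_of_forall_pos_le_add fun ε hε => by rw [zero_add]; exact h0 ε hε)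

end chain

section bounds

variable {k : Type} [NontriviallyNormedField k]
variable {p : Fin 4} {C : ℝ} {M A : Matrix (Fin 4) (Fin 4) k} {η g : Fin 4 → k} {c ρ : k}

lemma om_single_mul (M : Matrix (Fin 4) (Fin 4) k) (a b : Fin 4) :
    M a b = (M *ᵥ Pi.single b 1) a := by
  simp [Matrix.mulVec_single]

lemma HH_bd (nf : Nf p C M η c A) (nb : Nb p C η g ρ) (hT : 1 ≤ ‖c‖ * ‖ρ‖) (v : Fin 4 → k) :
    ∃ (a : k) (R : Fin 4 → k), Hm p η c (Hm p g ρ v) = a • ev p + R ∧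
      ‖a‖ ≤ 28 * C * (‖c‖ * ‖ρ‖) ^ 2 * ‖v‖ ∧ ‖R‖ ≤ 4 * C * (‖c‖ * ‖ρ‖) * ‖v‖ := by
  have hC := nf.C1
  have hc1 := nf.c1
  have hρ0 : 0 ≤ ‖ρ‖ := norm_nonneg _
  have hρ1 := nb.ρ1
  have hv := norm_nonneg v
  refine ⟨_, _, HH p nf.ηp nb.g1 c ρ v, ?_, ?_⟩
  · have g1 : ‖om g v‖ ≤ 4 * ‖v‖ := by
      refine (norm_om_le g v).trans ?_
      have := nb.gn
      nlinarith
    have g2 : ‖om (η - g) v‖ ≤ 4 * C * ‖ρ‖ * ‖v‖ := by
      refine (norm_om_le _ v).trans ?_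
      calc 4 * (‖η - g‖ * ‖v‖) ≤ 4 * ((C * ‖ρ‖) * ‖v‖) := by
            have := nb.d1
            gcongr
        _ = _ := by ring
    have g3 : ‖v p‖ ≤ ‖v‖ := norm_le_pi_norm v p
    have g4 := nb.d2
    have g5 : ‖(1 : k) - ρ‖ ≤ 2 := (norm_sub_le _ _).trans (by rw [norm_one]; linarith)
    have g6 : ‖ρ ^ 2 - ρ‖ ≤ 2 * ‖ρ‖ := (norm_sub_le _ _).trans (by rw [norm_pow]; nlinarith)
    have g7 : ‖c ^ 2 - c‖ ≤ 2 * ‖c‖ ^ 2 := (norm_sub_le _ _).trans (by rw [norm_pow]; nlinarith)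
    have h1 : ‖c * (ρ ^ 2 - ρ) * om g v‖ ≤ 8 * (‖c‖ * ‖ρ‖) ^ 2 * ‖v‖ := by
      rw [norm_mul, norm_mul]
      calc ‖c‖ * ‖ρ ^ 2 - ρ‖ * ‖om g v‖ ≤ ‖c‖ * (2 * ‖ρ‖) * (4 * ‖v‖) := by gcongr
        _ = 8 * (‖c‖ * ‖ρ‖) * ‖v‖ := by ring
        _ ≤ 8 * (‖c‖ * ‖ρ‖) ^ 2 * ‖v‖ := by
            have : ‖c‖ * ‖ρ‖ ≤ (‖c‖ * ‖ρ‖) ^ 2 := by nlinarith
            gcongr
    have h2 : ‖ρ * om (η - g) v + ρ ^ 2 * om g v + (1 - ρ) * v p * om η g‖ ≤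
        10 * C * ‖ρ‖ ^ 2 * ‖v‖ := by
      refine (norm_add_le _ _).trans ?_
      have e1 := norm_add_le (ρ * om (η - g) v) (ρ ^ 2 * om g v)
      rw [norm_mul, norm_mul, norm_pow] at e1
      have e2 : ‖ρ‖ * ‖om (η - g) v‖ ≤ ‖ρ‖ * (4 * C * ‖ρ‖ * ‖v‖) := by gcongr
      have e3 : ‖ρ‖ ^ 2 * ‖om g v‖ ≤ ‖ρ‖ ^ 2 * (4 * ‖v‖) := by gcongr
      have e4 : ‖(1 - ρ) * v p * om η g‖ ≤ 2 * ‖v‖ * (C * ‖ρ‖ ^ 2) := by
        rw [norm_mul, norm_mul]; gcongr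
      have e5 : ‖ρ‖ ^ 2 * (4 * ‖v‖) ≤ 4 * C * ‖ρ‖ ^ 2 * ‖v‖ := by
        have : 0 ≤ ‖ρ‖ ^ 2 * ‖v‖ := by positivity
        nlinarith
      calc _ ≤ (‖ρ‖ * (4 * C * ‖ρ‖ * ‖v‖) + 4 * C * ‖ρ‖ ^ 2 * ‖v‖) +
            2 * ‖v‖ * (C * ‖ρ‖ ^ 2) := by linarith
        _ = _ := by ring
    have h3 : ‖(c ^ 2 - c) * (ρ * om (η - g) v + ρ ^ 2 * om g v + (1 - ρ) * v p * om η g)‖ ≤
        20 * C * (‖c‖ * ‖ρ‖) ^ 2 * ‖v‖ := by
      rw [norm_mul]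
      calc _ ≤ (2 * ‖c‖ ^ 2) * (10 * C * ‖ρ‖ ^ 2 * ‖v‖) := by gcongr
        _ = _ := by ring
    refine (norm_add_le _ _).trans ?_
    have h4 : 8 * (‖c‖ * ‖ρ‖) ^ 2 * ‖v‖ ≤ 8 * C * (‖c‖ * ‖ρ‖) ^ 2 * ‖v‖ := by
      have : 0 ≤ (‖c‖ * ‖ρ‖) ^ 2 * ‖v‖ := by positivity
      nlinarith
    linarith
  · set T := ‖c‖ * ‖ρ‖ with hTd
    have e1 : ‖(c * ρ) • v‖ = T * ‖v‖ := by rw [norm_smul, norm_mul]
    have e2 : ‖c • (g - η) - (c * ρ) • g + η‖ ≤ C * T + T + 1 := by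
      refine (norm_add_le _ _).trans (add_le_add ((norm_sub_le _ _).trans (add_le_add ?_ ?_))
        nf.ηn)
      · rw [norm_smul, norm_sub_rev]
        calc ‖c‖ * ‖η - g‖ ≤ ‖c‖ * (C * ‖ρ‖) := by
              have := nb.d1
              gcongr
          _ = _ := by rw [hTd]; ring
      · rw [norm_smul, norm_mul]
        have := nb.gn
        nlinarith
    refine (norm_add_le _ _).trans ?_
    rw [e1, norm_smul]
    have e3 : ‖v p‖ * ‖c • (g - η) - (c * ρ) • g + η‖ ≤ ‖v‖ * (C * T + T + 1) := by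
      gcongr
      exact norm_le_pi_norm v p
    have e4 : C * T + T + 1 ≤ 3 * C * T := by nlinarith
    have e5 : ‖v‖ * (C * T + T + 1) ≤ ‖v‖ * (3 * C * T) := by gcongr
    have e6 : T * ‖v‖ ≤ C * T * ‖v‖ := by
      have : 0 ≤ T * ‖v‖ := by positivity
      nlinarith
    linarith

set_option maxHeartbeats 1000000 in
/-- the minors of `M * HM p g ρ` -/
lemma minor_bd (nf : Nf p C M η c A) (nb : Nb p C η g ρ) (hT : 1 ≤ ‖c‖ * ‖ρ‖) (a b d e : Fin 4) :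
    ‖c‖ ^ 2 * ‖(M * HM p g ρ) a d * (M * HM p g ρ) b e -
      (M * HM p g ρ) a e * (M * HM p g ρ) b d‖ ≤ 7680 * C ^ 4 * (‖c‖ * ‖ρ‖) ^ 3 := by
  have hC := nf.C1
  set T := ‖c‖ * ‖ρ‖ with hTd
  -- columns
  have hcol : ∀ j : Fin 4, ∃ (α : k) (s : Fin 4 → k), (∀ i, c * (M * HM p g ρ) i j =
      α * (A *ᵥ ev p) i + s i) ∧ ‖α‖ ≤ 28 * C * T ^ 2 ∧ ∀ i, ‖s i‖ ≤ 16 * C ^ 2 * T := by
    intro j
    obtain ⟨α, R, h1, h2, h3⟩ := HH_bd nf nb hT (Pi.single j 1)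
    have hs : ‖(Pi.single j 1 : Fin 4 → k)‖ ≤ 1 := by
      refine (pi_norm_le_iff_of_nonneg zero_le_one).2 fun i => ?_
      by_cases hij : i = j
      · rw [hij]; simp
      · rw [Pi.single_eq_of_ne hij]; simp
    refine ⟨α, A *ᵥ R, fun i => ?_, ?_, fun i => ?_⟩
    · rw [om_single_mul (M * HM p g ρ) i j, ← Matrix.mulVec_mulVec, HM_mulVec]
      have e1 := congrFun (nf.eq (Hm p g ρ (Pi.single j 1))) i
      rw [Pi.smul_apply, smul_eq_mul] at e1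
      rw [e1, h1, Matrix.mulVec_add, Matrix.mulVec_smul]
      simp only [Pi.add_apply, Pi.smul_apply, smul_eq_mul]
    · refine h2.trans ?_
      have : 0 ≤ 28 * C * T ^ 2 := by positivity
      nlinarith
    · refine (norm_le_pi_norm _ i).trans ((nf.A_up R).trans ?_)
      have h4 : ‖R‖ ≤ 4 * C * T := by
        refine h3.trans ?_
        have : 0 ≤ 4 * C * T := by positivity
        nlinarith
      calc 4 * C * ‖R‖ ≤ 4 * C * (4 * C * T) := by gcongr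
        _ = _ := by ring
  obtain ⟨α, s, d1, d2, d3⟩ := hcol d
  obtain ⟨β, t, e1, e2, e3⟩ := hcol e
  set u := A *ᵥ (ev p : Fin 4 → k) with hu
  have hun : ∀ i, ‖u i‖ ≤ 4 * C := fun i => by
    refine (norm_le_pi_norm _ i).trans ((nf.A_up _).trans ?_)
    have := norm_ev (k := k) p
    nlinarith
  have key : c ^ 2 * ((M * HM p g ρ) a d * (M * HM p g ρ) b e -
      (M * HM p g ρ) a e * (M * HM p g ρ) b d) =
      (α * (u a * t b - u b * t a) + β * (s a * u b - s b * u a)) + (s a * t b - t a * s b) := by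
    have x1 := d1 a
    have x2 := d1 b
    have x3 := e1 a
    have x4 := e1 b
    calc _ = (c * (M * HM p g ρ) a d) * (c * (M * HM p g ρ) b e) -
          (c * (M * HM p g ρ) a e) * (c * (M * HM p g ρ) b d) := by ring
      _ = _ := by rw [x1, x2, x3, x4]; ring
  rw [← norm_pow, ← norm_mul, key]
  have m1 : ∀ (x y x' y' : k) (P Q : ℝ), ‖x‖ ≤ P → ‖y‖ ≤ Q → ‖x'‖ ≤ P → ‖y'‖ ≤ Q →
      0 ≤ P → 0 ≤ Q → ‖x * y - x' * y'‖ ≤ 2 * (P * Q) := by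
    intro x y x' y' P Q h1 h2 h3 h4 hP hQ
    refine (norm_sub_le _ _).trans ?_
    rw [norm_mul, norm_mul]
    have := mul_le_mul h1 h2 (norm_nonneg _) hP
    have := mul_le_mul h3 h4 (norm_nonneg _) hP
    linarith
  have b1 : ‖u a * t b - u b * t a‖ ≤ 2 * (4 * C * (16 * C ^ 2 * T)) :=
    m1 _ _ _ _ _ _ (hun a) (e3 b) (hun b) (e3 a) (by positivity) (by positivity)
  have b2 : ‖s a * u b - s b * u a‖ ≤ 2 * (16 * C ^ 2 * T * (4 * C)) :=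
    m1 _ _ _ _ _ _ (d3 a) (hun b) (d3 b) (hun a) (by positivity) (by positivity)
  have b3 : ‖s a * t b - t a * s b‖ ≤ 2 * (16 * C ^ 2 * T * (16 * C ^ 2 * T)) :=
    m1 _ _ _ _ _ _ (d3 a) (e3 b) (e3 a) (d3 b) (by positivity) (by positivity)
  refine (norm_add_le _ _).trans ?_
  have b4 : ‖α * (u a * t b - u b * t a)‖ ≤ 28 * C * T ^ 2 * (2 * (4 * C * (16 * C ^ 2 * T))) := by
    rw [norm_mul]; gcongr
  have b5 : ‖β * (s a * u b - s b * u a)‖ ≤ 28 * C * T ^ 2 * (2 * (16 * C ^ 2 * T * (4 * C))) := by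
    rw [norm_mul]; gcongr
  have b6 := norm_add_le (α * (u a * t b - u b * t a)) (β * (s a * u b - s b * u a))
  have b7 : C ^ 4 * T ^ 2 ≤ C ^ 4 * T ^ 3 := by
    have : T ^ 2 ≤ T ^ 3 := by nlinarith [sq_nonneg T]
    gcongr
  calc _ ≤ 28 * C * T ^ 2 * (2 * (4 * C * (16 * C ^ 2 * T))) +
        28 * C * T ^ 2 * (2 * (16 * C ^ 2 * T * (4 * C))) +
        2 * (16 * C ^ 2 * T * (16 * C ^ 2 * T)) := by linarith
    _ = 7168 * (C ^ 4 * T ^ 3) + 512 * (C ^ 4 * T ^ 2) := by ring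
    _ ≤ 7168 * (C ^ 4 * T ^ 3) + 512 * (C ^ 4 * T ^ 3) := by gcongr
    _ = _ := by ring

/-- the zoomed matrix as a map of 2-vectors -/
noncomputable def Lz (M : Matrix (Fin 4) (Fin 4) k) (p : Fin 4) (g : Fin 4 → k) (c ρ : k) :
    (Fin 4 × Fin 4 → k) →ₗ[k] (Fin 4 × Fin 4 → k) :=
  (c * ρ ^ 3)⁻¹ • (cp (M * HM p g ρ)).mulVecLin

lemma Lz_apply (M : Matrix (Fin 4) (Fin 4) k) (p : Fin 4) (g : Fin 4 → k) (c ρ : k)
    (v : Fin 4 × Fin 4 → k) :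
    Lz M p g c ρ v = (c * ρ ^ 3)⁻¹ • (cp (M * HM p g ρ) *ᵥ v) := rfl

lemma Lz_alt (M : Matrix (Fin 4) (Fin 4) k) (p : Fin 4) (g : Fin 4 → k) (c ρ : k)
    {v : Fin 4 × Fin 4 → k} (h : Alt v) :
    Lz M p g c ρ v = (c * ρ ^ 3)⁻¹ • (sq (M * HM p g ρ) *ᵥ v) := by
  rw [Lz_apply, cp_alt _ h]

lemma norm_Lz (h : Nf p C M η c A) (nb : Nb p C η g ρ) {v : Fin 4 × Fin 4 → k} (hv : Alt v) :
    ‖c‖ * ‖ρ‖ ^ 3 * ‖Lz M p g c ρ v‖ = ‖sq (M * HM p g ρ) *ᵥ v‖ := by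
  rw [Lz_alt _ _ _ _ _ hv, norm_smul, norm_inv, norm_mul, norm_pow]
  have h1 : ‖c‖ ≠ 0 := norm_ne_zero_iff.2 h.c0
  have h2 : ‖ρ‖ ≠ 0 := norm_ne_zero_iff.2 nb.ρ0
  field_simp

lemma Lz_up (nf : Nf p C M η c A) (nb : Nb p C η g ρ) (hT : 1 ≤ ‖c‖ * ‖ρ‖)
    (v : Fin 4 × Fin 4 → k) : ‖Lz M p g c ρ v‖ ≤ 122880 * C ^ 4 * ‖v‖ := by
  have hC := nf.C1
  have hc : 0 < ‖c‖ := norm_pos_iff.2 nf.c0
  have hρ : 0 < ‖ρ‖ := norm_pos_iff.2 nb.ρ0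
  have h1 := cp_norm (M := M * HM p g ρ) (μ := 7680 * C ^ 4 * (‖c‖ * ‖ρ‖) ^ 3 / ‖c‖ ^ 2)
    (by positivity) (fun a b d e => by
      rw [le_div_iff₀ (by positivity)]
      have := minor_bd nf nb hT a b d e
      linarith) v
  rw [Lz_apply, norm_smul, norm_inv, norm_mul, norm_pow, inv_mul_le_iff₀ (by positivity)]
  refine h1.trans (le_of_eq ?_)
  field_simp
  ring

lemma MH_sy (nf : Nf p C M η c A) (nb : Nb p C η g ρ) (v w : Fin 4 → k) :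
    om ((M * HM p g ρ) *ᵥ v) ((M * HM p g ρ) *ᵥ w) = ρ ^ 2 * om v w := by
  rw [← Matrix.mulVec_mulVec, ← Matrix.mulVec_mulVec, nf.sy, HM_mulVec, HM_mulVec, om_Hm nb.g1]

lemma Lz_low (nf : Nf p C M η c A) (nb : Nb p C η g ρ) (hT : 1 ≤ ‖c‖ * ‖ρ‖)
    {v : Fin 4 × Fin 4 → k} (hv : Alt v) :
    ‖v‖ ≤ 122880 * C ^ 4 * (‖c‖ * ‖ρ‖) ^ 2 * ‖Lz M p g c ρ v‖ := by
  have hC := nf.C1
  have hc : 0 < ‖c‖ := norm_pos_iff.2 nf.c0
  have hρ : 0 < ‖ρ‖ := norm_pos_iff.2 nb.ρ0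
  have h1 := sq_low (M := M * HM p g ρ) (MH_sy nf nb)
    (μ := 7680 * C ^ 4 * (‖c‖ * ‖ρ‖) ^ 3 / ‖c‖ ^ 2)
    (by positivity) (fun a b d e => by
      rw [le_div_iff₀ (by positivity)]
      have := minor_bd nf nb hT a b d e
      linarith) hv
  rw [← norm_Lz nf nb hv, norm_pow] at h1
  have h2 : (‖ρ‖ ^ 4) * ‖v‖ ≤ ‖ρ‖ ^ 4 *
      (122880 * C ^ 4 * (‖c‖ * ‖ρ‖) ^ 2 * ‖Lz M p g c ρ v‖) := by
    calc (‖ρ‖ ^ 4) * ‖v‖ = (‖ρ‖ ^ 2) ^ 2 * ‖v‖ := by ring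
      _ ≤ _ := h1
      _ = _ := by field_simp; ring
  exact le_of_mul_le_mul_left h2 (by positivity)

/-- the constant of the insertion -/
noncomputable def Ci (C C₂ C₃ c₀ : ℝ) : ℝ := 1775616 * C ^ 4 * C₃ ^ 2 * C₂ / c₀ ^ 2

set_option maxHeartbeats 1000000 in
/-- **insertion**: an exact chain -/
theorem hins1 (nf : Nf p C M η c A) (nb : Nb p C η g ρ) {C₂ C₃ c₀ : ℝ} (hC₂ : 1 ≤ C₂)
    (hC₃ : 1 ≤ C₃) (h0 : 0 < c₀) (h0' : c₀ ≤ 1) (hT : T0 C C₂ C₃ c₀ ≤ ‖c‖ * ‖ρ‖)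
    {x y : Fin 4 → k} (hx0 : x ≠ 0) (hx : ‖M *ᵥ x‖ * ‖c‖ ≤ C₂ * ‖x‖) (hy0 : y ≠ 0)
    (hn1 : ‖pr p (y - y p • η)‖ ≤ C₃ * ‖ρ‖ * ‖y‖) (hn2 : ‖om η y‖ ≤ C₃ * ‖ρ‖ ^ 2 * ‖y‖)
    (hfar : ¬ (‖pr p (y - y p • η)‖ ≤ c₀ * ‖ρ‖ * ‖y‖ ∧ ‖om η y‖ ≤ c₀ * ‖ρ‖ ^ 2 * ‖y‖))
    {pν pω ν ω : Fin 4 × Fin 4 → k} {t s : k} (ht : t ≠ 0) (hs : s ≠ 0)
    (hν : ν = t • (sq (HM p g ρ⁻¹) *ᵥ pν)) (hω : ω = s • (sq (HM p g ρ⁻¹) *ᵥ pω))
    (hνn : Nrm ν) (hωn : Nrm ω) (hωA : Alt ω)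
    (hν0 : pν (0, 3) + pν (1, 2) = 0) (hω0 : ω (0, 3) + ω (1, 2) = 0)
    (i1 : w3 x pν = 0) (i2 : w3 y pν = 0) (i3 : w3 y pω = 0) (P Q : Fin 4 × Fin 4) :
    ‖mn ν ω P Q‖ ≤ Ci C C₂ C₃ c₀ * ‖Lz M p g c ρ ω‖ := by
  have hC := nf.C1
  have hc : 0 < ‖c‖ := norm_pos_iff.2 nf.c0
  have hρ : 0 < ‖ρ‖ := norm_pos_iff.2 nb.ρ0
  -- `x ⊥ y`
  have hxy : om x y = 0 := by
    obtain ⟨n, hn⟩ := wd_of_w3 hy0 i2
    rw [hn, ← om_of_wd] at hν0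
    obtain ⟨n', hn'⟩ := wd_of_w3 hx0 i1
    rw [hn'] at i2
    by_contra hne
    have h1 := H835.PlGr.w3_wd_left (k := k) x n'
    -- `x ∧ y ∧ n = 0` and `y ⊥ n`
    have h2 : w3 x (wd y n) = 0 := by rw [← hn]; exact i1
    have h3 := pf x y n
    have hpn : pν ≠ 0 := by
      rintro h4
      rw [h4, Matrix.mulVec_zero, smul_zero] at hν
      exact nrm_ne hνn hν
    have h5 : ∀ d : Fin 4, om x y * n d = om x n * y d := by
      intro d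
      have h6 : ∀ a b c, dd a b c = d → ((ee a b c : k) = 1 ∨ (ee a b c : k) = -1) →
          om x y * n d = om x n * y d := by
        intro a b c' hd he
        have h7 := h3 a b c'
        rw [h2, hν0, hd, mul_zero, add_zero] at h7
        simp only [Pi.zero_apply] at h7
        rcases he with he | he
        · rw [he] at h7
          linear_combination -h7
        · rw [he] at h7
          linear_combination h7
      fin_cases d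
      · exact h6 0 1 2 (by simp [dd]) (by simp [ee])
      · exact h6 0 1 3 (by simp [dd]) (by simp [ee])
      · exact h6 0 2 3 (by simp [dd]) (by simp [ee])
      · exact h6 1 2 3 (by simp [dd]) (by simp [ee])
    refine hpn ?_
    rw [hn]
    funext q
    have h8 : om x y * wd y n q = 0 := by
      simp only [wd]
      linear_combination y q.1 * h5 q.2 - y q.2 * h5 q.1
    exact (mul_eq_zero.1 h8).resolve_left hne
  obtain ⟨G1, G2, G3⟩ := geo nf nb hC₂ hC₃ h0 h0' hT hx0 hx hy0 hn1 hn2 hfar hxy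
  set X := Hm p g ρ⁻¹ x with hX
  set Y := Hm p g ρ⁻¹ y with hY
  have hback : ∀ v, Hm p g ρ (Hm p g ρ⁻¹ v) = v := Hm_inv nb.g1 nb.ρ0
  have hX0 : X ≠ 0 := fun h => hx0 (by rw [← hback x, ← hX, h, map_zero])
  have hY0 : Y ≠ 0 := fun h => hy0 (by rw [← hback y, ← hY, h, map_zero])
  have hXn : 0 < ‖X‖ := norm_pos_iff.2 hX0
  have hYn : 0 < ‖Y‖ := norm_pos_iff.2 hY0
  have eM : ∀ v, (M * HM p g ρ) *ᵥ (Hm p g ρ⁻¹ v) = M *ᵥ v := fun v => by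
    rw [← Matrix.mulVec_mulVec, HM_mulVec, hback]
  -- incidences of the zoomed chain
  have j1 : w3 X ν = 0 := by
    rw [hν, H835.PlGr.w3_smul_right, hX, ← HM_mulVec, w3_sq hx0 i1, smul_zero]
  have j2 : w3 Y ν = 0 := by
    rw [hν, H835.PlGr.w3_smul_right, hY, ← HM_mulVec, w3_sq hy0 i2, smul_zero]
  have j3 : w3 Y ω = 0 := by
    rw [hω, H835.PlGr.w3_smul_right, hY, ← HM_mulVec, w3_sq hy0 i3, smul_zero]
  have hXY : om X Y = 0 := by rw [hX, hY, om_Hm nb.g1, hxy, mul_zero]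
  have k1 := ins (MH_sy nf nb) hXY hY0 j3 hω0
  rw [hX, hY, eM, eM, ← hX, ← hY, ← norm_Lz nf nb hωA, norm_pow] at k1
  have k2 := chain_mn hνn hωn.1 j1 j2 j3 P Q
  rw [sub_self, norm_zero, mul_zero, mul_zero, add_zero] at k2
  set L := ‖Lz M p g c ρ ω‖ with hL
  have hL0 : 0 ≤ L := norm_nonneg _
  set V := ‖w3 X ω‖ with hV
  have hV0 : 0 ≤ V := norm_nonneg _
  set m' := ‖mn ν ω P Q‖ with hm'
  have hm0 : 0 ≤ m' := norm_nonneg _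
  -- `c₀ V ≤ 3264 C² C₃ C₂ ‖X‖ L`
  have k3 : c₀ * V ≤ 3264 * C ^ 2 * C₃ * C₂ * (‖X‖ * L) := by
    have h1 : (‖c‖ * ‖ρ‖ ^ 3 * ‖Y‖) * (c₀ * V) ≤
        (‖c‖ * ‖ρ‖ ^ 3 * ‖Y‖) * (3264 * C ^ 2 * C₃ * C₂ * (‖X‖ * L)) := by
      calc (‖c‖ * ‖ρ‖ ^ 3 * ‖Y‖) * (c₀ * V) = ‖c‖ * (‖ρ‖ ^ 2 * V) * (c₀ * ‖ρ‖ * ‖Y‖) := by ring
        _ ≤ ‖c‖ * (‖ρ‖ ^ 2 * V) * (544 * C ^ 2 * C₃ * ‖M *ᵥ y‖) := by gcongr
        _ = (544 * C ^ 2 * C₃) * ‖c‖ * (‖ρ‖ ^ 2 * V * ‖M *ᵥ y‖) := by ring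
        _ ≤ (544 * C ^ 2 * C₃) * ‖c‖ * (3 * ‖M *ᵥ x‖ * ‖Y‖ * (‖c‖ * ‖ρ‖ ^ 3 * L)) := by
            gcongr
        _ = (1632 * C ^ 2 * C₃) * (‖c‖ * ‖ρ‖ ^ 3 * ‖Y‖) * L * (‖M *ᵥ x‖ * ‖c‖) := by ring
        _ ≤ (1632 * C ^ 2 * C₃) * (‖c‖ * ‖ρ‖ ^ 3 * ‖Y‖) * L * (2 * C₂ * ‖X‖) := by gcongr
        _ = _ := by ring
    exact le_of_mul_le_mul_left h1 (by positivity)
  -- `c₀ ‖X‖ m' ≤ 544 C² C₃ V`
  have k4 : c₀ * (‖X‖ * m') ≤ 544 * C ^ 2 * C₃ * V := by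
    have h1 : ‖Y‖ * (c₀ * (‖X‖ * m')) ≤ ‖Y‖ * (544 * C ^ 2 * C₃ * V) := by
      calc ‖Y‖ * (c₀ * (‖X‖ * m')) = (c₀ * (‖X‖ * ‖Y‖)) * m' := by ring
        _ ≤ (272 * C ^ 2 * C₃ * ‖wd X Y‖) * m' := by gcongr
        _ = (272 * C ^ 2 * C₃) * (‖wd X Y‖ * m') := by ring
        _ ≤ (272 * C ^ 2 * C₃) * (2 * (‖Y‖ * V)) := by gcongr
        _ = _ := by ring
    exact le_of_mul_le_mul_left h1 hYn
  have k5 : ‖X‖ * (c₀ ^ 2 * m') ≤ ‖X‖ * (1775616 * C ^ 4 * C₃ ^ 2 * C₂ * L) := by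
    calc ‖X‖ * (c₀ ^ 2 * m') = c₀ * (c₀ * (‖X‖ * m')) := by ring
      _ ≤ c₀ * (544 * C ^ 2 * C₃ * V) := by gcongr
      _ = (544 * C ^ 2 * C₃) * (c₀ * V) := by ring
      _ ≤ (544 * C ^ 2 * C₃) * (3264 * C ^ 2 * C₃ * C₂ * (‖X‖ * L)) := by gcongr
      _ = _ := by ring
  have k6 := le_of_mul_le_mul_left k5 hXn
  rw [Ci, div_mul_eq_mul_div, le_div_iff₀ (by positivity)]
  linarith

end bounds

end Vale.Agent.P092.H217.PK
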