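import Vale.Agent.P092.H217.F4u
import Vale.Agent.P092.H217.PK6a
import Vale.Agent.P092.H589.K2y

/-!
P092, stage 3 (helper217), block [P3-COUNT], part 5: **the estimate of one class** `unit3` (forms of
Witt index 2, near-1-wall elements), from the zoom `ZmS`.
-/

set_option linter.all false

namespace Vale.Agent.P092.H217.F

open Finset Matrix
open Vale.Agent.P092.H820 (wd)
open Vale.Agent.P092.H464 (Pv CI)
open Vale.Agent.P092.H714.Cl (hf hf_add_left hf_smul_left hf_add_right hf_smul_right hf_zero_left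
  hf_zero_right)
open Vale.Agent.P092.H835.PlF (w3 Alt sq sq_wd alt_wd alt_sq)
open Vale.Agent.P092.H835.NF (sq_mul)
open Vale.Agent.P092.H835.PlGr (w3_smul_left w3_smul_right)
open Vale.Agent.P092.H589.K2 (Cells Nrm mn mn_wd wd_norm_le nrm_one nrm_ne Opf exists_nrm w3_sq)
open Vale.Agent.P092.H589.Mu (Cap)
open Vale.Agent.P092.H217.PK (chainB)

section zm

variable {k : Type} [NontriviallyNormedField k] {n : Type} [Fintype n] [DecidableEq n]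
  {β : ℝ}

/-- the properties of the zoom at `g` with the scale `ρ` -/
structure Zm (σ : k →+* k) (J : Matrix n n k) (C C' c c' : ℝ) (ρ : k) (g : n → k)
    (a a' : Matrix n n k) : Prop where
  inv : a * a' = 1
  iso : ∀ v w, hf σ J (a *ᵥ v) (a *ᵥ w) = hf σ J v w
  z1 : ∀ (m : ℝ) (M : Matrix n n k) (x : n → k), Nw σ J C m M → ‖M *ᵥ x‖ * m ≤ C → Nrm x →
    hf σ J x x = 0 → Near σ J C ρ x g → 1 ≤ m * ‖ρ‖ → Nw σ J C' (m * ‖ρ‖) (M * a')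
  z2 : ∀ x : n → k, Nrm x → hf σ J x x = 0 → Near σ J C ρ x g →
    ‖a *ᵥ x‖ ≤ C' * ‖ρ‖ ∧ ‖ρ‖ ≤ C' * ‖a *ᵥ x‖
  z3 : ∀ x y : n → k, Nrm x → hf σ J x x = 0 → Nrm y → hf σ J y y = 0 → Near σ J C ρ x g →
    Near σ J C ρ y g → c * ‖ρ‖ ≤ ‖wd x y‖ → c' * ‖ρ‖ ^ 2 ≤ ‖wd (a *ᵥ x) (a *ᵥ y)‖

/-- the zooms exist -/
def ZmS (σ : k →+* k) (J : Matrix n n k) : Prop :=
  ∀ C c : ℝ, 1 ≤ C → 0 < c → ∃ C' c' : ℝ, 1 ≤ C' ∧ 0 < c' ∧ ∀ (g : n → k) (ρ : k), Nrm g →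
    hf σ J g g = 0 → ρ ≠ 0 → ‖ρ‖ ≤ 1 → ∃ a a' : Matrix n n k, Zm σ J C C' c c' ρ g a a'

variable {σ : k →+* k} {J : Matrix n n k}

lemma wd_anti' (x y : n → k) : ‖wd x y‖ = ‖wd y x‖ := by
  have e : wd x y = - wd y x := by funext p; simp only [wd, Pi.neg_apply]; ring
  rw [e, norm_neg]

lemma dec' {x η : n → k} {b : n} (hb : η b = 1) : ‖x - x b • η‖ ≤ ‖wd x η‖ := by
  refine (pi_norm_le_iff_of_nonneg (norm_nonneg _)).2 fun i => ?_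
  have e : (x - x b • η) i = wd x η (i, b) := by
    simp only [wd, Pi.sub_apply, Pi.smul_apply, smul_eq_mul, hb]; ring
  rw [e]
  exact norm_le_pi_norm _ _

/-- triangle inequality for the wedge -/
lemma wd_tri {s η g : n → k} {p : n} (hp : s p = 1) (hs : ‖s‖ ≤ 1) (hη : ‖η‖ ≤ 1)
    (hg : ‖g‖ ≤ 1) : ‖wd η g‖ ≤ 2 * ‖wd η s‖ + 2 * ‖wd g s‖ + 2 * (‖wd η s‖ * ‖wd g s‖) := by
  set e := η - η p • s with he
  set f := g - g p • s with hf'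
  have e1 : ‖e‖ ≤ ‖wd η s‖ := dec' hp
  have f1 : ‖f‖ ≤ ‖wd g s‖ := dec' hp
  have key : wd η g = (η p • wd s f + g p • wd e s) + wd e f := by
    have c1 : η = η p • s + e := by rw [he]; abel
    have c2 : g = g p • s + f := by rw [hf']; abel
    have c3 : wd η g = wd (η p • s + e) (g p • s + f) := by rw [← c1, ← c2]
    rw [c3]
    funext q
    simp only [wd, Pi.add_apply, Pi.smul_apply, smul_eq_mul]
    ring
  have hηp : ‖η p‖ ≤ 1 := (norm_le_pi_norm η p).trans hη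
  have hgp : ‖g p‖ ≤ 1 := (norm_le_pi_norm g p).trans hg
  have hA : 0 ≤ ‖wd η s‖ := norm_nonneg _
  have hB : 0 ≤ ‖wd g s‖ := norm_nonneg _
  have k1 : ‖η p • wd s f‖ ≤ 2 * ‖wd g s‖ := by
    rw [norm_smul]
    calc ‖η p‖ * ‖wd s f‖ ≤ 1 * (2 * (1 * ‖wd g s‖)) := by
          refine mul_le_mul hηp ((wd_norm_le s f).trans ?_) (norm_nonneg _) zero_le_one
          have := mul_le_mul hs f1 (norm_nonneg _) zero_le_one
          linarith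
      _ = _ := by ring
  have k2 : ‖g p • wd e s‖ ≤ 2 * ‖wd η s‖ := by
    rw [norm_smul]
    calc ‖g p‖ * ‖wd e s‖ ≤ 1 * (2 * (‖wd η s‖ * 1)) := by
          refine mul_le_mul hgp ((wd_norm_le e s).trans ?_) (norm_nonneg _) zero_le_one
          have := mul_le_mul e1 hs (norm_nonneg _) hA
          linarith
      _ = _ := by ring
  have k3 : ‖wd e f‖ ≤ 2 * (‖wd η s‖ * ‖wd g s‖) := by
    refine (wd_norm_le e f).trans ?_
    have := mul_le_mul e1 f1 (norm_nonneg _) hA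
    linarith
  rw [key]
  refine (norm_add_le _ _).trans ?_
  have k4 := norm_add_le (η p • wd s f) (g p • wd e s)
  linarith

/-- triangle inequality for the form -/
lemma hf_tri (h : Fm σ J β) {s η g : n → k} {p : n} (hp : s p = 1) (hss : hf σ J s s = 0)
    (hη : ‖η‖ ≤ 1) (hg : ‖g‖ ≤ 1) :
    ‖hf σ J η g‖ ≤ ‖hf σ J η s‖ + ‖hf σ J s g‖ + β * (‖wd η s‖ * ‖wd g s‖) := by
  set e := η - η p • s with he
  set f := g - g p • s with hf'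
  have e1 : ‖e‖ ≤ ‖wd η s‖ := dec' hp
  have f1 : ‖f‖ ≤ ‖wd g s‖ := dec' hp
  have c1 : η = η p • s + e := by rw [he]; abel
  have c2 : g = g p • s + f := by rw [hf']; abel
  have d1 : hf σ J s f = hf σ J s g := by
    rw [hf', hf_sub_right, hf_smul_right, hss, mul_zero, sub_zero]
  have d2 : hf σ J e s = hf σ J η s := by
    rw [he, hf_sub_left, hf_smul_left, hss, mul_zero, sub_zero]
  have key : hf σ J η g = (σ (g p) * hf σ J η s + η p * hf σ J s g) + hf σ J e f := by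
    have c3 : hf σ J η g = hf σ J η (g p • s + f) := by rw [← c2]
    have c4 : hf σ J η f = hf σ J (η p • s + e) f := by rw [← c1]
    rw [c3, hf_add_right, hf_smul_right, c4, hf_add_left, hf_smul_left, d1]; ring
  have hηp : ‖η p‖ ≤ 1 := (norm_le_pi_norm η p).trans hη
  have hgp : ‖g p‖ ≤ 1 := (norm_le_pi_norm g p).trans hg
  have k1 : ‖σ (g p) * hf σ J η s‖ ≤ ‖hf σ J η s‖ := by
    rw [norm_mul, h.iso]
    exact mul_le_of_le_one_left (norm_nonneg _) hgp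
  have k2 : ‖η p * hf σ J s g‖ ≤ ‖hf σ J s g‖ := by
    rw [norm_mul]
    exact mul_le_of_le_one_left (norm_nonneg _) hηp
  have k3 : ‖hf σ J e f‖ ≤ β * (‖wd η s‖ * ‖wd g s‖) := h.le e1 f1
  rw [key]
  refine (norm_add_le _ _).trans ?_
  have k4 := norm_add_le (σ (g p) * hf σ J η s) (η p * hf σ J s g)
  linarith

lemma Near.mono {C C' : ℝ} {ρ : k} {x η : n → k} (h : Near σ J C ρ x η) (hC : C ≤ C') :
    Near σ J C' ρ x η :=
  ⟨h.1.trans (by gcongr), h.2.trans (by gcongr)⟩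

lemma Nw.mono {C C' m : ℝ} {M : Matrix n n k} (h : Nw σ J C m M) (hC : C ≤ C') :
    Nw σ J C' m M := by
  have hm : 0 ≤ m := by linarith [h.m1]
  exact ⟨h.C1.trans hC, h.m1, h.iso, fun v => (h.u1 v).trans (by gcongr),
    fun P hP => (h.u2 P hP).trans (by gcongr)⟩

/-- the constant of the triangle inequality -/
def Cn (β a b : ℝ) : ℝ := 2 * a + 2 * b + 2 * (a * b) + β * (a * b)

/-- triangle inequality for `Near` -/
lemma near_tri (h : Fm σ J β) {a b : ℝ} (ha : 0 ≤ a) (hb : 0 ≤ b) {ρ : k} (hρ : ‖ρ‖ ≤ 1)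
    {s η g : n → k} (hs : Nrm s) (hss : hf σ J s s = 0) (hη : ‖η‖ ≤ 1) (hg : ‖g‖ ≤ 1)
    (h1 : Near σ J a ρ s η) (h2 : Near σ J b ρ s g) : Near σ J (Cn β a b) ρ η g := by
  obtain ⟨hs1, p, hp⟩ := hs
  have hb0 := h.b0
  have hρ0 := norm_nonneg ρ
  obtain ⟨a1, a2⟩ := h1
  obtain ⟨b1, b2⟩ := h2
  rw [wd_anti'] at a1 b1
  have hab : ‖wd η s‖ * ‖wd g s‖ ≤ a * b * ‖ρ‖ ^ 2 := by
    calc ‖wd η s‖ * ‖wd g s‖ ≤ (a * ‖ρ‖) * (b * ‖ρ‖) :=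
          mul_le_mul a1 b1 (norm_nonneg _) (by positivity)
      _ = _ := by ring
  have hab0 : 0 ≤ a * b := mul_nonneg ha hb
  have hρ2 : ‖ρ‖ ^ 2 ≤ ‖ρ‖ := by nlinarith
  constructor
  · refine (wd_tri hp hs1 hη hg).trans ?_
    have h3 : a * b * ‖ρ‖ ^ 2 ≤ a * b * ‖ρ‖ := by gcongr
    have h4 : 0 ≤ β * (a * b) * ‖ρ‖ := by positivity
    rw [Cn]
    nlinarith
  · refine (hf_tri h hp hss hη hg).trans ?_
    rw [h.sym η s]
    have h3 : β * (‖wd η s‖ * ‖wd g s‖) ≤ β * (a * b * ‖ρ‖ ^ 2) := by gcongr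
    have h4 : 0 ≤ (a + b + 2 * (a * b)) * ‖ρ‖ ^ 2 := by positivity
    rw [Cn]
    nlinarith

/-- normalisation of a vector -/
lemma exists_unit {v : n → k} (hv : v ≠ 0) : ∃ t : k, t ≠ 0 ∧ ‖t‖ = ‖v‖ ∧ ‖t⁻¹ • v‖ = 1 := by
  obtain ⟨p0, hp0⟩ : ∃ p, v p ≠ 0 := by
    by_contra hc
    push Not at hc
    exact hv (funext hc)
  haveI : Nonempty n := ⟨p0⟩
  obtain ⟨p, hp⟩ := Finite.exists_max fun p => ‖v p‖
  have hvp : ‖v p‖ = ‖v‖ := le_antisymm (norm_le_pi_norm _ _)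
    ((pi_norm_le_iff_of_nonneg (norm_nonneg _)).2 hp)
  have hv0 : 0 < ‖v‖ := norm_pos_iff.2 hv
  refine ⟨v p, ?_, hvp, ?_⟩
  · rw [← norm_pos_iff, hvp]; exact hv0
  · rw [norm_smul, norm_inv, hvp, inv_mul_cancel₀ hv0.ne']

lemma hf_smul_smul (t : k) (v : n → k) : hf σ J (t • v) (t • v) = t * (σ t * hf σ J v v) := by
  rw [hf_smul_left, hf_smul_right]

/-- two contracted points are close -/
lemma near_cx (h : Fm σ J β) {C m C₂ T : ℝ} {M : Matrix n n k} (hM : Nw σ J C m M)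
    (hC₂ : 1 ≤ C₂) {ρ : k} (hT : 1 ≤ T) (hTρ : T ≤ m * ‖ρ‖) {x η : n → k}
    (hx : ‖M *ᵥ x‖ * m ≤ C₂) (hη : ‖M *ᵥ η‖ * m ≤ C₂) :
    Near σ J (4 * β ^ 4 * C * C₂ ^ 2 / T) ρ x η := by
  have hb := h.b0
  have hb1 := h.b1
  have hC := hM.C1
  have hm := hM.m1
  have hm0 : 0 < m := by linarith
  have hT0 : 0 < T := by linarith
  have hxη : ‖M *ᵥ x‖ * ‖M *ᵥ η‖ * m ^ 2 ≤ C₂ ^ 2 := by
    calc ‖M *ᵥ x‖ * ‖M *ᵥ η‖ * m ^ 2 = (‖M *ᵥ x‖ * m) * (‖M *ᵥ η‖ * m) := by ring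
      _ ≤ C₂ * C₂ := mul_le_mul hx hη (by positivity) (by linarith)
      _ = _ := by ring
  constructor
  · have h1 : m * ‖wd x η‖ ≤ 4 * β ^ 4 * C * C₂ ^ 2 := by
      calc m * ‖wd x η‖ ≤ m * (2 * β ^ 4 * C * m * ‖sq M *ᵥ wd x η‖) := by
            gcongr; exact adj2 h hM (alt_wd x η)
        _ = 2 * β ^ 4 * C * m ^ 2 * ‖wd (M *ᵥ x) (M *ᵥ η)‖ := by rw [sq_wd]; ring
        _ ≤ 2 * β ^ 4 * C * m ^ 2 * (2 * (‖M *ᵥ x‖ * ‖M *ᵥ η‖)) := by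
            gcongr; exact wd_norm_le _ _
        _ = 4 * β ^ 4 * C * (‖M *ᵥ x‖ * ‖M *ᵥ η‖ * m ^ 2) := by ring
        _ ≤ _ := by gcongr
    rw [div_mul_eq_mul_div, le_div_iff₀ hT0]
    calc ‖wd x η‖ * T ≤ ‖wd x η‖ * (m * ‖ρ‖) := by gcongr
      _ = (m * ‖wd x η‖) * ‖ρ‖ := by ring
      _ ≤ _ := by gcongr
  · have h1 : m ^ 2 * ‖hf σ J x η‖ ≤ 4 * β ^ 4 * C * C₂ ^ 2 := by
      rw [← hM.iso]
      calc m ^ 2 * ‖hf σ J (M *ᵥ x) (M *ᵥ η)‖ ≤ m ^ 2 * (β * (‖M *ᵥ x‖ * ‖M *ᵥ η‖)) := by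
            gcongr; exact h.bd _ _
        _ = β * (‖M *ᵥ x‖ * ‖M *ᵥ η‖ * m ^ 2) := by ring
        _ ≤ β * C₂ ^ 2 := by gcongr
        _ ≤ 4 * β ^ 4 * C * C₂ ^ 2 := by
            have h2 : β ≤ β ^ 4 := le_self_pow₀ hb1 (by norm_num)
            have h3 : β * 1 ≤ β ^ 4 * C := by gcongr
            have h4 : 0 ≤ β ^ 4 * C := by positivity
            have h5 : β ≤ 4 * β ^ 4 * C := by linarith
            gcongr
    rw [div_mul_eq_mul_div, le_div_iff₀ hT0]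
    have h6 : T ≤ T ^ 2 := by nlinarith
    calc ‖hf σ J x η‖ * T ≤ ‖hf σ J x η‖ * T ^ 2 := by gcongr
      _ ≤ ‖hf σ J x η‖ * (m * ‖ρ‖) ^ 2 := by gcongr
      _ = (m ^ 2 * ‖hf σ J x η‖) * ‖ρ‖ ^ 2 := by ring
      _ ≤ _ := by gcongr

/-- a point which is far from `η` is far from the contracted points -/
lemma far_cx (h : Fm σ J β) {c₀ e : ℝ} (hc₀ : 0 < c₀) (he0 : 0 ≤ e)
    (he : e ≤ min c₀ 1 / (8 * β)) {ρ : k} (hρ : ‖ρ‖ ≤ 1) {x y η : n → k} (hx : Nrm x)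
    (hxx : hf σ J x x = 0) (hy : ‖y‖ ≤ 1) (hη : ‖η‖ ≤ 1) (hxη : Near σ J e ρ x η)
    (hxy : hf σ J x y = 0) (hfar : ¬ Near σ J c₀ ρ y η) : min c₀ 1 / 8 * ‖ρ‖ ≤ ‖wd x y‖ := by
  obtain ⟨hx1, p, hp⟩ := hx
  have hb := h.b0
  have hb1 := h.b1
  set μ := min c₀ 1 with hμ
  have hμ0 : 0 < μ := lt_min hc₀ one_pos
  have hμ1 : μ ≤ 1 := min_le_right _ _
  have hμc : μ ≤ c₀ := min_le_left _ _
  have hρ0 := norm_nonneg ρ
  have hβe : β * e ≤ μ / 8 := by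
    rw [le_div_iff₀ (by positivity)] at he
    linarith
  have he8 : e ≤ μ / 8 := by
    have : e ≤ β * e := le_mul_of_one_le_left he0 hb1
    linarith
  by_contra hc
  push Not at hc
  refine hfar ?_
  obtain ⟨e1, e2⟩ := hxη
  rw [wd_anti'] at e1 hc
  have hW := norm_nonneg (wd y x)
  have hV := norm_nonneg (wd η x)
  have hprod : ‖wd y x‖ * ‖wd η x‖ ≤ (μ / 8 * ‖ρ‖) * (e * ‖ρ‖) :=
    mul_le_mul hc.le e1 hV (by positivity)
  constructor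
  · have h1 := wd_tri hp hx1 hy hη
    have h2 : (μ / 8 * ‖ρ‖) * (e * ‖ρ‖) ≤ μ / 8 * ‖ρ‖ := by
      have : e * ‖ρ‖ ≤ 1 := by nlinarith
      exact mul_le_of_le_one_right (by positivity) this
    have h3 : e * ‖ρ‖ ≤ μ / 8 * ‖ρ‖ := by gcongr
    have h4 : ‖wd y η‖ ≤ μ * ‖ρ‖ := by
      have : 0 ≤ μ * ‖ρ‖ := by positivity
      linarith
    exact h4.trans (by gcongr)
  · have h1 := hf_tri h hp hxx hy hη
    rw [h.sym y x, hxy, norm_zero, zero_add] at h1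
    have h2 : β * (‖wd y x‖ * ‖wd η x‖) ≤ μ / 8 * ‖ρ‖ ^ 2 := by
      calc β * (‖wd y x‖ * ‖wd η x‖) ≤ β * ((μ / 8 * ‖ρ‖) * (e * ‖ρ‖)) := by gcongr
        _ = (μ / 8) * (β * e) * ‖ρ‖ ^ 2 := by ring
        _ ≤ (μ / 8) * 1 * ‖ρ‖ ^ 2 := by
            gcongr; linarith
        _ = _ := by ring
    have h3 : e * ‖ρ‖ ^ 2 ≤ μ / 8 * ‖ρ‖ ^ 2 := by gcongr
    have h4 : ‖hf σ J y η‖ ≤ μ * ‖ρ‖ ^ 2 := by
      have : 0 ≤ μ * ‖ρ‖ ^ 2 := by positivity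
      linarith
    exact h4.trans (by gcongr)

end zm

section unit3

variable {𝕜 : Type} [NontriviallyNormedField 𝕜] [IsUltrametricDist 𝕜] [ProperSpace 𝕜]
  [MeasurableSpace 𝕜] [BorelSpace 𝕜] {K : Type} [NormedAddCommGroup K] [InnerProductSpace ℂ K]
  [CompleteSpace K] {n : Type} [Fintype n] [DecidableEq n] {σ : 𝕜 →+* 𝕜} {J : Matrix n n 𝕜}
  {β : ℝ}

set_option maxHeartbeats 2000000 in
/-- **the estimate of one class** -/
theorem unit3 (cl : Cells 𝕜) (h : Fm σ J β) {Ca : ℝ} (hCa : 0 ≤ Ca) (hA : An σ J Ca)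
    (hZ : ZmS σ J) {φ : (n × n → 𝕜) → ℂ} {δ CF : ℝ} (hφ : Lcf φ δ CF) (C C₂ C₃ c₀ : ℝ)
    (hC : 1 ≤ C) (h₂ : 1 ≤ C₂) (h₃ : 1 ≤ C₃) (h0 : 0 < c₀) :
    ∃ T₀ C' : ℝ, 1 ≤ T₀ ∧ 0 ≤ C' ∧
    ∀ (X Y : Type) [TopologicalSpace X] [CompactSpace X] [TopologicalSpace.MetrizableSpace X]
      [MeasurableSpace X] [BorelSpace X] [TopologicalSpace Y] [CompactSpace Y]
      [TopologicalSpace.MetrizableSpace Y] [MeasurableSpace Y] [BorelSpace Y]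
      (s : X → n → 𝕜) (q : Y → n × n → 𝕜), (∀ x, Nrm (s x)) → (∀ x, hf σ J (s x) (s x) = 0) →
      Measurable q → (∀ y, Nrm (q y)) → (∀ y, Iso2 σ J (q y)) →
      ∀ Inc : X → Y → Prop, IsClosed {z : X × Y | Inc z.1 z.2} →
      (∀ x y, Inc x y → w3 (s x) (q y) = 0) →
      ∀ (b z : C(X, ℂ) →⋆ₐ[ℂ] (K →L[ℂ] K)) (l n' : C(Y, ℂ) →⋆ₐ[ℂ] (K →L[ℂ] K)),
      CI Inc (H466.pv b) (H466.pv n') → CI Inc (H466.pv z) (H466.pv n') →
      CI Inc (H466.pv z) (H466.pv l) →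
      ∀ (κ : Type) (S : Finset κ) (M : κ → Matrix n n 𝕜) (η : κ → n → 𝕜) (m : ℝ), 1 ≤ m →
      (∀ k ∈ S, Nw σ J C m (M k)) →
      (∀ k ∈ S, Nrm (η k) ∧ hf σ J (η k) (η k) = 0 ∧ ‖M k *ᵥ η k‖ * m ≤ C₂) →
      ∀ ρ : 𝕜, ρ ≠ 0 → ‖ρ‖ ≤ 1 → T₀ ≤ m * ‖ρ‖ →
      ∀ B : κ → Set X, (∀ k ∈ S, IsClosed (B k)) →
      (∀ k ∈ S, ∀ x ∈ B k, ‖M k *ᵥ s x‖ * m ≤ C₂) →
      ∀ A' : Set X, MeasurableSet A' → (∀ k ∈ S, ∀ x ∈ A', Near σ J C₃ ρ (s x) (η k)) →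
      (∀ k ∈ S, ∀ x ∈ A', ¬ Near σ J c₀ ρ (s x) (η k)) →
      ∀ (E W : κ → (K →L[ℂ] K)) (F : κ → Y → ℂ) (N : ℝ), 0 ≤ N →
      (∀ k ∈ S, E k * H466.pv b (B k) = E k) →
      (∀ k ∈ S, ∀ D, MeasurableSet D → E k * H466.pv n' D = H466.pv n' D * E k) →
      Cap S E N → (∀ k ∈ S, ∀ y, F k y = φ (sq (M k) *ᵥ q y)) →
      (∀ k ∈ S, Opf (H466.pv l) (F k) (W k)) →
      (∀ k ∈ S, ∀ D, MeasurableSet D → W k * H466.pv z D = H466.pv z D * W k) →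
      ∀ v, ∑ k ∈ S, ‖E k (W k (H466.pv z A' v))‖ ^ 2 ≤
        (C' * (1 + Real.log m) * N) ^ 2 * ‖H466.pv z A' v‖ ^ 2 := by
  classical
  have hb := h.b0
  have hb1 := h.b1
  set μ := min c₀ 1 with hμ
  have hμ0 : 0 < μ := lt_min h0 one_pos
  have hμ1 : μ ≤ 1 := min_le_right _ _
  set G : ℝ := 4 * β ^ 4 * C * C₂ ^ 2 with hG
  have hG0 : 0 ≤ G := by positivity
  set T₀ : ℝ := max 1 (G * (8 * β) / μ) with hT₀
  have hT1 : 1 ≤ T₀ := le_max_left _ _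
  have hT0 : 0 < T₀ := by linarith
  set e : ℝ := G / T₀ with he
  have he0 : 0 ≤ e := by positivity
  have he8 : e ≤ μ / (8 * β) := by
    rw [he, div_le_div_iff₀ hT0 (by positivity)]
    have : G * (8 * β) / μ ≤ T₀ := le_max_right _ _
    rw [div_le_iff₀ hμ0] at this
    linarith
  have he1 : e ≤ 1 := by
    refine he8.trans ?_
    rw [div_le_one (by positivity)]
    nlinarith
  have hCn0 : ∀ a b : ℝ, 0 ≤ a → 0 ≤ b → 0 ≤ Cn β a b := fun a b ha hb' => by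
    unfold Cn; positivity
  set N₁ : ℝ := Cn β C₃ C₃ with hN₁
  have hN₁0 : 0 ≤ N₁ := hCn0 _ _ (by linarith) (by linarith)
  set N₂ : ℝ := Cn β e N₁ with hN₂
  have hN₂0 : 0 ≤ N₂ := hCn0 _ _ he0 hN₁0
  set C₅ : ℝ := C + C₂ + C₃ + N₁ + N₂ with hC₅
  have hC₅1 : 1 ≤ C₅ := by linarith
  obtain ⟨C', c', hC'1, hc'0, hZm⟩ := hZ C₅ (μ / 8) hC₅1 (by positivity)
  have hC₂' : 1 ≤ C₂ * C' := one_le_mul_of_one_le_of_one_le h₂ hC'1
  have hc₁ : 0 < c' / C' ^ 2 := by positivity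
  obtain ⟨CU, hCU0, hCU⟩ := unitS (K := K) cl h hCa hA hφ C' (C₂ * C') (c' / C' ^ 2) hC'1 hC₂' hc₁
  refine ⟨T₀, CU, hT1, hCU0, ?_⟩
  intro X Y _ _ _ _ _ _ _ _ _ _ s q hs hss hqm hqn hqI Inc hI hinc b z l n' hbn hzn hzl κ S M η m
    hm hM hη ρ hρ0 hρ1 hTρ B hB hBx A' hA' hnear hfar E W F N hN hEB hEn hcap hF hW hWz v
  have hlm : 0 ≤ Real.log m := Real.log_nonneg hm
  have hfin0 : 0 ≤ (CU * (1 + Real.log m) * N) ^ 2 * ‖H466.pv z A' v‖ ^ 2 := by positivity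
  rcases S.eq_empty_or_nonempty with rfl | ⟨k0, hk0⟩
  · simpa using hfin0
  rcases A'.eq_empty_or_nonempty with rfl | ⟨x0, hx0⟩
  · rw [(H604.pv_Pv z).empty]
    simp
  set g : n → 𝕜 := η k0 with hg
  obtain ⟨hgN, hgg, hgC⟩ := hη k0 hk0
  obtain ⟨a, a', hz⟩ := hZm g ρ hgN hgg hρ0 hρ1
  have hρn : 0 < ‖ρ‖ := norm_pos_iff.2 hρ0
  have haa : a' * a = 1 := mul_eq_one_comm.1 hz.inv
  have hm0 : 0 < m := by linarith
  have hmρ1 : 1 ≤ m * ‖ρ‖ := hT1.trans hTρ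
  -- the classes are close to `g`
  have hηg : ∀ k ∈ S, Near σ J N₁ ρ (η k) g := fun k hk =>
    near_tri h (by linarith) (by linarith) hρ1 (hs x0) (hss x0) (hη k hk).1.1 hgN.1
      (hnear k hk x0 hx0) (hnear k0 hk0 x0 hx0)
  -- contracted points
  have hxη : ∀ k ∈ S, ∀ x ∈ B k, Near σ J e ρ (s x) (η k) := fun k hk x hx =>
    near_cx h (hM k hk) h₂ hT1 hTρ (hBx k hk x hx) (hη k hk).2.2
  have hxg : ∀ k ∈ S, ∀ x ∈ B k, Near σ J C₅ ρ (s x) g := fun k hk x hx => by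
    have h1 : Near σ J e ρ (η k) (s x) := by
      obtain ⟨h1, h2⟩ := hxη k hk x hx
      exact ⟨by rw [wd_anti']; exact h1, by rw [h.sym]; exact h2⟩
    have h2 := near_tri h he0 hN₁0 hρ1 (hη k hk).1 (hη k hk).2.1 (hs x).1 hgN.1 h1 (hηg k hk)
    exact h2.mono (by linarith)
  have hyg : ∀ x ∈ A', Near σ J C₅ ρ (s x) g := fun x hx =>
    (hnear k0 hk0 x hx).mono (by linarith)
  -- the zoomed isometries
  have hNw : ∀ k ∈ S, Nw σ J C' (m * ‖ρ‖) (M k * a') := fun k hk =>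
    hz.z1 m (M k) (η k) ((hM k hk).mono (by linarith)) ((hη k hk).2.2.trans (by linarith))
      (hη k hk).1 (hη k hk).2.1 ((hηg k hk).mono (by linarith)) hmρ1
  -- the zoomed representative
  have hback : ∀ y, sq a' *ᵥ (sq a *ᵥ q y) = q y := by
    intro y
    have e1 : (H835.PlF.sq (1 : Matrix n n 𝕜)) = 1 := Matrix.one_kronecker_one
    rw [Matrix.mulVec_mulVec, ← sq_mul, haa, e1, Matrix.one_mulVec]
  have hpm : Measurable fun y => sq a *ᵥ q y := by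
    have hc : Continuous fun w : n × n → 𝕜 => sq a *ᵥ w :=
      Continuous.matrix_mulVec continuous_const continuous_id
    exact hc.measurable.comp hqm
  obtain ⟨q', hqm', hq'⟩ := exists_nrm hpm (fun y h1 => by
    have h2 := hback y
    rw [h1, Matrix.mulVec_zero] at h2
    exact nrm_ne (hqn y) h2.symm)
  choose hqn' t ht0 hqt using hq'
  have hqP : ∀ y, Pl σ J (q y) := fun y => Pl.of_iso2 (hqn y) (hqI y)
  have hqP' : ∀ y, Pl σ J (q' y) := fun y => by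
    refine Pl.of_iso2 (hqn' y) ?_
    obtain ⟨u, w, e0, e1, e2, e3, e4⟩ := hqI y
    refine ⟨t y • (a *ᵥ u), a *ᵥ w, ?_, ?_, ?_, ?_, ?_⟩
    · rw [hqt y, e0, sq_wd]
      funext p
      simp only [wd, Pi.smul_apply, smul_eq_mul]; ring
    · rw [hf_smul_smul, hz.iso, e1]; simp
    · rw [hf_smul_left, hz.iso, e2, mul_zero]
    · rw [hf_smul_right, hz.iso, e3, mul_zero]
    · rw [hz.iso, e4]
  have hpq : ∀ k y, sq (M k) *ᵥ q y = (t y)⁻¹ • (sq (M k * a') *ᵥ q' y) := by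
    intro k y
    rw [hqt y, Matrix.mulVec_smul, smul_smul, inv_mul_cancel₀ (ht0 y), one_smul, sq_mul,
      ← Matrix.mulVec_mulVec, hback]
  have ha0 : ∀ x, a *ᵥ s x ≠ 0 := by
    intro x hx
    have h1 : a' *ᵥ (a *ᵥ s x) = s x := by rw [Matrix.mulVec_mulVec, haa, Matrix.one_mulVec]
    rw [hx, Matrix.mulVec_zero] at h1
    exact nrm_ne (hs x) h1.symm
  have hfin := hCU q' hqm' hqP' (H604.pv_Pv l) (H604.pv_Pv n') (H466.pv z A') S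
    (fun k => M k * a') (m * ‖ρ‖) hmρ1 hNw E W ?_ F N hN ?_ hW hcap v
  · refine hfin.trans ?_
    have h1 : Real.log (m * ‖ρ‖) ≤ Real.log m := by
      refine Real.log_le_log (by positivity) ?_
      exact mul_le_of_le_one_right hm0.le hρ1
    have h2 : 0 ≤ Real.log (m * ‖ρ‖) := Real.log_nonneg hmρ1
    have h3 : CU * (1 + Real.log (m * ‖ρ‖)) * N ≤ CU * (1 + Real.log m) * N := by gcongr
    exact mul_le_mul_of_nonneg_right (pow_le_pow_left₀ (by positivity) h3 2) (sq_nonneg _)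
  · intro k hk D D' hD hD' hDD
    refine chainB hI b z l n' hbn hzn hzl (hB k hk) hA' hD hD' (hEB k hk) (hEn k hk) (hWz k hk) ?_
    intro ν hν ω hω x hx y hy hxν hyν hyω
    refine hDD ν hν ω hω ?_
    obtain ⟨tx, htx, htx1, htx2⟩ := exists_unit (ha0 x)
    obtain ⟨ty, hty, hty1, hty2⟩ := exists_unit (ha0 y)
    obtain ⟨x1, x2⟩ := hz.z2 (s x) (hs x) (hss x) (hxg k hk x hx)
    obtain ⟨y1, y2⟩ := hz.z2 (s y) (hs y) (hss y) (hyg y hy)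
    have hxpos : 0 < ‖a *ᵥ s x‖ := norm_pos_iff.2 (ha0 x)
    have hypos : 0 < ‖a *ᵥ s y‖ := norm_pos_iff.2 (ha0 y)
    have hinc3 : ∀ (u : X) (w : Y) (tu : 𝕜), Inc u w →
        w3 (tu⁻¹ • (a *ᵥ s u)) (q' w) = 0 := by
      intro u w tu hu
      rw [hqt w, w3_smul_left, w3_smul_right, w3_sq (nrm_ne (hs u)) (hinc u w hu), smul_zero,
        smul_zero]
    refine ⟨tx⁻¹ • (a *ᵥ s x), ty⁻¹ • (a *ᵥ s y), ⟨htx2, ?_, hC₂', ?_⟩,
      ⟨hqP' ν, hqP' ω, hty2, hinc3 x ν tx hxν, hinc3 y ν ty hyν, hinc3 y ω ty hyω⟩, ?_⟩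
    · rw [hf_smul_smul, hz.iso, hss x]; simp
    · have e1 : (M k * a') *ᵥ (tx⁻¹ • (a *ᵥ s x)) = tx⁻¹ • (M k *ᵥ s x) := by
        rw [Matrix.mulVec_smul, Matrix.mulVec_mulVec, Matrix.mul_assoc, haa, Matrix.mul_one]
      rw [e1, norm_smul, norm_inv, htx1]
      have h1 := hBx k hk x hx
      rw [inv_mul_eq_div, div_mul_eq_mul_div, div_le_iff₀ hxpos]
      calc ‖M k *ᵥ s x‖ * (m * ‖ρ‖) = (‖M k *ᵥ s x‖ * m) * ‖ρ‖ := by ring
        _ ≤ C₂ * (C' * ‖a *ᵥ s x‖) := by gcongr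
        _ = _ := by ring
    · have hxy : hf σ J (s x) (s y) = 0 := (hqP ν).orth (hinc x ν hxν) (hinc y ν hyν)
      have h1 := far_cx h h0 he0 he8 hρ1 (hs x) (hss x) (hs y).1 (hη k hk).1.1 (hxη k hk x hx)
        hxy (hfar k hk y hy)
      have h2 := hz.z3 (s x) (s y) (hs x) (hss x) (hs y) (hss y) (hxg k hk x hx) (hyg y hy) h1
      have e1 : wd (tx⁻¹ • (a *ᵥ s x)) (ty⁻¹ • (a *ᵥ s y)) =
          (tx⁻¹ * ty⁻¹) • wd (a *ᵥ s x) (a *ᵥ s y) := by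
        funext p
        simp only [wd, Pi.smul_apply, smul_eq_mul]; ring
      rw [e1, norm_smul, norm_mul, norm_inv, norm_inv, htx1, hty1, ← mul_inv, inv_mul_eq_div,
        div_le_div_iff₀ (by positivity) (by positivity)]
      calc c' * (‖a *ᵥ s x‖ * ‖a *ᵥ s y‖) ≤ c' * ((C' * ‖ρ‖) * (C' * ‖ρ‖)) := by gcongr
        _ = (c' * ‖ρ‖ ^ 2) * C' ^ 2 := by ring
        _ ≤ _ := by gcongr
  · intro k hk y
    rw [hF k hk y, hpq k y, hφ.hom _ _ (inv_ne_zero (ht0 y))]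

end unit3

end Vale.Agent.P092.H217.F
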