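import Vale.Agent.P092.H217.PF
import Vale.Agent.P092.SR.Blocks
import Vale.Agent.P092.H432.TA.CAt
import Vale.Agent.P092.H878.TA4
import Vale.Agent.P092.H345.Box
import Vale.Agent.P092.H971.PSL

/-!
P092, project B: Theorem A (`SR.ThAStmt`), assembly of the blocks of helper432, helper729,
helper200, helper878, helper345, helper971, helper361 and helper217.
-/

set_option autoImplicit false
set_option linter.all false

open scoped InnerProductSpace
open ContinuousLinearMap Filter Topology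

namespace Vale.Agent.P092.H217

open Vale.Agent.P092.H432.TA Vale.Agent.P092.SR

variable {Γ H H' ℋ : Type} [Group Γ] [Group H] [Group H'] [TopologicalSpace H]
    [TopologicalSpace H'] [NormedAddCommGroup ℋ] [InnerProductSpace ℂ ℋ] [CompleteSpace ℋ]
    {pr : Γ →* H} {pr' : Γ →* H'} {S T : Γ →* (ℋ →L[ℂ] ℋ)} {sc : Set (ℋ →L[ℂ] ℋ)}

/-- boxes at all small levels -/
theorem boxes_of_leg (hH : GoodGrp H) (hH' : GoodGrp H') (hL : Leg pr pr' S T sc) :
    ∀ U0 ∈ cof pr, ∀ V0 ∈ cof pr', ∃ U V z, U ≤ U0 ∧ V ≤ V0 ∧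
      Box S T sc (cof pr) (cof pr') U V z := by
  have hS := sys_of_leg hL
  have hE := erg_of_leg hL
  have hA : GIn (cof pr) := H971.gin_good hH hL.dense
  have hB : GIn (cof pr') := H971.gin_good hH' hL.dense'
  obtain ⟨K', K, hK', hK, x, hx, hx0, hxne, c, hc⟩ := hL.finT
  have hU₀ : K'.comap pr ∈ cof pr := ⟨K', hK', rfl⟩
  have hV₀ : K.comap pr' ∈ cof pr' := ⟨K, hK, rfl⟩
  have hpos : x.IsPositive := (ContinuousLinearMap.nonneg_iff_isPositive x).1 hx0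
  have hQ : x ∈ Q S T sc (K'.comap pr) (K.comap pr') :=
    ⟨fun a ha => (hx.1 a ha).symm, fun b hb => (hx.2.1 b hb).symm, fun w hw => (hx.2.2 w hw).symm⟩
  obtain ⟨p, hpQ, hpp, hp0, hpr⟩ := exists_rfin_prj hS hpos hxne hQ (C := c) (by
    intro F ξ
    have h1 := hc ξ
    have h2 : ∀ q : Γ ⧸ K.comap pr', (⟪x (T q.out⁻¹ ξ), T q.out⁻¹ ξ⟫_ℂ).re =
        (⟪T q.out⁻¹ ξ, x (T q.out⁻¹ ξ)⟫_ℂ).re := by
      intro q
      rw [← inner_conj_symm, Complex.conj_re]
    rw [Finset.sum_congr rfl fun q _ => h2 q]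
    refine sum_le_hasSum F (fun q _ => ?_) h1
    rw [← h2]
    exact hpos.re_inner_nonneg_left _)
  have hcat := exists_catom hS hA hB hE hU₀ hV₀ hpQ hpp hp0 hpr
  have hmin := exists_minP_level hS hA hB hE hU₀ hV₀ hpQ hpp hp0 hpr
  have hcomm := H878.comm_of_catom hS hA hB hE hV₀ hcat
  intro U0 hU0 V0 hV0
  obtain ⟨U, hU, V, hV, z, hz⟩ := H345.exists_box hS hA hB hE hcomm hV₀ hmin U0 hU0 V0 hV0
  exact ⟨U, V, z, hU, hV, hz⟩

/-- **Theorem A.** -/
theorem thA (hH : GoodGrp H) (hH' : GoodGrp H') (hL : Leg pr pr' S T sc) :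
    ∃ (ψ : H' ≃ₜ* H) (P : Set H → (ℋ →L[ℂ] ℋ)),
      PFam pr (ψ.toMulEquiv.toMonoidHom.comp pr') S T sc P :=
  pfam_of_box hH hH' hL (boxes_of_leg hH hH' hL)

/-- **Theorem A**, in the letters of `SR/Blocks.lean`. -/
theorem thAStmt : ThAStmt := by
  intro Γ H H' ℋ _ _ _ _ _ _ _ _ _ pr pr' S T sc hH hH' hL
  exact thA hH hH' hL

end Vale.Agent.P092.H217
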