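import Vale.Agent.P092.H217.F2

/-!
P092, stage 3 (helper217), block [P3-COUNT], part 3: chains `x - ν - y - ω` with `x` contracted.
-/

set_option linter.all false

namespace Vale.Agent.P092.H217.F

open Finset Matrix
open Vale.Agent.P092.H820 (wd)
open Vale.Agent.P092.H714.Cl (hf hf_add_left hf_smul_left hf_add_right hf_smul_right hf_zero_left
  hf_zero_right)
open Vale.Agent.P092.H835.PlF (w3 Alt sq sq_wd alt_wd alt_sq bl bl_self bl_anti sq_apply)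
open Vale.Agent.P092.H589.K2 (Nrm mn mn_wd wd_norm_le chain_mn nrm_one nrm_ne)
open Vale.Agent.P092.H835.PlGr (wd_of_w3 w3_wd_right w3_wd_left)

variable {k : Type} [NontriviallyNormedField k] {n : Type} [Fintype n] [DecidableEq n]
  {σ : k →+* k} {J : Matrix n n k} {β : ℝ}

/-- an isotropic plane, normalised -/
structure Pl (σ : k →+* k) (J : Matrix n n k) (P : n × n → k) : Prop where
  nrm : Nrm P
  alt : Alt P
  gr : Bm σ J P P = 0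

lemma Pl.of_iso2 {P : n × n → k} (hn : Nrm P) (hP : Iso2 σ J P) : Pl σ J P := by
  obtain ⟨y, m, e, h1, h2, h3, h4⟩ := hP
  refine ⟨hn, e ▸ alt_wd y m, ?_⟩
  funext ⟨a, b⟩
  have e1 : Bm σ J P P (a, b) = Bm σ J P (wd y m) (a, b) := by rw [← e]
  rw [e1, Bm_wd_right, e, ct_wd, ct_wd, h1, h2, h3, h4]
  simp

/-- a vector in terms of two rows -/
lemma dec_piv {P : n × n → k} (hP : Alt P) {p q : n} (hpq : P (p, q) = 1) (x : n → k) :
    x = (fun i => w3 x P (i, (p, q))) +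
      (x q • (fun c => P (p, c)) - x p • fun c => P (q, c)) := by
  funext i
  have h1 := hP.2 p i
  have h2 := hP.2 q i
  simp only [w3, Pi.add_apply, Pi.sub_apply, Pi.smul_apply, smul_eq_mul]
  rw [hpq, h1, h2]
  ring

lemma w3_row_le (x : n → k) (P : n × n → k) (p q : n) :
    ‖fun i => w3 x P (i, (p, q))‖ ≤ ‖w3 x P‖ :=
  (pi_norm_le_iff_of_nonneg (norm_nonneg _)).2 fun i => norm_le_pi_norm (w3 x P) (i, (p, q))

namespace Pl

variable {P : n × n → k} (hP : Pl σ J P)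
include hP

lemma ne : P ≠ 0 := nrm_ne hP.nrm

lemma one : ‖P‖ = 1 := nrm_one hP.nrm

lemma rows (a b : n) : hf σ J (fun c => P (a, c)) (fun c => P (b, c)) = 0 := congrFun hP.gr (a, b)

/-- two points of the plane are orthogonal -/
lemma orth {u v : n → k} (hu : w3 u P = 0) (hv : w3 v P = 0) : hf σ J u v = 0 := by
  obtain ⟨⟨p, q⟩, hpq⟩ := hP.nrm.2
  have e1 := dec_piv hP.alt hpq u
  have e2 := dec_piv hP.alt hpq v
  have z1 : (fun i => w3 u P (i, (p, q))) = 0 := by funext i; rw [hu]; rfl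
  have z2 : (fun i => w3 v P (i, (p, q))) = 0 := by funext i; rw [hv]; rfl
  rw [z1, zero_add] at e1
  rw [z2, zero_add] at e2
  rw [e1, e2]
  simp only [hf_sub_left, hf_sub_right, hf_smul_left, hf_smul_right, hP.rows]
  simp

end Pl

/-- the contraction of the difference of two planes -/
lemma ct_diff (h : Fm σ J β) {P P' : n × n → k} (hP : Pl σ J P) {x : n → k} (hx : ‖x‖ = 1) :
    ‖ct σ J x (P' - P)‖ ≤ β * (‖P' - P‖ * ‖w3 x P‖) + 2 * ‖Bm σ J P' P‖ := by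
  obtain ⟨⟨p, q⟩, hpq⟩ := hP.nrm.2
  have hb := h.b0
  set z : n → k := fun i => w3 x P (i, (p, q)) with hz
  set r : n → k := x q • (fun c => P (p, c)) - x p • fun c => P (q, c) with hr
  have e : x = z + r := dec_piv hP.alt hpq x
  have e1 : ct σ J x (P' - P) = ct σ J z (P' - P) + ct σ J r (P' - P) := by
    conv_lhs => rw [e]
    rw [ct_add_left]
  have e2 : ∀ a, ct σ J r (P' - P) a =
      σ (x q) * Bm σ J P' P (a, p) - σ (x p) * Bm σ J P' P (a, q) := by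
    intro a
    rw [ct_sub]
    simp only [Pi.sub_apply, ct, hr, hf_sub_right, hf_smul_right, Bm]
    have h1 := hP.rows a p
    have h2 := hP.rows a q
    rw [h1, h2]; ring
  rw [e1]
  refine (norm_add_le _ _).trans (add_le_add ?_ ?_)
  · refine (h.ct_le z (P' - P)).trans ?_
    gcongr
    exact w3_row_le x P p q
  · refine (pi_norm_le_iff_of_nonneg (by positivity)).2 fun a => ?_
    rw [e2]
    refine (norm_sub_le _ _).trans ?_
    rw [norm_mul, norm_mul, h.iso, h.iso]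
    have h1 : ‖x q‖ * ‖Bm σ J P' P (a, p)‖ ≤ 1 * ‖Bm σ J P' P‖ :=
      mul_le_mul ((norm_le_pi_norm x q).trans hx.le) (norm_le_pi_norm _ _) (norm_nonneg _)
        zero_le_one
    have h2 : ‖x p‖ * ‖Bm σ J P' P (a, q)‖ ≤ 1 * ‖Bm σ J P' P‖ :=
      mul_le_mul ((norm_le_pi_norm x p).trans hx.le) (norm_le_pi_norm _ _) (norm_nonneg _)
        zero_le_one
    linarith

variable {C m C₂ : ℝ} {M : Matrix n n k} {x : n → k}

/-- **(D)** -/
lemma boundD (h : Fm σ J β) (hM : Nw σ J C m M) (hx : Cx σ J C₂ m M x) {P P' : n × n → k}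
    (hP : Pl σ J P) (hP' : Alt P') : ‖sq M *ᵥ (P' - P)‖ ≤
      CB β C C₂ * (m * (β * (‖P' - P‖ * ‖w3 x P‖) + 2 * ‖Bm σ J P' P‖) + ‖P' - P‖) := by
  have hm := hM.m1
  have hA : Alt (P' - P) := by
    refine ⟨fun i => ?_, fun i j => ?_⟩
    · simp only [Pi.sub_apply, hP'.1 i, hP.alt.1 i]; ring
    · simp only [Pi.sub_apply]
      rw [hP'.2 i j, hP.alt.2 i j]; ring
  have h0 : 0 ≤ CB β C C₂ := zero_le_one.trans (CB1 h.b1 hM.C1 hx.c1)
  refine (boundB h hM hx hA).trans ?_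
  have := ct_diff h (P' := P') hP hx.x1
  gcongr

/-- the constant of the insertion -/
def K1 (β C C₂ : ℝ) : ℝ := 4 * β ^ 5 * C * C₂ ^ 2

lemma K1_ge (hb : 1 ≤ β) (hC : 1 ≤ C) (hC₂ : 1 ≤ C₂) : 1 ≤ K1 β C C₂ := by
  have h1 : 1 ≤ β ^ 5 := one_le_pow₀ hb
  have h2 : 1 ≤ C₂ ^ 2 := one_le_pow₀ hC₂
  have h3 : 1 ≤ β ^ 5 * C := one_le_mul_of_one_le_of_one_le h1 hC
  have h4 : 1 ≤ β ^ 5 * C * C₂ ^ 2 := one_le_mul_of_one_le_of_one_le h3 h2
  unfold K1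
  linarith

/-- (C2) -/
lemma low_y (h : Fm σ J β) (hM : Nw σ J C m M) (hx : Cx σ J C₂ m M x) (y : n → k) :
    ‖wd x y‖ ≤ 4 * β ^ 4 * C * C₂ * ‖M *ᵥ y‖ := by
  have hb := h.b0
  have hC := hM.C1
  have hm := hM.m1
  refine (adj2 h hM (alt_wd x y)).trans ?_
  rw [sq_wd]
  calc 2 * β ^ 4 * C * m * ‖wd (M *ᵥ x) (M *ᵥ y)‖
      ≤ 2 * β ^ 4 * C * m * (2 * (‖M *ᵥ x‖ * ‖M *ᵥ y‖)) := by
        gcongr; exact wd_norm_le _ _
    _ = 4 * β ^ 4 * C * ‖M *ᵥ y‖ * (‖M *ᵥ x‖ * m) := by ring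
    _ ≤ 4 * β ^ 4 * C * ‖M *ᵥ y‖ * C₂ := by
        have := hx.le
        gcongr
    _ = _ := by ring

/-- **(C)** the insertion -/
lemma insC (h : Fm σ J β) (hM : Nw σ J C m M) (hx : Cx σ J C₂ m M x) {y z : n → k}
    (hxy : hf σ J y x = 0) :
    ‖hf σ J z x‖ * ‖wd x y‖ * m ≤ K1 β C C₂ * ‖sq M *ᵥ wd y z‖ := by
  have hb := h.b0
  have hC := hM.C1
  have hm := hM.m1
  have e : ct σ J (M *ᵥ x) (sq M *ᵥ wd y z) = hf σ J z x • (M *ᵥ y) := by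
    rw [ct_sq hM.iso, ct_wd, hxy, zero_smul, sub_zero, mulVec_smul]
  have e1 : ‖hf σ J z x‖ * ‖M *ᵥ y‖ ≤ β * (‖sq M *ᵥ wd y z‖ * ‖M *ᵥ x‖) := by
    rw [← norm_smul, ← e]
    exact h.ct_le _ _
  have e2 := low_y h hM hx y
  have hC₂ := hx.c1
  calc ‖hf σ J z x‖ * ‖wd x y‖ * m
      ≤ ‖hf σ J z x‖ * (4 * β ^ 4 * C * C₂ * ‖M *ᵥ y‖) * m := by gcongr
    _ = 4 * β ^ 4 * C * C₂ * m * (‖hf σ J z x‖ * ‖M *ᵥ y‖) := by ring
    _ ≤ 4 * β ^ 4 * C * C₂ * m * (β * (‖sq M *ᵥ wd y z‖ * ‖M *ᵥ x‖)) := by gcongr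
    _ = 4 * β ^ 5 * C * C₂ * ‖sq M *ᵥ wd y z‖ * (‖M *ᵥ x‖ * m) := by ring
    _ ≤ 4 * β ^ 5 * C * C₂ * ‖sq M *ᵥ wd y z‖ * C₂ := by
        have := hx.le
        gcongr
    _ = _ := by rw [K1]; ring

/-- a chain `x - ν - y - ω` -/
structure Chn (σ : k →+* k) (J : Matrix n n k) (x y : n → k) (ν ω : n × n → k) : Prop where
  pν : Pl σ J ν
  pω : Pl σ J ω
  y1 : ‖y‖ = 1
  i1 : w3 x ν = 0
  i2 : w3 y ν = 0
  i3 : w3 y ω = 0

variable {y : n → k} {ν ω : n × n → k}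

lemma Chn.xy (c : Chn σ J x y ν ω) : hf σ J x y = 0 := c.pν.orth c.i1 c.i2

lemma Chn.z (c : Chn σ J x y ν ω) : ∃ z, ω = wd y z ∧ hf σ J y y = 0 ∧ hf σ J y z = 0 ∧
    hf σ J z y = 0 ∧ hf σ J z z = 0 := by
  have hy0 : y ≠ 0 := by
    rintro rfl
    have := c.y1
    rw [norm_zero] at this
    exact zero_ne_one this
  obtain ⟨z, hz⟩ := wd_of_w3 hy0 c.i3
  have i4 : w3 z ω = 0 := by rw [hz, w3_wd_right]
  exact ⟨z, hz, c.pω.orth c.i3 c.i3, c.pω.orth c.i3 i4, c.pω.orth i4 c.i3, c.pω.orth i4 i4⟩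

/-- `wd x y` is a multiple of `ν` -/
lemma Chn.lam (c : Chn σ J x y ν ω) : ∃ lam : k, wd x y = lam • ν ∧ ‖wd x y‖ = ‖lam‖ := by
  obtain ⟨hν1, P0, hP0⟩ := c.pν.nrm
  have hprop : wd x y = wd x y P0 • ν := by
    funext R
    have e := mn_wd x y ν P0.1 P0.2 R.1 R.2
    rw [c.i1, c.i2] at e
    simp only [Pi.zero_apply, mul_zero, sub_zero, add_zero, mn, Prod.mk.eta, hP0, one_mul] at e
    rw [Pi.smul_apply, smul_eq_mul]
    linear_combination -e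
  refine ⟨_, hprop, ?_⟩
  conv_lhs => rw [hprop]
  rw [norm_smul, c.pν.one, mul_one]

/-- **the geometry of a chain** -/
lemma Chn.geo (h : Fm σ J β) {Ca : ℝ} (hCa : 0 ≤ Ca) (hA : An σ J Ca) (hM : Nw σ J C m M)
    (hx : Cx σ J C₂ m M x) (c : Chn σ J x y ν ω) {c₀ : ℝ} (h0 : 0 < c₀) (hw : c₀ ≤ ‖wd x y‖) :
    m * ‖w3 x ω‖ ^ 2 ≤ Ca * K1 β C C₂ * ‖sq M *ᵥ ω‖ ∧
    (∀ P Q, c₀ * ‖mn ν ω P Q‖ ≤ 2 * ‖w3 x ω‖) ∧
    c₀ ^ 2 * m * ‖Bm σ J ν ω‖ ≤ K1 β C C₂ * ‖sq M *ᵥ ω‖ := by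
  have hb := h.b0
  have hC := hM.C1
  have hm := hM.m1
  have hm0 : 0 < m := by linarith
  obtain ⟨z, hz, z1, z2, z3, z4⟩ := c.z
  have hxy := c.xy
  have k1 := insC h hM hx (z := z) (h.z hxy)
  rw [← hz] at k1
  refine ⟨?_, ?_, ?_⟩
  · have h1 := hA x y z hx.iso z1 z4 hxy z2
    rw [← hz, c.pω.one, mul_one, h.sym] at h1
    calc m * ‖w3 x ω‖ ^ 2 ≤ m * (Ca * (‖hf σ J z x‖ * ‖wd x y‖)) := by gcongr
      _ = Ca * (‖hf σ J z x‖ * ‖wd x y‖ * m) := by ring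
      _ ≤ Ca * (K1 β C C₂ * ‖sq M *ᵥ ω‖) := by gcongr
      _ = _ := by ring
  · intro P Q
    have h1 := chain_mn c.pν.nrm c.pω.nrm.1 c.i1 c.i2 c.i3 P Q
    rw [sub_self, norm_zero, mul_zero, mul_zero, add_zero, c.y1, one_mul] at h1
    refine le_trans ?_ h1
    gcongr
  · obtain ⟨lam, hl, hl'⟩ := c.lam
    have e1 : ∀ p, lam * Bm σ J ν ω p = Bm σ J (wd x y) ω p := by
      intro p
      rw [hl]
      simp only [Bm]
      have e : (fun c => (lam • ν) (p.1, c)) = lam • fun c => ν (p.1, c) := rfl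
      rw [e, hf_smul_left]
    have e2 : ‖lam‖ * ‖Bm σ J ν ω‖ ≤ ‖hf σ J z x‖ := by
      have h1 : ‖lam • Bm σ J ν ω‖ ≤ ‖hf σ J z x‖ := by
        refine (pi_norm_le_iff_of_nonneg (norm_nonneg _)).2 ?_
        rintro ⟨a, b⟩
        rw [Pi.smul_apply, smul_eq_mul, e1, hz, Bm_wd_right, ct_wd, ct_wd, z1, z2, hxy]
        simp only [zero_smul, zero_sub, Pi.neg_apply, Pi.smul_apply, smul_eq_mul, sub_self,
          Pi.zero_apply, mul_zero, sub_zero, norm_neg, norm_mul, h.iso, mul_neg]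
        have y1 : ‖y b‖ ≤ 1 := (norm_le_pi_norm y b).trans c.y1.le
        have y2 : ‖y a‖ ≤ 1 := (norm_le_pi_norm y a).trans c.y1.le
        rw [h.sym x z]
        calc ‖y b‖ * (‖hf σ J z x‖ * ‖y a‖) ≤ 1 * (‖hf σ J z x‖ * 1) := by gcongr
          _ = _ := by ring
      rwa [norm_smul] at h1
    have e3 : c₀ * ‖Bm σ J ν ω‖ ≤ ‖hf σ J z x‖ := by
      refine le_trans ?_ e2
      rw [← hl']
      gcongr
    calc c₀ ^ 2 * m * ‖Bm σ J ν ω‖ = (c₀ * ‖Bm σ J ν ω‖) * c₀ * m := by ring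
      _ ≤ ‖hf σ J z x‖ * ‖wd x y‖ * m := by gcongr
      _ ≤ _ := k1

end Vale.Agent.P092.H217.F
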