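import Vale.Agent.P092.H464.P.CCLab
import Vale.Agent.P092.H217.F3

/-!
P092, stage 3 (helper217), block [P3-COUNT], part 4: Carnot-Caratheodory labels for a vector valued
sesquilinear form `B` (for the planes: `B(P, Q) = P J σ(Q)ᵀ`).
-/

set_option linter.all false

namespace Vale.Agent.P092.H217.F

open Finset
open Vale.Agent.P092.H820 (wd)
open Vale.Agent.P092.H589.K2 (Cells code Nrm code_count code_count_ball code_small
  measurable_code)
open Vale.Agent.P092.H464.PW (rep rep_spec half_sq dec)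

section bf

variable {𝕜 : Type} [NormedField 𝕜] [MeasurableSpace 𝕜] {ι κ : Type} [Fintype ι] [Fintype κ]

/-- a bounded vector valued form, sesquilinear and symmetric up to norm -/
structure Bf (B : (ι → 𝕜) → (ι → 𝕜) → κ → 𝕜) (C₀ : ℝ) : Prop where
  one : 1 ≤ C₀
  add : ∀ x y z, B (x + y) z = B x z + B y z
  add' : ∀ x y z, B z (x + y) = B z x + B z y
  smul : ∀ (c : 𝕜) x z, ‖B (c • x) z‖ = ‖c‖ * ‖B x z‖
  smul' : ∀ (c : 𝕜) x z, ‖B z (c • x)‖ = ‖c‖ * ‖B z x‖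
  sym : ∀ x y, ‖B x y‖ = ‖B y x‖
  le : ∀ x y, ‖B x y‖ ≤ C₀ * ‖x‖ * ‖y‖
  meas : ∀ w, Measurable fun x => B x w

namespace Bf

variable {B : (ι → 𝕜) → (ι → 𝕜) → κ → 𝕜} {C₀ : ℝ} (h : Bf B C₀)
include h

lemma sub (x y z : ι → 𝕜) : B (x - y) z = B x z - B y z := by
  have e : x = (x - y) + y := by abel
  have := h.add (x - y) y z
  rw [← e] at this
  rw [this]; abel

lemma sub' (x y z : ι → 𝕜) : B z (x - y) = B z x - B z y := by
  have e : x = (x - y) + y := by abel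
  have := h.add' (x - y) y z
  rw [← e] at this
  rw [this]; abel

lemma le' {x y : ι → 𝕜} {a b : ℝ} (hx : ‖x‖ ≤ a) (hy : ‖y‖ ≤ b) : ‖B x y‖ ≤ C₀ * a * b := by
  have h0 := h.one
  have ha : 0 ≤ a := (norm_nonneg _).trans hx
  calc ‖B x y‖ ≤ C₀ * ‖x‖ * ‖y‖ := h.le x y
    _ ≤ C₀ * a * b := by gcongr

/-- two points close to the third one -/
lemma two {x y η : ι → 𝕜} {b : ι} (hb : η b = 1) (hη : B η η = 0) (hx : ‖x‖ ≤ 1) (hy : ‖y‖ ≤ 1)
    {a' b' ρ : ℝ} (ha : 0 ≤ a') (hρ : 0 ≤ ρ) (h1 : ‖wd x η‖ ≤ a' * ρ) (h2 : ‖wd y η‖ ≤ a' * ρ)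
    (h3 : ‖B x η‖ ≤ b' * ρ ^ 2) (h4 : ‖B y η‖ ≤ b' * ρ ^ 2) :
    ‖B x y‖ ≤ (2 * b' + C₀ * a' ^ 2) * ρ ^ 2 := by
  set e := x - x b • η with he
  set f := y - y b • η with hf
  have e1 : ‖e‖ ≤ a' * ρ := (dec hb).trans h1
  have f1 : ‖f‖ ≤ a' * ρ := (dec hb).trans h2
  have hxb : ‖x b‖ ≤ 1 := (norm_le_pi_norm x b).trans hx
  have hyb : ‖y b‖ ≤ 1 := (norm_le_pi_norm y b).trans hy
  have key : B x y = B x (y b • η) + (B (x b • η) f + B e f) := by
    have c1 : y = y b • η + f := by rw [hf]; abel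
    have c2 : x = x b • η + e := by rw [he]; abel
    have c3 : B x y = B x (y b • η) + B x f := by
      conv_lhs => rw [c1]
      rw [h.add']
    have c4 : B x f = B (x b • η) f + B e f := by
      conv_lhs => rw [c2]
      rw [h.add]
    rw [c3, c4]
  have k1 : ‖B x (y b • η)‖ ≤ b' * ρ ^ 2 := by
    rw [h.smul']
    calc ‖y b‖ * ‖B x η‖ ≤ 1 * (b' * ρ ^ 2) := mul_le_mul hyb h3 (norm_nonneg _) zero_le_one
      _ = _ := one_mul _
  have k2 : ‖B (x b • η) f‖ ≤ b' * ρ ^ 2 := by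
    have c1 : ‖B η f‖ ≤ ‖B y η‖ := by
      rw [hf, h.sub', h.sym y η]
      refine (norm_sub_le _ _).trans ?_
      rw [h.smul', hη, norm_zero, mul_zero, add_zero]
    rw [h.smul]
    calc ‖x b‖ * ‖B η f‖ ≤ 1 * (b' * ρ ^ 2) :=
          mul_le_mul hxb (c1.trans h4) (norm_nonneg _) zero_le_one
      _ = _ := one_mul _
  have k3 : ‖B e f‖ ≤ C₀ * (a' * ρ) * (a' * ρ) := h.le' e1 f1
  rw [key]
  refine (norm_add_le _ _).trans ?_
  have k4 := norm_add_le (B (x b • η) f) (B e f)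
  nlinarith

end Bf

end bf

section lab

variable {𝕜 : Type} [NormedField 𝕜] [MeasurableSpace 𝕜] (cl : Cells 𝕜) {ι κ : Type} [Fintype ι]
  [Fintype κ] (B : (ι → 𝕜) → (ι → 𝕜) → κ → 𝕜) {X : Type} (s : X → ι → 𝕜)

/-- the label: the code, and the code of level `2 m` of `B(x, w)`, `w` a fixed point of the cell -/
noncomputable def lbv (m : ℕ) (x : X) : (ι → cl.T) × (κ → cl.T) :=
  (code cl m (s x), code cl (2 * m) (B (s x) (rep cl s m (code cl m (s x)))))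

variable {cl B s}
variable {C₀ : ℝ} (h : Bf B C₀) (h00 : ∀ x, B (s x) (s x) = 0)

include h h00 in
lemma lbv_small {m : ℕ} {x x' : X} (he : lbv cl B s m x = lbv cl B s m x') :
    ‖s x - s x'‖ ≤ (1 / 2) ^ m ∧ ‖B (s x) (s x')‖ ≤ (1 + C₀) * ((1 / 2) ^ m) ^ 2 := by
  have e1 : code cl m (s x) = code cl m (s x') := congrArg Prod.fst he
  have e2 := congrArg Prod.snd he
  simp only [lbv] at e2
  rw [e1] at e2
  obtain ⟨x₀, h1, h2⟩ := rep_spec (cl := cl) (s := s) m x'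
  rw [h2] at e2
  have k1 := code_small e1
  have k2 := code_small e2
  have k3 := code_small (h1.symm)
  rw [half_sq] at k2
  have key : B (s x) (s x') = (B (s x) (s x₀) - B (s x') (s x₀)) +
      B (s x - s x') (s x' - s x₀) := by
    rw [h.sub', h.sub, h.sub, h00 x']; abel
  refine ⟨k1, ?_⟩
  rw [key]
  have k4 := h.le' k1 k3
  refine (norm_add_le _ _).trans ?_
  nlinarith

include h in
lemma lbv_fin (hn : ∀ x, Nrm (s x)) (m : ℕ) :
    ∃ F : Finset ((ι → cl.T) × (κ → cl.T)), ∀ x, lbv cl B s m x ∈ F := by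
  classical
  obtain ⟨M, hM⟩ := code_count_ball (c := cl) (ι := ι) (2 ^ m)
  obtain ⟨F₁, _, hF₁⟩ := hM m 0
  obtain ⟨M', hM'⟩ := code_count_ball (c := cl) (ι := κ) (C₀ * 2 ^ (2 * m))
  obtain ⟨F₂, _, hF₂⟩ := hM' (2 * m) 0
  refine ⟨F₁ ×ˢ F₂, fun x => mem_product.2 ⟨hF₁ _ ?_, hF₂ _ ?_⟩⟩
  · rw [sub_zero, ← mul_pow]
    norm_num
    exact (hn x).1
  · obtain ⟨x₀, h1, h2⟩ := rep_spec (cl := cl) (s := s) m x
    rw [h2, sub_zero, mul_assoc, ← mul_pow]
    norm_num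
    have := h.le' (hn x).1 (hn x₀).1
    linarith

include h in
lemma lbv_meas [MeasurableSpace X] (hs : Measurable s) (m : ℕ)
    (t : (ι → cl.T) × (κ → cl.T)) : MeasurableSet {x | lbv cl B s m x = t} := by
  have e : {x | lbv cl B s m x = t} = {x | code cl m (s x) = t.1} ∩
      {x | code cl (2 * m) (B (s x) (rep cl s m t.1)) = t.2} := by
    ext x
    constructor
    · intro hx
      have h1 : code cl m (s x) = t.1 := congrArg Prod.fst hx
      have h2 := congrArg Prod.snd hx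
      simp only [lbv] at h2
      rw [h1] at h2
      exact ⟨h1, h2⟩
    · rintro ⟨h1, h2⟩
      refine Prod.ext h1 ?_
      simp only [lbv]
      rw [(h1 : code cl m (s x) = t.1)]
      exact h2
  rw [e]
  exact (measurable_code hs m t.1).inter
    (measurable_code ((h.meas (rep cl s m t.1)).comp hs) (2 * m) t.2)

include h in
/-- number of labels close to a point -/
lemma lbv_count (a' b' : ℝ) (ha : 0 ≤ a') : ∃ M : ℕ, ∀ {X : Type} (s : X → ι → 𝕜),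
    (∀ x, Nrm (s x)) → (∀ x, B (s x) (s x) = 0) → ∀ (m : ℕ) (η : ι → 𝕜), Nrm η → B η η = 0 →
    ∃ F : Finset ((ι → cl.T) × (κ → cl.T)), F.card ≤ M ∧ ∀ x : X,
      ‖wd (s x) η‖ ≤ a' * (1 / 2) ^ m →
      ‖B (s x) η‖ ≤ b' * ((1 / 2) ^ m) ^ 2 → lbv cl B s m x ∈ F := by
  classical
  obtain ⟨M₁, hM₁⟩ := code_count (c := cl) (ι := ι) a' 1
  obtain ⟨M₂, hM₂⟩ := code_count_ball (c := cl) (ι := κ) (2 * b' + C₀ * a' ^ 2 + C₀)
  refine ⟨M₁ * M₂, fun {X} s hn h00 m η hη hηη => ?_⟩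
  obtain ⟨F₁, hc₁, hF₁⟩ := hM₁ m η hη.1 hη.2
  obtain ⟨b, hb⟩ := hη.2
  have hex : ∀ c : ι → cl.T, ∃ F : Finset (κ → cl.T), F.card ≤ M₂ ∧ ∀ x : X,
      code cl m (s x) = c → ‖wd (s x) η‖ ≤ a' * (1 / 2) ^ m →
      ‖B (s x) η‖ ≤ b' * ((1 / 2) ^ m) ^ 2 →
      code cl (2 * m) (B (s x) (rep cl s m c)) ∈ F := by
    intro c
    by_cases hc : ∃ x : X, code cl m (s x) = c ∧ ‖wd (s x) η‖ ≤ a' * (1 / 2) ^ m ∧
      ‖B (s x) η‖ ≤ b' * ((1 / 2) ^ m) ^ 2
    · obtain ⟨x₁, g1, g2, g3⟩ := hc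
      obtain ⟨F, hF, hF'⟩ := hM₂ (2 * m) (B (s x₁) (rep cl s m c))
      refine ⟨F, hF, fun x k1 k2 k3 => hF' _ ?_⟩
      obtain ⟨x₀, l1, l2⟩ := rep_spec (cl := cl) (s := s) m x₁
      rw [g1] at l1 l2
      have m1 : ‖s x - s x₁‖ ≤ (1 / 2) ^ m := code_small (k1.trans g1.symm)
      have m2 : ‖s x₀ - s x₁‖ ≤ (1 / 2) ^ m := code_small (l1.trans g1.symm)
      have m3 := h.two hb hηη (hn x).1 (hn x₁).1 ha (by positivity) k2 g2 k3 g3
      have key : B (s x) (s x₀) - B (s x₁) (s x₀) = B (s x) (s x₁) +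
          B (s x - s x₁) (s x₀ - s x₁) := by
        rw [h.sub', h.sub, h.sub, h00 x₁]; abel
      rw [l2, key, half_sq]
      have m4 := h.le' m1 m2
      refine (norm_add_le _ _).trans ?_
      nlinarith
    · exact ⟨∅, by simp, fun x k1 k2 k3 => absurd ⟨x, k1, k2, k3⟩ hc⟩
  choose G hG1 hG2 using hex
  refine ⟨F₁.biUnion fun c => {c} ×ˢ G c, ?_, fun x k2 k3 => ?_⟩
  · refine card_biUnion_le.trans ?_
    calc ∑ c ∈ F₁, (({c} : Finset (ι → cl.T)) ×ˢ G c).card ≤ ∑ _c ∈ F₁, M₂ := by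
          refine sum_le_sum fun c _ => ?_
          rw [card_product, card_singleton, one_mul]
          exact hG1 c
      _ = F₁.card * M₂ := by rw [sum_const, smul_eq_mul]
      _ ≤ _ := Nat.mul_le_mul_right _ hc₁
  · rw [mem_biUnion]
    refine ⟨code cl m (s x), hF₁ _ (hn x) (fun p q => ?_), ?_⟩
    · have e : η p * s x q - s x p * η q = wd (s x) η (q, p) := by simp only [wd]; ring
      rw [e]
      exact (norm_le_pi_norm _ _).trans k2
    · rw [mem_product]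
      exact ⟨mem_singleton_self _, hG2 _ x rfl k2 k3⟩

end lab

section pack

variable {𝕜 : Type} [NormedField 𝕜] [MeasurableSpace 𝕜] [OpensMeasurableSpace 𝕜]
  (cl : Cells 𝕜) {ι κ : Type} [Fintype ι] [Fintype κ] {B : (ι → 𝕜) → (ι → 𝕜) → κ → 𝕜} {C₀ : ℝ}

lemma meas_ball {Y : Type} [MeasurableSpace Y] {α : Type} [Fintype α] {f : Y → α → 𝕜}
    (hf : Measurable f) {a : ℝ} (ha : 0 ≤ a) : MeasurableSet {y | ‖f y‖ ≤ a} := by
  have e : {y | ‖f y‖ ≤ a} = ⋂ i, {y | ‖f y i‖ ≤ a} := by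
    ext y
    simp only [Set.mem_ofPred_eq, Set.mem_iInter]
    exact pi_norm_le_iff_of_nonneg ha
  rw [e]
  refine MeasurableSet.iInter fun i => ?_
  exact measurableSet_le (measurable_norm.comp ((measurable_pi_apply i).comp hf))
    measurable_const

lemma wd_anti (x y : ι → 𝕜) : ‖wd x y‖ = ‖wd y x‖ := by
  have e : wd x y = - wd y x := by funext p; simp only [wd, Pi.neg_apply]; ring
  rw [e, norm_neg]

open Classical in
/-- a point with a given label -/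
noncomputable def rp {T X : Type} (lb : ℕ → X → T) (s : X → ι → 𝕜) (m : ℕ) (t : T) : ι → 𝕜 :=
  if h : ∃ x, lb m x = t then s h.choose else 0

lemma rp_spec {T X : Type} (lb : ℕ → X → T) (s : X → ι → 𝕜) {m : ℕ} {t : T}
    (h : ∃ x, lb m x = t) : ∃ x, lb m x = t ∧ rp lb s m t = s x :=
  ⟨h.choose, h.choose_spec, by rw [rp, dif_pos h]⟩

include cl in
/-- **the labels, the neighbourhoods and their multiplicity** -/
theorem lab_pack (h : Bf B C₀) (hw : ∀ w : ι → 𝕜, Measurable fun x : ι → 𝕜 => wd x w)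
    (A A' : ℝ) (hA : 0 ≤ A) (hA' : 0 ≤ A') :
    ∃ M : ℕ, ∀ {Y : Type} [MeasurableSpace Y] (q : Y → ι → 𝕜), Measurable q →
    (∀ y, Nrm (q y)) → (∀ y, B (q y) (q y) = 0) → ∃ (T : Type) (lb : ℕ → Y → T)
    (P : ℕ → T → Set Y), (∀ m, ∃ G : Finset T, ∀ y, lb m y ∈ G) ∧
      (∀ m t, MeasurableSet {y | lb m y = t}) ∧
      (∀ m y y', lb m y = lb m y' → ‖q y - q y'‖ ≤ (1 / 2) ^ m ∧
        ‖B (q y) (q y')‖ ≤ (1 + C₀) * ((1 / 2) ^ m) ^ 2) ∧
      (∀ m t, MeasurableSet (P m t)) ∧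
      (∀ m ν ω, ‖wd (q ν) (q ω)‖ ≤ A * (1 / 2) ^ m →
        ‖B (q ν) (q ω)‖ ≤ A' * ((1 / 2) ^ m) ^ 2 → ν ∈ P m (lb m ω)) ∧
      ∀ m ν, ∀ U : Finset T, (∀ t ∈ U, (∃ y, lb m y = t) ∧ ν ∈ P m t) → U.card ≤ M := by
  classical
  have h0 := h.one
  set a : ℝ := A + 2 with ha
  set b : ℝ := 2 * (A' + (1 + C₀)) + C₀ * a ^ 2 with hb
  have ha0 : 0 ≤ a := by linarith
  have hb0 : 0 ≤ b := by positivity
  obtain ⟨M, hM⟩ := lbv_count (cl := cl) h a b ha0
  refine ⟨M, fun {Y} _ q hq hn h00 => ?_⟩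
  set lb := lbv cl B q with hlb
  set P : ℕ → ((ι → cl.T) × (κ → cl.T)) → Set Y := fun m t =>
    {y | ‖wd (q y) (rp lb q m t)‖ ≤ a * (1 / 2) ^ m} ∩
      {y | ‖B (q y) (rp lb q m t)‖ ≤ b * ((1 / 2) ^ m) ^ 2} with hP
  refine ⟨_, lb, P, fun m => lbv_fin h hn m, fun m t => lbv_meas h hq m t,
    fun m y y' he => lbv_small h h00 he, fun m t => ?_, fun m ν ω h1 h2 => ?_, ?_⟩
  · exact (meas_ball ((hw _).comp hq) (by positivity)).inter
      (meas_ball ((h.meas _).comp hq) (by positivity))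
  · obtain ⟨y, hy, hr⟩ := rp_spec lb q (m := m) (t := lb m ω) ⟨ω, rfl⟩
    obtain ⟨k1, k2⟩ := lbv_small h h00 hy
    have hp : (0 : ℝ) ≤ (1 / 2) ^ m := by positivity
    have k3 : ‖wd (q y) (q ω)‖ ≤ 2 * (1 / 2) ^ m := by
      have e : wd (q y) (q ω) = wd (q y - q ω) (q ω) := by
        funext p; simp only [wd, Pi.sub_apply]; ring
      rw [e]
      refine (H464.PW.wd_le _ _).trans ?_
      rw [H464.PW.nrm_one (hn ω), mul_one]
      linarith
    have hm : rp lb q m (lb m ω) = q y := hr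
    refine ⟨?_, ?_⟩
    · simp only [Set.mem_ofPred_eq]
      rw [hm]
      have e : wd (q ν) (q y) = wd (q ν) (q ω) + wd (q ν) (q y - q ω) := by
        funext p; simp only [wd, Pi.add_apply, Pi.sub_apply]; ring
      rw [e]
      refine (norm_add_le _ _).trans ?_
      have k4 := H464.PW.wd_le (q ν) (q y - q ω)
      rw [H464.PW.nrm_one (hn ν), one_mul] at k4
      rw [ha]
      linarith
    · simp only [Set.mem_ofPred_eq]
      rw [hm]
      obtain ⟨j, hj⟩ := (hn ω).2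
      refine h.two hj (h00 ω) (hn ν).1 (hn y).1 ha0 hp (h1.trans ?_) (k3.trans ?_)
        (h2.trans ?_) (k2.trans ?_)
      · exact mul_le_mul_of_nonneg_right (by linarith) hp
      · exact mul_le_mul_of_nonneg_right (by linarith) hp
      · exact mul_le_mul_of_nonneg_right (by linarith) (by positivity)
      · exact mul_le_mul_of_nonneg_right (by linarith) (by positivity)
  · intro m ν U hU
    obtain ⟨F, hF1, hF2⟩ := hM q hn h00 m (q ν) (hn ν) (h00 ν)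
    refine (card_le_card fun t ht => ?_).trans hF1
    obtain ⟨⟨y₀, hy₀⟩, hν⟩ := hU t ht
    obtain ⟨y, hy, hr⟩ := rp_spec lb q (m := m) (t := t) ⟨y₀, hy₀⟩
    obtain ⟨h1, h2⟩ := hν
    simp only [Set.mem_ofPred_eq] at h1 h2
    rw [hr] at h1 h2
    rw [← hy]
    refine hF2 y ?_ ?_
    · rw [wd_anti]; exact h1
    · rw [h.sym]; exact h2

end pack

end Vale.Agent.P092.H217.F
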