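import Vale.Agent.P092.H217.F1
import Vale.Agent.P092.H217.F4

/-!
P092, stage 3 (helper217), block [P3-COUNT], part 4u: **the class step at the unit scale**.
-/

set_option linter.all false

namespace Vale.Agent.P092.H217.F

open Finset Matrix
open Vale.Agent.P092.H820 (wd)
open Vale.Agent.P092.H464 (Pv CI)
open Vale.Agent.P092.H714.Cl (hf hf_add_left hf_smul_left hf_add_right hf_smul_right hf_zero_left
  hf_zero_right)
open Vale.Agent.P092.H835.PlF (w3 Alt sq sq_wd alt_wd alt_sq)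
open Vale.Agent.P092.H589.K2 (Cells Nrm mn mn_wd wd_norm_le nrm_one nrm_ne Opf)
open Vale.Agent.P092.H589.Mu (Cap)

section lv

open Classical in
/-- the first dyadic number below `t` -/
noncomputable def lv (t : ℝ) : ℕ := if h : ∃ j : ℕ, (1 / 2 : ℝ) ^ j ≤ t then Nat.find h else 0

lemma lv_ex {t : ℝ} (ht : 0 < t) : ∃ j : ℕ, (1 / 2 : ℝ) ^ j ≤ t := by
  obtain ⟨j, hj⟩ := exists_pow_lt_of_lt_one ht (by norm_num : (1 / 2 : ℝ) < 1)
  exact ⟨j, hj.le⟩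

lemma lv_le {t : ℝ} (ht : 0 < t) : (1 / 2 : ℝ) ^ lv t ≤ t := by
  classical
  have h := lv_ex ht
  rw [lv, dif_pos h]
  exact Nat.find_spec h

lemma lv_min {t : ℝ} {J : ℕ} (h : (1 / 2 : ℝ) ^ J ≤ t) : lv t ≤ J := by
  classical
  have h' : ∃ j : ℕ, (1 / 2 : ℝ) ^ j ≤ t := ⟨J, h⟩
  rw [lv, dif_pos h']
  exact Nat.find_min' h' h

lemma lv_gt {t R : ℝ} (ht : 0 < t) (hR : 1 ≤ R) (htR : t ≤ R) : t ≤ 2 * R * (1 / 2) ^ lv t := by
  rcases Nat.eq_zero_or_pos (lv t) with h0 | h0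
  · rw [h0, pow_zero]; linarith
  · have h1 : t < (1 / 2) ^ (lv t - 1) := by
      by_contra hc
      have := lv_min (not_lt.1 hc)
      omega
    have h2 : (1 / 2 : ℝ) ^ (lv t - 1) = 2 * (1 / 2) ^ lv t := by
      obtain ⟨j, hj⟩ : ∃ j, lv t = j + 1 := ⟨lv t - 1, by omega⟩
      rw [hj, Nat.add_sub_cancel, pow_succ]; ring
    rw [h2] at h1
    have h3 : (0 : ℝ) < (1 / 2) ^ lv t := by positivity
    nlinarith

end lv

section ultra

variable {𝕜 : Type} [NontriviallyNormedField 𝕜] [IsUltrametricDist 𝕜] {ι : Type} [Fintype ι]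

lemma pi_add_max (v w : ι → 𝕜) : ‖v + w‖ ≤ max ‖v‖ ‖w‖ := by
  refine (pi_norm_le_iff_of_nonneg (le_max_of_le_left (norm_nonneg _))).2 fun i => ?_
  refine (IsUltrametricDist.norm_add_le_max (v i) (w i)).trans ?_
  exact max_le_max (norm_le_pi_norm _ _) (norm_le_pi_norm _ _)

lemma pi_add_eq {v w : ι → 𝕜} (h : ‖w‖ < ‖v‖) : ‖v + w‖ = ‖v‖ := by
  refine le_antisymm ((pi_add_max v w).trans (max_le le_rfl h.le)) ?_
  have e : v = (v + w) + (-w) := by abel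
  have h1 : ‖v‖ ≤ max ‖v + w‖ ‖w‖ := by
    conv_lhs => rw [e]
    refine (pi_add_max _ _).trans ?_
    rw [norm_neg]
  rcases le_max_iff.1 h1 with h2 | h2
  · exact h2
  · exact absurd h2 (not_le.2 h)

end ultra

section bm

variable {𝕜 : Type} [NontriviallyNormedField 𝕜] [ProperSpace 𝕜] [MeasurableSpace 𝕜]
  [BorelSpace 𝕜] {n : Type} [Fintype n] [DecidableEq n] {σ : 𝕜 →+* 𝕜} {J : Matrix n n 𝕜} {β : ℝ}

lemma bf_Bm (h : Fm σ J β) : Bf (Bm σ J) β where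
  one := h.b1
  add := fun x y z => by
    funext p
    exact hf_add_left σ J (fun c => x (p.1, c)) (fun c => y (p.1, c)) _
  add' := fun x y z => by
    funext p
    exact hf_add_right σ J _ (fun c => x (p.2, c)) (fun c => y (p.2, c))
  smul := fun c x z => by
    have e : Bm σ J (c • x) z = c • Bm σ J x z := by
      funext p
      exact hf_smul_left σ J c (fun d => x (p.1, d)) _
    rw [e, norm_smul]
  smul' := fun c x z => by
    have e : Bm σ J z (c • x) = σ c • Bm σ J z x := by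
      funext p
      exact hf_smul_right σ J c _ (fun d => x (p.2, d))
    rw [e, norm_smul, h.iso]
  sym := fun x y => le_antisymm (h.Bm_sym x y) (h.Bm_sym y x)
  le := fun x y => by
    have := h.Bm_le x y
    rwa [← mul_assoc] at this
  meas := fun w => by
    refine measurable_pi_iff.2 fun p => ?_
    have e : (fun x => Bm σ J x w p) = fun x : n × n → 𝕜 =>
        ∑ i, x (p.1, i) * jv σ J (fun d => w (p.2, d)) i := by
      funext x; rfl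
    rw [e]
    exact Finset.measurable_sum _ fun i _ => (measurable_pi_apply _).mul_const _

lemma meas_wd {ι : Type} [Fintype ι] (w : ι → 𝕜) : Measurable fun x : ι → 𝕜 => wd x w := by
  refine measurable_pi_iff.2 fun p => ?_
  have e : (fun x : ι → 𝕜 => wd x w p) = fun x => x p.1 * w p.2 - x p.2 * w p.1 := by
    funext x; simp only [wd]
  rw [e]
  exact ((measurable_pi_apply _).mul_const _).sub ((measurable_pi_apply _).mul_const _)

end bm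

section unitS

variable {𝕜 : Type} [NontriviallyNormedField 𝕜] [IsUltrametricDist 𝕜] [ProperSpace 𝕜]
  [MeasurableSpace 𝕜] [BorelSpace 𝕜] {K : Type} [NormedAddCommGroup K] [InnerProductSpace ℂ K]
  [CompleteSpace K] {n : Type} [Fintype n] [DecidableEq n] {σ : 𝕜 →+* 𝕜} {J : Matrix n n 𝕜}
  {β : ℝ}

/-- number of scales -/
lemma exists_J {Q : ℝ} (hQ : 1 ≤ Q) : ∃ D : ℝ, 0 ≤ D ∧ ∀ m : ℝ, 1 ≤ m → ∃ J : ℕ,
    Q * m ≤ 2 ^ J ∧ ((J : ℝ) + 1) ≤ D * (1 + Real.log m) := by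
  have hl2 : 0 < Real.log 2 := Real.log_pos one_lt_two
  have hlQ : 0 ≤ Real.log Q := Real.log_nonneg hQ
  refine ⟨2 + (Real.log Q + 1) / Real.log 2, by positivity, fun m hm => ?_⟩
  have hlm : 0 ≤ Real.log m := Real.log_nonneg hm
  have hQm : 1 ≤ Q * m := one_le_mul_of_one_le_of_one_le hQ hm
  refine ⟨⌈Real.log (Q * m) / Real.log 2⌉₊, ?_, ?_⟩
  · have h1 := Nat.le_ceil (Real.log (Q * m) / Real.log 2)
    rw [div_le_iff₀ hl2] at h1
    have h2 := Real.exp_le_exp.2 h1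
    rw [Real.exp_log (by linarith)] at h2
    refine h2.trans (le_of_eq ?_)
    rw [mul_comm, Real.exp_mul, Real.exp_log two_pos, Real.rpow_natCast]
  · have h1 := Nat.ceil_lt_add_one (a := Real.log (Q * m) / Real.log 2)
      (div_nonneg (Real.log_nonneg hQm) hl2.le)
    have h2 : Real.log (Q * m) = Real.log Q + Real.log m := by
      rw [Real.log_mul (by linarith) (by positivity)]
    rw [h2] at h1 ⊢
    have h3 : (Real.log Q + Real.log m) / Real.log 2 ≤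
        ((Real.log Q + 1) / Real.log 2) * (1 + Real.log m) := by
      rw [div_mul_eq_mul_div]
      gcongr
      nlinarith [mul_nonneg hlQ hlm]
    nlinarith

/-- the square root of the level -/
noncomputable def ell (M : Matrix n n 𝕜) (m : ℝ) (P : n × n → 𝕜) : ℝ :=
  Real.sqrt (‖sq M *ᵥ P‖ / m)

variable {C m C₂ : ℝ} {M : Matrix n n 𝕜} {P : n × n → 𝕜}

lemma ell_sq (hm : 0 < m) : m * ell M m P ^ 2 = ‖sq M *ᵥ P‖ := by
  rw [ell, Real.sq_sqrt (by positivity), mul_div_cancel₀ _ hm.ne']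

/-- bounds of the level -/
lemma ell_bd (h : Fm σ J β) (hM : Nw σ J C m M) (hP : Pl σ J P) :
    0 < ell M m P ∧ ell M m P ≤ C ∧ ell M m P ≤ 2 * β ^ 4 * C * ‖sq M *ᵥ P‖ ∧
      1 ≤ 2 * β ^ 4 * C * m * ell M m P := by
  have hb1 := h.b1
  have hC := hM.C1
  have hm := hM.m1
  have hm0 : 0 < m := by linarith
  set S := ‖sq M *ᵥ P‖ with hS
  have h1 : 1 ≤ 2 * β ^ 4 * C * m * S := by
    have := adj2 h hM hP.alt
    rwa [hP.one] at this
  have hβ4 : 1 ≤ β ^ 4 := one_le_pow₀ hb1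
  have hκ : 1 ≤ 2 * β ^ 4 * C := by
    have := one_le_mul_of_one_le_of_one_le hβ4 hC
    linarith
  set κ := 2 * β ^ 4 * C with hκd
  have hS0 : 0 < S := by
    by_contra hc
    have : S = 0 := le_antisymm (not_lt.1 hc) (norm_nonneg _)
    rw [this, mul_zero] at h1
    linarith
  have h2 : S ≤ C * m := by
    have := hM.u2 P hP.alt
    rwa [hP.one, mul_one] at this
  have h3 : m * ell M m P ^ 2 = S := ell_sq hm0
  set ℓ := ell M m P with hℓ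
  have hℓ0 : 0 < ℓ := Real.sqrt_pos.2 (by positivity)
  refine ⟨hℓ0, ?_, ?_, ?_⟩
  · by_contra hc
    push Not at hc
    have : C < ℓ ^ 2 := by nlinarith
    nlinarith
  · -- `ℓ² = S / m ≤ κ S²`
    have h4 : ℓ ^ 2 ≤ κ * S ^ 2 := by
      have : m * ℓ ^ 2 ≤ m * (κ * S ^ 2) := by
        rw [h3]
        nlinarith
      exact le_of_mul_le_mul_left this hm0
    have h5 : ℓ ^ 2 ≤ (κ * S) ^ 2 := by
      refine h4.trans ?_
      rw [mul_pow]
      have : κ ≤ κ ^ 2 := by nlinarith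
      gcongr
    exact le_of_sq_le_sq h5 (by positivity)
  · have h4 : 1 ≤ (κ * m * ℓ) ^ 2 := by
      calc 1 ≤ κ * m * S := h1
        _ = κ * m * (m * ℓ ^ 2) := by rw [h3]
        _ = κ * (m * ℓ) ^ 2 := by ring
        _ ≤ κ ^ 2 * (m * ℓ) ^ 2 := by
            have : κ ≤ κ ^ 2 := by nlinarith
            gcongr
        _ = _ := by ring
    have h5 : (1 : ℝ) ^ 2 ≤ (κ * m * ℓ) ^ 2 := by rw [one_pow]; exact h4
    exact le_of_sq_le_sq h5 (by positivity)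

set_option maxHeartbeats 2000000 in
/-- **the class step at the unit scale** -/
theorem unitS (cl : Cells 𝕜) (h : Fm σ J β) {Ca : ℝ} (hCa : 0 ≤ Ca) (hA : An σ J Ca)
    {φ : (n × n → 𝕜) → ℂ} {δ CF : ℝ} (hφ : Lcf φ δ CF) (C C₂ c₀ : ℝ) (hC : 1 ≤ C) (h₂ : 1 ≤ C₂)
    (h0 : 0 < c₀) : ∃ C' : ℝ, 0 ≤ C' ∧ ∀ {Y : Type} [MeasurableSpace Y] (q : Y → n × n → 𝕜),
    Measurable q → (∀ y, Pl σ J (q y)) → ∀ {Ls Ln : Set Y → (K →L[ℂ] K)}, Pv Ls → Pv Ln →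
    ∀ (Z : K →L[ℂ] K) {κ : Type} (S : Finset κ) (M : κ → Matrix n n 𝕜) (m : ℝ), 1 ≤ m →
    (∀ k ∈ S, Nw σ J C m (M k)) → ∀ (E W : κ → (K →L[ℂ] K)),
    (∀ k ∈ S, ∀ A D : Set Y, MeasurableSet A → MeasurableSet D → (∀ ν ∈ A, ∀ ω ∈ D,
      ¬ ∃ x y, Cx σ J C₂ m (M k) x ∧ Chn σ J x y (q ν) (q ω) ∧ c₀ ≤ ‖wd x y‖) →
      Ln A * (E k * (W k * (Ls D * Z))) = 0) →
    ∀ (F : κ → Y → ℂ) (N : ℝ), 0 ≤ N → (∀ k ∈ S, ∀ y, F k y = φ (sq (M k) *ᵥ q y)) →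
    (∀ k ∈ S, Opf Ls (F k) (W k)) → Cap S E N →
    ∀ v, ∑ k ∈ S, ‖E k (W k (Z v))‖ ^ 2 ≤ (C' * (1 + Real.log m) * N) ^ 2 * ‖Z v‖ ^ 2 := by
  classical
  have hb1 := h.b1
  have hb0 := h.b0
  set κ₂ : ℝ := 2 * β ^ 4 * C with hκ₂
  have hβ4 : 1 ≤ β ^ 4 := one_le_pow₀ hb1
  have hκ₂1 : 1 ≤ κ₂ := by
    have := one_le_mul_of_one_le_of_one_le hβ4 hC
    rw [hκ₂]
    linarith
  set k1 : ℝ := K1 β C C₂ with hk1
  have hk11 : 1 ≤ k1 := K1_ge hb1 hC h₂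
  set κ₁ : ℝ := 1 + Ca * k1 with hκ₁
  have hκ₁1 : 1 ≤ κ₁ := by
    have : 0 ≤ Ca * k1 := by positivity
    linarith
  have hCB := CB1 hb1 hC h₂
  set cb : ℝ := CB β C C₂ with hcb
  set δ₁ : ℝ := min δ (1 / 2) with hδ₁
  have hδ0 : 0 < δ := hφ.d0
  have hδ₁0 : 0 < δ₁ := lt_min hδ0 (by norm_num)
  have hδ₁h : δ₁ ≤ 1 / 2 := min_le_right _ _
  set dn : ℝ := cb * (β * κ₁ + 2 * (1 + β) + κ₂) with hdn
  have hdn1 : 1 ≤ dn := by
    have h1 : 1 ≤ β * κ₁ + 2 * (1 + β) + κ₂ := by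
      have : 0 ≤ β * κ₁ := by positivity
      linarith
    exact one_le_mul_of_one_le_of_one_le hCB h1
  have hdn0 : 0 < dn := by linarith
  set d : ℝ := δ₁ / dn with hd
  have hd0 : 0 < d := by positivity
  have hd1 : d ≤ 1 := by
    rw [hd, div_le_one hdn0]; linarith
  have hdd : dn * d = δ₁ := by rw [hd]; field_simp
  set R : ℝ := 2 * C / d with hR
  have hR0 : 0 < R := by positivity
  set A₁ : ℝ := 2 * κ₁ / c₀ * R with hA₁
  set A₂ : ℝ := k1 / c₀ ^ 2 * R ^ 2 with hA₂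
  have hA₁0 : 0 ≤ A₁ := by positivity
  have hA₂0 : 0 ≤ A₂ := by positivity
  obtain ⟨Mc, hMc⟩ := lab_pack cl (bf_Bm h) meas_wd A₁ A₂ hA₁0 hA₂0
  obtain ⟨D, hD0, hD⟩ := exists_J (Q := κ₂ / d) (by
    rw [le_div_iff₀ hd0, one_mul]; linarith)
  have hCF : 0 ≤ CF := (norm_nonneg _).trans (hφ.bd 0)
  refine ⟨Real.sqrt Mc * CF * D, by positivity, ?_⟩
  intro Y _ q hqm hq Ls Ln hLs hLn Z κ S M m hm hM E W hins F N hN hF hW hE v
  have hm0 : 0 < m := by linarith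
  have hlm : 0 ≤ Real.log m := Real.log_nonneg hm
  obtain ⟨T, lb, P, hfin, hmeas, hsmall, hPm, hPin, hcount⟩ := hMc q hqm (fun y => (hq y).nrm)
    (fun y => (hq y).gr)
  obtain ⟨Jn, hJ1, hJ2⟩ := hD m hm
  set ch : κ → Y → Y → Prop := fun k ν ω =>
    ∃ x y, Cx σ J C₂ m (M k) x ∧ Chn σ J x y (q ν) (q ω) ∧ c₀ ≤ ‖wd x y‖ with hch
  set mm : κ → Y → ℕ := fun k ω => lv (d * ell (M k) m (q ω)) with hmm
  -- the number of levels
  have hJ : ∀ k ∈ S, ∀ ω, mm k ω ≤ Jn := by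
    intro k hk ω
    obtain ⟨h1, h2, h3, h4⟩ := ell_bd h (hM k hk) (hq ω)
    refine lv_min ?_
    have h5 : d ≤ κ₂ * m * (d * ell (M k) m (q ω)) := by nlinarith
    have h6 : κ₂ * m ≤ d * 2 ^ Jn := by
      have := mul_le_mul_of_nonneg_left hJ1 hd0.le
      calc κ₂ * m = d * (κ₂ / d * m) := by field_simp
        _ ≤ _ := this
    have h7 : 0 < d * ell (M k) m (q ω) := by positivity
    have h8 : d ≤ d * 2 ^ Jn * (d * ell (M k) m (q ω)) :=
      h5.trans (mul_le_mul_of_nonneg_right h6 h7.le)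
    have h9 : 1 ≤ 2 ^ Jn * (d * ell (M k) m (q ω)) := by
      have : d * 1 ≤ d * (2 ^ Jn * (d * ell (M k) m (q ω))) := by linarith
      exact le_of_mul_le_mul_left this hd0
    rw [one_div, inv_pow, inv_le_iff_one_le_mul₀' (by positivity)]
    exact h9
  -- the geometry of the chains
  have geo : ∀ k ∈ S, ∀ ν ω, ch k ν ω → ∃ x, Cx σ J C₂ m (M k) x ∧
      ‖w3 x (q ω)‖ ≤ κ₁ * ell (M k) m (q ω) ∧
      ‖wd (q ν) (q ω)‖ ≤ 2 * κ₁ / c₀ * ell (M k) m (q ω) ∧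
      ‖Bm σ J (q ν) (q ω)‖ ≤ k1 / c₀ ^ 2 * ell (M k) m (q ω) ^ 2 := by
    rintro k hk ν ω ⟨x, y, hx, hc, hw⟩
    obtain ⟨h1, h2, h3, h4⟩ := ell_bd h (hM k hk) (hq ω)
    obtain ⟨g1, g2, g3⟩ := hc.geo h hCa hA (hM k hk) hx h0 hw
    rw [← ell_sq hm0] at g1 g3
    set ℓ := ell (M k) m (q ω) with hℓ
    have e1 : ‖w3 x (q ω)‖ ^ 2 ≤ Ca * k1 * ℓ ^ 2 := by
      have : m * ‖w3 x (q ω)‖ ^ 2 ≤ m * (Ca * k1 * ℓ ^ 2) := by linarith
      exact le_of_mul_le_mul_left this hm0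
    have e2 : ‖w3 x (q ω)‖ ≤ κ₁ * ℓ := by
      refine le_of_sq_le_sq (e1.trans ?_) (by positivity)
      rw [mul_pow]
      have t1 : Ca * k1 ≤ κ₁ := by rw [hκ₁]; linarith
      have t2 : κ₁ ≤ κ₁ ^ 2 := by
        rw [pow_two]
        exact le_mul_of_one_le_left (by linarith) hκ₁1
      exact mul_le_mul_of_nonneg_right (t1.trans t2) (sq_nonneg _)
    refine ⟨x, hx, e2, ?_, ?_⟩
    · refine (pi_norm_le_iff_of_nonneg (by positivity)).2 fun p => ?_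
      have e3 := g2 p.1 p.2
      have e4 : wd (q ν) (q ω) p = mn (q ν) (q ω) p.1 p.2 := by simp only [wd, mn]; ring
      rw [e4, div_mul_eq_mul_div, le_div_iff₀ h0]
      linarith
    · rw [div_mul_eq_mul_div, le_div_iff₀ (by positivity)]
      have : m * (‖Bm σ J (q ν) (q ω)‖ * c₀ ^ 2) ≤ m * (k1 * ℓ ^ 2) := by linarith
      exact le_of_mul_le_mul_left this hm0
  -- the cells are small
  have hcell : ∀ k ∈ S, ∀ ν ω ω', ch k ν ω → lb (mm k ω) ω' = lb (mm k ω) ω →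
      ‖sq (M k) *ᵥ (q ω' - q ω)‖ ≤ δ₁ * ‖sq (M k) *ᵥ q ω‖ := by
    intro k hk ν ω ω' hc hl
    obtain ⟨x, hx, g1, -, -⟩ := geo k hk ν ω hc
    obtain ⟨h1, h2, h3, h4⟩ := ell_bd h (hM k hk) (hq ω)
    obtain ⟨s1, s2⟩ := hsmall _ _ _ hl
    have hlv : (1 / 2 : ℝ) ^ mm k ω ≤ d * ell (M k) m (q ω) := lv_le (by positivity)
    have hMS := ell_sq (M := M k) (P := q ω) hm0
    set ℓ := ell (M k) m (q ω) with hℓ
    set S_ := ‖sq (M k) *ᵥ q ω‖ with hS_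
    have hp : (0 : ℝ) ≤ (1 / 2) ^ mm k ω := by positivity
    have s1' : ‖q ω' - q ω‖ ≤ d * ℓ := s1.trans hlv
    have s2' : ‖Bm σ J (q ω') (q ω)‖ ≤ (1 + β) * (d * ℓ) ^ 2 := by
      refine s2.trans ?_
      gcongr
    refine (boundD h (hM k hk) hx (hq ω) (hq ω').alt).trans ?_
    have t1 : m * (β * (‖q ω' - q ω‖ * ‖w3 x (q ω)‖) + 2 * ‖Bm σ J (q ω') (q ω)‖) ≤
        d * (β * κ₁ + 2 * (1 + β)) * S_ := by
      calc m * (β * (‖q ω' - q ω‖ * ‖w3 x (q ω)‖) + 2 * ‖Bm σ J (q ω') (q ω)‖)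
          ≤ m * (β * ((d * ℓ) * (κ₁ * ℓ)) + 2 * ((1 + β) * (d * ℓ) ^ 2)) := by gcongr
        _ = d * (β * κ₁ + 2 * (1 + β) * d) * (m * ℓ ^ 2) := by ring
        _ ≤ d * (β * κ₁ + 2 * (1 + β) * 1) * (m * ℓ ^ 2) := by gcongr
        _ = _ := by rw [hMS, mul_one]
    have t2 : ‖q ω' - q ω‖ ≤ d * κ₂ * S_ := by
      calc ‖q ω' - q ω‖ ≤ d * ℓ := s1'
        _ ≤ d * (κ₂ * S_) := by gcongr
        _ = _ := by ring
    calc cb * (m * (β * (‖q ω' - q ω‖ * ‖w3 x (q ω)‖) + 2 * ‖Bm σ J (q ω') (q ω)‖) +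
          ‖q ω' - q ω‖) ≤ cb * (d * (β * κ₁ + 2 * (1 + β)) * S_ + d * κ₂ * S_) := by gcongr
      _ = (dn * d) * S_ := by rw [hdn]; ring
      _ = _ := by rw [hdd]
  have hSpos : ∀ k ∈ S, ∀ ω, 0 < ‖sq (M k) *ᵥ q ω‖ := by
    intro k hk ω
    obtain ⟨h1, h2, h3, h4⟩ := ell_bd h (hM k hk) (hq ω)
    rw [← ell_sq hm0]
    positivity
  have heq : ∀ k ω ω', sq (M k) *ᵥ q ω' = sq (M k) *ᵥ q ω + sq (M k) *ᵥ (q ω' - q ω) := by
    intro k ω ω'
    rw [mulVec_sub]; abel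
  have hfinal := unitU hLs hLn Z Jn lb hfin hmeas S ch mm (fun k hk ν ω _ => hJ k hk ω) ?_ P hPm ?_
    Mc hcount E W hins F CF N hCF hN ?_ ?_ hW hE v
  · refine hfinal.trans ?_
    have h1 : Real.sqrt Mc * (CF * N) * ((Jn : ℝ) + 1) ≤
        Real.sqrt Mc * CF * D * (1 + Real.log m) * N := by
      calc Real.sqrt Mc * (CF * N) * ((Jn : ℝ) + 1)
          ≤ Real.sqrt Mc * (CF * N) * (D * (1 + Real.log m)) := by gcongr
        _ = _ := by ring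
    exact mul_le_mul_of_nonneg_right (pow_le_pow_left₀ (by positivity) h1 2) (sq_nonneg _)
  · -- the level is constant on the cells
    intro k hk ν ω ω' hc hl
    have h1 := hcell k hk ν ω ω' hc hl
    have h2 := hSpos k hk ω
    have h3 : ‖sq (M k) *ᵥ q ω'‖ = ‖sq (M k) *ᵥ q ω‖ := by
      rw [heq k ω ω']
      exact pi_add_eq (lt_of_le_of_lt h1 (by nlinarith))
    simp only [hmm, ell, h3]
  · -- neighbourhoods
    intro k hk ν ω hc
    obtain ⟨x, hx, g1, g2, g3⟩ := geo k hk ν ω hc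
    obtain ⟨h1, h2, h3, h4⟩ := ell_bd h (hM k hk) (hq ω)
    set ℓ := ell (M k) m (q ω) with hℓ
    have hgt : d * ℓ ≤ 2 * C * (1 / 2) ^ mm k ω := by
      refine lv_gt (by positivity) hC ?_
      calc d * ℓ ≤ 1 * C := by gcongr
        _ = C := one_mul C
    have hℓR : ℓ ≤ R * (1 / 2) ^ mm k ω := by
      rw [hR, div_mul_eq_mul_div, le_div_iff₀ hd0]
      linarith
    refine hPin _ ν ω (g2.trans ?_) (g3.trans ?_)
    · calc 2 * κ₁ / c₀ * ℓ ≤ 2 * κ₁ / c₀ * (R * (1 / 2) ^ mm k ω) := by gcongr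
        _ = _ := by rw [hA₁]; ring
    · calc k1 / c₀ ^ 2 * ℓ ^ 2 ≤ k1 / c₀ ^ 2 * (R * (1 / 2) ^ mm k ω) ^ 2 := by gcongr
        _ = _ := by rw [hA₂]; ring
  · intro k hk y
    rw [hF k hk y]
    exact hφ.bd _
  · -- the function is constant on the cells
    intro k hk ν ω ω' hc hl
    have h1 := hcell k hk ν ω ω' hc hl
    rw [hF k hk ω', hF k hk ω, heq k ω ω']
    refine hφ.loc _ _ (h1.trans ?_)
    gcongr
    exact min_le_left _ _

end unitS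

end Vale.Agent.P092.H217.F
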