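import Vale.Agent.P092.H714.Cl1
import Vale.Agent.P092.H835.PlGr
import Vale.Agent.P092.H835.NF
import Vale.Agent.P092.H589.K2x

/-!
P092, stage 3 (helper217), block [P3-COUNT]: letters for the counts of the forms of Witt index 2.
Columns: a matrix `M` acts by `M *ᵥ v`.
-/

set_option linter.all false

namespace Vale.Agent.P092.H217.F

open Finset Matrix
open Vale.Agent.P092.H820 (wd)
open Vale.Agent.P092.H714.Cl (hf)
open Vale.Agent.P092.H835.PlF (w3 Alt sq)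
open Vale.Agent.P092.H589.K2 (Nrm)

variable {k : Type} [NontriviallyNormedField k] {n : Type} [Fintype n] [DecidableEq n]

/-- the form is bounded, nondegenerate, symmetric up to norm; `σ` is isometric -/
structure Fm (σ : k →+* k) (J : Matrix n n k) (β : ℝ) : Prop where
  b1 : 1 ≤ β
  iso : ∀ a, ‖σ a‖ = ‖a‖
  sym : ∀ x y, ‖hf σ J x y‖ = ‖hf σ J y x‖
  bd : ∀ x y, ‖hf σ J x y‖ ≤ β * (‖x‖ * ‖y‖)
  nd : ∀ x, ∃ j, ‖x‖ ≤ β * ‖hf σ J x (Pi.single j 1)‖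

/-- contraction of a 2-vector: `ct x (y ∧ n) = h(n, x) y - h(y, x) n` -/
def ct (σ : k →+* k) (J : Matrix n n k) (x : n → k) (P : n × n → k) : n → k :=
  fun a => hf σ J (fun c => P (a, c)) x

/-- the pairing `P J σ(Q)ᵀ` of 2-vectors -/
def Bm (σ : k →+* k) (J : Matrix n n k) (P Q : n × n → k) : n × n → k :=
  fun a => hf σ J (fun c => P (a.1, c)) fun d => Q (a.2, d)

/-- `P` is a totally isotropic plane -/
def Iso2 (σ : k →+* k) (J : Matrix n n k) (P : n × n → k) : Prop :=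
  ∃ y m, P = wd y m ∧ hf σ J y y = 0 ∧ hf σ J y m = 0 ∧ hf σ J m y = 0 ∧ hf σ J m m = 0

/-- **anisotropy of the kernel** (Witt index 2), literal of (g2) -/
def An (σ : k →+* k) (J : Matrix n n k) (Ca : ℝ) : Prop :=
  ∀ x y m : n → k, hf σ J x x = 0 → hf σ J y y = 0 → hf σ J m m = 0 → hf σ J x y = 0 →
    hf σ J y m = 0 → ‖w3 x (wd y m)‖ ^ 2 ≤ Ca * (‖hf σ J x m‖ * ‖wd x y‖ * ‖wd y m‖)

/-- an isometry of size `m` near the 1-wall -/
structure Nw (σ : k →+* k) (J : Matrix n n k) (C m : ℝ) (M : Matrix n n k) : Prop where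
  C1 : 1 ≤ C
  m1 : 1 ≤ m
  iso : ∀ v w, hf σ J (M *ᵥ v) (M *ᵥ w) = hf σ J v w
  u1 : ∀ v, ‖M *ᵥ v‖ ≤ C * m * ‖v‖
  u2 : ∀ P, Alt P → ‖sq M *ᵥ P‖ ≤ C * m * ‖P‖

/-- the data of one class at the scale `ρ`: near and far -/
def Near (σ : k →+* k) (J : Matrix n n k) (C : ℝ) (ρ : k) (x η : n → k) : Prop :=
  ‖wd x η‖ ≤ C * ‖ρ‖ ∧ ‖hf σ J x η‖ ≤ C * ‖ρ‖ ^ 2

/-- locally constant functions of the 2-vectors (homogeneous) -/
structure Lcf (φ : (n × n → k) → ℂ) (δ CF : ℝ) : Prop where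
  d0 : 0 < δ
  hom : ∀ (c : k) v, c ≠ 0 → φ (c • v) = φ v
  loc : ∀ v w, ‖w‖ ≤ δ * ‖v‖ → φ (v + w) = φ v
  bd : ∀ v, ‖φ v‖ ≤ CF

end Vale.Agent.P092.H217.F
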