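import Vale.Agent.P092.H432.TA.Defs

/-!
P092, project B, block B-TA-OUT2 (helper217), part 1: translates of boxes, totality, decreasing
sequences of boxes.
-/

set_option autoImplicit false
set_option linter.all false

open scoped InnerProductSpace
open ContinuousLinearMap

namespace Vale.Agent.P092.H217

open Vale.Agent.P092.H432.TA

variable {E : Type*} [NormedAddCommGroup E] [InnerProductSpace ℂ E] [CompleteSpace E]
variable {A B : Type*} [Group A] [Group B]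

theorem rep_mul_inv (S : A →* (E →L[ℂ] E)) (a : A) : S a * S a⁻¹ = 1 := by
  rw [← map_mul, mul_inv_cancel, map_one]

theorem rep_inv_mul (S : A →* (E →L[ℂ] E)) (a : A) : S a⁻¹ * S a = 1 := by
  rw [← map_mul, inv_mul_cancel, map_one]

/-- conjugation by `S a` -/
noncomputable def tr (S : A →* (E →L[ℂ] E)) (a : A) : (E →L[ℂ] E) →ₐ[ℂ] (E →L[ℂ] E) where
  toFun x := S a * x * S a⁻¹
  map_one' := by rw [mul_one, rep_mul_inv]
  map_mul' x y := by
    have h : S a * x * S a⁻¹ * (S a * y * S a⁻¹) = S a * x * (S a⁻¹ * S a) * y * S a⁻¹ := by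
      simp only [mul_assoc]
    rw [h, rep_inv_mul, mul_one, mul_assoc (S a) x y]
  map_zero' := by rw [mul_zero, zero_mul]
  map_add' x y := by rw [mul_add, add_mul]
  commutes' c := by
    rw [Algebra.algebraMap_eq_smul_one, mul_smul_comm, smul_mul_assoc, mul_one, rep_mul_inv]

theorem tr_apply (S : A →* (E →L[ℂ] E)) (a : A) (x : E →L[ℂ] E) :
    tr S a x = S a * x * S a⁻¹ := rfl

theorem tr_tr (S : A →* (E →L[ℂ] E)) (a b : A) (x : E →L[ℂ] E) :
    tr S a (tr S b x) = tr S (a * b) x := by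
  rw [tr_apply, tr_apply, tr_apply, map_mul, mul_inv_rev, map_mul]
  simp only [mul_assoc]

theorem tr_one (S : A →* (E →L[ℂ] E)) (x : E →L[ℂ] E) : tr S 1 x = x := by
  simp [tr_apply]

theorem tr_inv_tr (S : A →* (E →L[ℂ] E)) (a : A) (x : E →L[ℂ] E) : tr S a⁻¹ (tr S a x) = x := by
  rw [tr_tr, inv_mul_cancel, tr_one]

theorem tr_tr_inv (S : A →* (E →L[ℂ] E)) (a : A) (x : E →L[ℂ] E) : tr S a (tr S a⁻¹ x) = x := by
  rw [tr_tr, mul_inv_cancel, tr_one]

theorem tr_eq_zero (S : A →* (E →L[ℂ] E)) (a : A) (x : E →L[ℂ] E) : tr S a x = 0 ↔ x = 0 := by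
  constructor
  · intro h
    rw [← tr_inv_tr S a x, h, map_zero]
  · rintro rfl
    exact map_zero _

theorem tr_fix {S : A →* (E →L[ℂ] E)} {a : A} {x : E →L[ℂ] E} (h : S a * x = x * S a) :
    tr S a x = x := by
  rw [tr_apply, h, mul_assoc, rep_mul_inv, mul_one]

theorem fix_tr {S : A →* (E →L[ℂ] E)} {a : A} {x : E →L[ℂ] E} (h : tr S a x = x) :
    S a * x = x * S a := by
  have h2 : S a * x * S a⁻¹ * S a = x * S a := by
    rw [← tr_apply, h]
  rwa [mul_assoc (S a * x), rep_inv_mul, mul_one] at h2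

theorem tr_comm {S : A →* (E →L[ℂ] E)} {R : B →* (E →L[ℂ] E)}
    (h : ∀ a b, S a * R b = R b * S a) (a : A) (b : B) (x : E →L[ℂ] E) :
    tr S a (tr R b x) = tr R b (tr S a x) := by
  simp only [tr_apply]
  calc S a * (R b * x * R b⁻¹) * S a⁻¹ = (S a * R b) * x * (R b⁻¹ * S a⁻¹) := by
        simp only [mul_assoc]
    _ = (R b * S a) * x * (S a⁻¹ * R b⁻¹) := by rw [h, h]
    _ = R b * (S a * x * S a⁻¹) * R b⁻¹ := by simp only [mul_assoc]

theorem tr_adj {S : A →* (E →L[ℂ] E)} (h : ∀ a, adjoint (S a) = S a⁻¹) (a : A) (x : E →L[ℂ] E) :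
    adjoint (tr S a x) = tr S a (adjoint x) := by
  rw [tr_apply, tr_apply]
  simp only [ContinuousLinearMap.mul_def, adjoint_comp]
  rw [h, h, inv_inv]
  simp only [ContinuousLinearMap.comp_assoc]

/-! ### Totality -/

theorem starProj_comm (N : Submodule ℂ E) [N.HasOrthogonalProjection] (T : E →L[ℂ] E)
    (h1 : ∀ x ∈ N, T x ∈ N) (h2 : ∀ x ∈ N, adjoint T x ∈ N) :
    T * N.starProjection = N.starProjection * T := by
  ext x
  change T (N.starProjection x) = N.starProjection (T x)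
  symm
  apply Submodule.eq_starProjection_of_mem_of_inner_eq_zero
  · exact h1 _ (Submodule.starProjection_apply_mem N x)
  · intro w hw
    rw [← map_sub, ← adjoint_inner_right]
    exact Submodule.starProjection_inner_eq_zero x _ (h2 w hw)

variable {S : A →* (E →L[ℂ] E)} {R : B →* (E →L[ℂ] E)} {W : Set (E →L[ℂ] E)}
  {cA : Set (Subgroup A)} {cB : Set (Subgroup B)}

theorem total (hS : Sys S R W) {V : Subgroup B}
    (hE : ∀ x ∈ Q S R W ⊤ V, ∃ c : ℂ, x = c • (1 : E →L[ℂ] E)) {z : E →L[ℂ] E} {U : Subgroup A}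
    (hz : z ∈ Q S R W U V) (hz0 : z ≠ 0) (ζ : E) (h : ∀ a, tr S a z ζ = 0) : ζ = 0 := by
  set N : Submodule ℂ E := ⨅ a : A, LinearMap.ker (tr S a z).toLinearMap with hN
  have hmem : ∀ x, x ∈ N ↔ ∀ a, tr S a z x = 0 := by
    intro x
    simp [hN, Submodule.mem_iInf]
  have hcl : IsClosed (N : Set E) := by
    have : (N : Set E) = ⋂ a : A, {x | tr S a z x = 0} := by
      ext x
      simp only [SetLike.mem_coe, hmem, Set.mem_iInter, Set.mem_ofPred_eq]
    rw [this]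
    exact isClosed_iInter fun a => isClosed_eq (tr S a z).continuous continuous_const
  have : CompleteSpace N := hcl.completeSpace_coe
  -- the commutation relations
  have hS1 : ∀ b : A, ∀ x ∈ N, S b x ∈ N := by
    intro b x hx
    rw [hmem] at hx ⊢
    intro a
    have h1 : tr S a z * S b = S b * tr S (b⁻¹ * a) z := by
      simp only [tr_apply, map_mul, mul_inv_rev, inv_inv]
      have : S b * (S b⁻¹ * S a * z * (S a⁻¹ * S b)) = (S b * S b⁻¹) * S a * z * (S a⁻¹ * S b) := by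
        simp only [mul_assoc]
      rw [this, rep_mul_inv, one_mul, mul_assoc (S a * z)]
    have h2 : (tr S a z * S b) x = 0 := by
      rw [h1]
      change S b (tr S (b⁻¹ * a) z x) = 0
      rw [hx, map_zero]
    exact h2
  have hR0 : ∀ T : E →L[ℂ] E, (∀ a, T * S a = S a * T) → T * z = z * T →
      ∀ x ∈ N, T x ∈ N := by
    intro T hT hTz x hx
    rw [hmem] at hx ⊢
    intro a
    have h1 : tr S a z * T = T * tr S a z := by
      simp only [tr_apply]
      rw [mul_assoc, ← hT, ← mul_assoc, mul_assoc (S a) z T, ← hTz, ← mul_assoc, ← hT]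
      simp only [mul_assoc]
    have h2 : (tr S a z * T) x = 0 := by
      rw [h1]
      change T (tr S a z x) = 0
      rw [hx, map_zero]
    exact h2
  have hP : N.starProjection ∈ Q S R W ⊤ V := by
    refine ⟨fun a _ => ?_, fun b hb => ?_, fun w hw => ?_⟩
    · apply starProj_comm
      · exact hS1 a
      · rw [hS.Sadj]
        exact hS1 a⁻¹
    · apply starProj_comm
      · exact hR0 _ (fun a => (hS.SR a b).symm) (hz.2.1 b hb)
      · rw [hS.Radj]
        exact hR0 _ (fun a => (hS.SR a b⁻¹).symm) (hz.2.1 b⁻¹ (V.inv_mem hb))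
    · apply starProj_comm
      · exact hR0 _ (hS.WS w hw) (hz.2.2 w hw)
      · exact hR0 _ (hS.WS _ (hS.Wadj w hw)) (hz.2.2 _ (hS.Wadj w hw))
  obtain ⟨c, hc⟩ := hE _ hP
  have hζ : N.starProjection ζ = ζ := Submodule.starProjection_eq_self_iff.2 ((hmem ζ).2 h)
  by_contra hne
  have hc1 : c = 1 := by
    have h1 : c • ζ = ζ := by
      rw [hc] at hζ
      exact hζ
    have h2 : (c - 1) • ζ = 0 := by rw [sub_smul, h1, one_smul, sub_self]
    rcases smul_eq_zero.1 h2 with h3 | h3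
    · exact sub_eq_zero.1 h3
    · exact absurd h3 hne
  apply hz0
  ext x
  have hx : x ∈ N := by
    rw [← Submodule.starProjection_eq_self_iff, hc, hc1]
    simp
  have := (hmem x).1 hx 1
  rw [tr_one] at this
  exact this

theorem total_left (hS : Sys S R W) {V : Subgroup B}
    (hE : ∀ x ∈ Q S R W ⊤ V, ∃ c : ℂ, x = c • (1 : E →L[ℂ] E)) {z : E →L[ℂ] E} {U : Subgroup A}
    (hz : z ∈ Q S R W U V) (hz0 : z ≠ 0) (X : E →L[ℂ] E) (h : ∀ a, tr S a z * X = 0) :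
    X = 0 := by
  ext ζ
  refine total hS hE hz hz0 (X ζ) fun a => ?_
  have := congrArg (fun T : E →L[ℂ] E => T ζ) (h a)
  exact this

theorem total_right (hS : Sys S R W) {V : Subgroup B}
    (hE : ∀ x ∈ Q S R W ⊤ V, ∃ c : ℂ, x = c • (1 : E →L[ℂ] E)) {z : E →L[ℂ] E} {U : Subgroup A}
    (hz : z ∈ Q S R W U V) (hzs : adjoint z = z) (hz0 : z ≠ 0) (X : E →L[ℂ] E)
    (h : ∀ a, X * tr S a z = 0) : X = 0 := by
  have h1 : adjoint X = 0 := by
    refine total_left hS hE hz hz0 _ fun a => ?_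
    have h2 := congrArg adjoint (h a)
    rw [ContinuousLinearMap.mul_def, adjoint_comp, tr_adj hS.Sadj, hzs, map_zero] at h2
    exact h2
  have := congrArg adjoint h1
  rwa [adjoint_adjoint, map_zero] at this

/-! ### Symmetry -/

theorem Q_symm (U : Subgroup A) (V : Subgroup B) : Q S R W U V = Q R S W V U := by
  ext x
  exact ⟨fun h => ⟨h.2.1, h.1, h.2.2⟩, fun h => ⟨h.2.1, h.1, h.2.2⟩⟩

theorem sys_symm (h : Sys S R W) : Sys R S W where
  Sadj := h.Radj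
  Radj := h.Sadj
  SR a b := (h.SR b a).symm
  WS := h.WR
  WR := h.WS
  Wadj := h.Wadj

theorem erg_symm (h : Erg S R W cA cB) : Erg R S W cB cA where
  E1 U hU x hx := h.E2 U hU x (by rw [Q_symm]; exact hx)
  E2 U hU x hx := h.E1 U hU x (by rw [Q_symm]; exact hx)

theorem box_symm {U : Subgroup A} {V : Subgroup B} {z : E →L[ℂ] E}
    (h : Box S R W cA cB U V z) : Box R S W cB cA V U z where
  U_mem := h.V_mem
  V_mem := h.U_mem
  mem := by rw [Q_symm]; exact h.mem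
  prj := h.prj
  ne := h.ne
  comm := by
    rintro x ⟨V', hV', U', hU', hx⟩
    exact h.comm x ⟨U', hU', V', hV', by rw [Q_symm]; exact hx⟩
  sepS := h.sepR
  sepR := h.sepS
  minS := fun V' hV' x hx => h.minR V' hV' x (by rw [Q_symm]; exact hx)
  minR := fun V' hV' x hx => h.minS V' hV' x (by rw [Q_symm]; exact hx)

theorem Q_mono {U U' : Subgroup A} {V V' : Subgroup B} (hU : U' ≤ U) (hV : V' ≤ V)
    {x : E →L[ℂ] E} (h : x ∈ Q S R W U V) : x ∈ Q S R W U' V' :=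
  ⟨fun a ha => h.1 a (hU ha), fun b hb => h.2.1 b (hV hb), h.2.2⟩

/-! ### Translates -/

/-- `U'` is the conjugate `a U a⁻¹` -/
def IsConj' (a : A) (U U' : Subgroup A) : Prop := ∀ x, x ∈ U' ↔ a⁻¹ * x * a ∈ U

theorem isConj'_inv {a : A} {U U' : Subgroup A} (h : IsConj' a U U') : IsConj' a⁻¹ U' U := by
  intro x
  rw [h]
  have : a⁻¹ * (a⁻¹⁻¹ * x * a⁻¹) * a = x := by group
  rw [this]

theorem Q_tr (hS : Sys S R W) {a : A} {U U' : Subgroup A} {V : Subgroup B} (hc : IsConj' a U U')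
    {x : E →L[ℂ] E} (h : x ∈ Q S R W U V) : tr S a x ∈ Q S R W U' V := by
  refine ⟨fun u hu => ?_, fun b hb => ?_, fun w hw => ?_⟩
  · apply fix_tr
    have h1 := (hc u).1 hu
    have h2 : u * a = a * (a⁻¹ * u * a) := by group
    rw [tr_tr, h2, ← tr_tr, tr_fix (h.1 _ h1)]
  · rw [tr_apply]
    calc R b * (S a * x * S a⁻¹) = (R b * S a) * x * S a⁻¹ := by simp only [mul_assoc]
      _ = S a * (R b * x) * S a⁻¹ := by rw [← hS.SR]; simp only [mul_assoc]
      _ = S a * x * (R b * S a⁻¹) := by rw [h.2.1 b hb]; simp only [mul_assoc]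
      _ = S a * x * S a⁻¹ * R b := by rw [← hS.SR]; simp only [mul_assoc]
  · rw [tr_apply]
    calc w * (S a * x * S a⁻¹) = (w * S a) * x * S a⁻¹ := by simp only [mul_assoc]
      _ = S a * (w * x) * S a⁻¹ := by rw [hS.WS w hw]; simp only [mul_assoc]
      _ = S a * x * (w * S a⁻¹) := by rw [h.2.2 w hw]; simp only [mul_assoc]
      _ = S a * x * S a⁻¹ * w := by rw [hS.WS w hw]; simp only [mul_assoc]

/-- conjugation invariance of the families -/
def Conj' (cA : Set (Subgroup A)) : Prop := ∀ U ∈ cA, ∀ a : A, ∃ V ∈ cA, IsConj' a U V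

theorem QQ_tr (hS : Sys S R W) (hA : Conj' cA) (a : A) {x : E →L[ℂ] E}
    (h : x ∈ QQ S R W cA cB) : tr S a x ∈ QQ S R W cA cB := by
  obtain ⟨U, hU, V, hV, hx⟩ := h
  obtain ⟨U', hU', hc⟩ := hA U hU a
  exact ⟨U', hU', V, hV, Q_tr hS hc hx⟩

theorem prj_tr (hS : Sys S R W) (a : A) {z : E →L[ℂ] E} (h : Prj z) : Prj (tr S a z) where
  idem := by rw [← map_mul, h.idem]
  adj := by rw [tr_adj hS.Sadj, h.adj]

theorem box_tr (hS : Sys S R W) (hA : Conj' cA) {U : Subgroup A} {V : Subgroup B}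
    {z : E →L[ℂ] E} (h : Box S R W cA cB U V z) (a : A) :
    ∃ U', IsConj' a U U' ∧ Box S R W cA cB U' V (tr S a z) := by
  obtain ⟨U', hU', hc⟩ := hA U h.U_mem a
  refine ⟨U', hc, hU', h.V_mem, Q_tr hS hc h.mem, prj_tr hS a h.prj, ?_, ?_, ?_, ?_, ?_, ?_⟩
  · rw [Ne, tr_eq_zero]
    exact h.ne
  · intro x hx
    have h1 := h.comm _ (QQ_tr hS hA a⁻¹ hx)
    have h2 := congrArg (tr S a) h1
    rwa [map_mul, map_mul, tr_tr_inv] at h2
  · intro b hb
    have h1 : a⁻¹ * b * a ∉ U := fun hn => hb ((hc b).2 hn)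
    have h2 := congrArg (tr S a) (h.sepS _ h1)
    rw [← tr_apply, map_mul, map_zero, tr_tr] at h2
    rw [← tr_apply, tr_tr]
    have h3 : a * (a⁻¹ * b * a) = b * a := by group
    rwa [h3] at h2
  · intro b hb
    have h2 := congrArg (tr S a) (h.sepR b hb)
    rw [← tr_apply R, map_mul, map_zero, tr_comm hS.SR] at h2
    rw [← tr_apply R]
    exact h2
  · intro V' hV' x hx
    obtain ⟨c, hc'⟩ := h.minS V' hV' _ (Q_tr hS (isConj'_inv hc) hx)
    refine ⟨c, ?_⟩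
    have h2 := congrArg (tr S a) hc'
    rwa [map_mul, map_mul, tr_tr_inv, map_smul] at h2
  · intro U'' hU'' x hx
    obtain ⟨U3, hU3, hc3⟩ := hA U'' hU'' a⁻¹
    obtain ⟨c, hc'⟩ := h.minR U3 hU3 _ (Q_tr hS hc3 hx)
    refine ⟨c, ?_⟩
    have h2 := congrArg (tr S a) hc'
    rwa [map_mul, map_mul, tr_tr_inv, map_smul] at h2

/-- An operator of `𝒬^V` is scalar on every `S`-translate of a box of level `V`. -/
theorem box_scal (hS : Sys S R W) (hA : Conj' cA) {U U' : Subgroup A} {V : Subgroup B}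
    {z : E →L[ℂ] E} (h : Box S R W cA cB U V z) (hU' : U' ∈ cA) {x : E →L[ℂ] E}
    (hx : x ∈ Q S R W U' V) (a : A) : ∃ c : ℂ, x * tr S a z = c • tr S a z := by
  obtain ⟨U1, hc1, h1⟩ := box_tr hS hA h a
  obtain ⟨c, hc⟩ := h1.minR U' hU' x hx
  refine ⟨c, ?_⟩
  rw [← hc, ← h1.comm x ⟨U', hU', V, h.V_mem, hx⟩, mul_assoc, h1.prj.idem]

/-- A projection of `𝒬^V` is `0` or `1` on every `S`-translate of a box of level `V`. -/
theorem box_scal01 (hS : Sys S R W) (hA : Conj' cA) {U U' : Subgroup A} {V : Subgroup B}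
    {z : E →L[ℂ] E} (h : Box S R W cA cB U V z) (hU' : U' ∈ cA) {x : E →L[ℂ] E}
    (hx : x ∈ Q S R W U' V) (hxi : x * x = x) (a : A) :
    x * tr S a z = tr S a z ∨ x * tr S a z = 0 := by
  obtain ⟨c, hc⟩ := box_scal hS hA h hU' hx a
  have hz : tr S a z ≠ 0 := by
    rw [Ne, tr_eq_zero]; exact h.ne
  have h1 : c • tr S a z = (c * c) • tr S a z := by
    calc c • tr S a z = x * tr S a z := hc.symm
      _ = x * x * tr S a z := by rw [hxi]
      _ = (c * c) • tr S a z := by rw [mul_assoc, hc, mul_smul_comm, hc, smul_smul]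
  have h2 : (c - c * c) • tr S a z = 0 := by rw [sub_smul, ← h1, sub_self]
  have h3 : c - c * c = 0 := (smul_eq_zero.1 h2).resolve_right hz
  have h4 : c * (1 - c) = 0 := by rw [← h3]; ring
  rcases mul_eq_zero.1 h4 with h5 | h5
  · right; rw [hc, h5, zero_smul]
  · left; rw [hc, ← sub_eq_zero.1 h5, one_smul]

/-- a half step -/
theorem half_step (hS : Sys S R W) (hA : Conj' cA)
    (hE : Erg S R W cA cB) {U U' : Subgroup A} {V V' : Subgroup B} {z z' : E →L[ℂ] E}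
    (h : Box S R W cA cB U V z) (h' : Box S R W cA cB U' V' z') (hV : V' ≤ V) :
    ∃ U1 z1, Box S R W cA cB U1 V' z1 ∧ U1 ≤ U ∧ z * z1 = z1 := by
  have hz : z ∈ Q S R W U V' := Q_mono le_rfl hV h.mem
  have h1 : ∃ a, z * tr S a z' ≠ 0 := by
    by_contra hcon
    push Not at hcon
    exact h.ne (total_right hS (hE.E2 V' h'.V_mem) h'.mem h'.prj.adj h'.ne z hcon)
  obtain ⟨a, ha⟩ := h1
  have h2 := (box_scal01 hS hA h' h.U_mem hz h.prj.idem a).resolve_right ha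
  obtain ⟨U1, hc1, hb1⟩ := box_tr hS hA h' a
  refine ⟨U1, tr S a z', hb1, ?_, h2⟩
  intro u hu
  by_contra hn
  have h3 := h.sepS u hn
  rw [← tr_apply] at h3
  apply hb1.ne
  have h4 : tr S u (tr S a z') = tr S a z' := tr_fix (hb1.mem.1 u hu)
  calc tr S a z' = z * tr S a z' := h2.symm
    _ = z * tr S u (z * tr S a z') := by rw [h2, h4, h2]
    _ = z * tr S u z * tr S u (tr S a z') := by rw [map_mul, mul_assoc]
    _ = 0 := by rw [h3, zero_mul]

theorem step (hS : Sys S R W) (hA : Conj' cA) (hB : Conj' cB)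
    (hE : Erg S R W cA cB)
    (hbox : ∀ U0 ∈ cA, ∀ V0 ∈ cB, ∃ U V z, U ≤ U0 ∧ V ≤ V0 ∧ Box S R W cA cB U V z)
    (infA : ∀ U ∈ cA, ∀ V ∈ cA, U ⊓ V ∈ cA) (infB : ∀ U ∈ cB, ∀ V ∈ cB, U ⊓ V ∈ cB)
    {U : Subgroup A} {V : Subgroup B} {z : E →L[ℂ] E} (h : Box S R W cA cB U V z)
    {U0 : Subgroup A} (hU0 : U0 ∈ cA) {V0 : Subgroup B} (hV0 : V0 ∈ cB) :
    ∃ U1 V1 z1, Box S R W cA cB U1 V1 z1 ∧ U1 ≤ U0 ∧ U1 ≤ U ∧ V1 ≤ V0 ∧ V1 ≤ V ∧
      z * z1 = z1 := by
  obtain ⟨U2, V2, z2, hU2, -, h2⟩ := hbox (U ⊓ U0) (infA _ h.U_mem _ hU0) V h.V_mem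
  -- `R`-translate of `z2` below `z`
  obtain ⟨V3, z3, h3, hV3, hz3⟩ := half_step (sys_symm hS) hB (erg_symm hE) (box_symm h)
    (box_symm h2) (hU2.trans inf_le_left)
  have h3' := box_symm h3
  obtain ⟨U4, V4, z4, -, hV4, h4⟩ := hbox U2 h2.U_mem (V3 ⊓ V0) (infB _ h3'.V_mem _ hV0)
  obtain ⟨U5, z5, h5, hU5, hz5⟩ := half_step hS hA hE h3' h4 (hV4.trans inf_le_left)
  refine ⟨U5, V4, z5, h5, hU5.trans (hU2.trans inf_le_right), hU5.trans (hU2.trans inf_le_left),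
    hV4.trans inf_le_right, (hV4.trans inf_le_left).trans hV3, ?_⟩
  rw [← hz5, ← mul_assoc, hz3]

/-- decreasing sequences of boxes -/
theorem chain (hS : Sys S R W) (hA : Conj' cA) (hB : Conj' cB)
    (hE : Erg S R W cA cB)
    (hbox : ∀ U0 ∈ cA, ∀ V0 ∈ cB, ∃ U V z, U ≤ U0 ∧ V ≤ V0 ∧ Box S R W cA cB U V z)
    (infA : ∀ U ∈ cA, ∀ V ∈ cA, U ⊓ V ∈ cA) (infB : ∀ U ∈ cB, ∀ V ∈ cB, U ⊓ V ∈ cB)
    (u : ℕ → Subgroup A) (hu : ∀ n, u n ∈ cA) (v : ℕ → Subgroup B) (hv : ∀ n, v n ∈ cB) :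
    ∃ (U : ℕ → Subgroup A) (V : ℕ → Subgroup B) (z : ℕ → E →L[ℂ] E),
      (∀ n, Box S R W cA cB (U n) (V n) (z n)) ∧ (∀ n, U n ≤ u n) ∧ (∀ n, V n ≤ v n) ∧
      (∀ n, U (n + 1) ≤ U n) ∧ (∀ n, V (n + 1) ≤ V n) ∧ ∀ n, z n * z (n + 1) = z (n + 1) := by
  classical
  let D := {t : Subgroup A × Subgroup B × (E →L[ℂ] E) // Box S R W cA cB t.1 t.2.1 t.2.2}
  have h0 : ∃ t : D, t.1.1 ≤ u 0 ∧ t.1.2.1 ≤ v 0 := by
    obtain ⟨U, V, z, h1, h2, h3⟩ := hbox (u 0) (hu 0) (v 0) (hv 0)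
    exact ⟨⟨(U, V, z), h3⟩, h1, h2⟩
  have hs : ∀ (t : D) (n : ℕ), ∃ t' : D, t'.1.1 ≤ u n ∧ t'.1.1 ≤ t.1.1 ∧ t'.1.2.1 ≤ v n ∧
      t'.1.2.1 ≤ t.1.2.1 ∧ t.1.2.2 * t'.1.2.2 = t'.1.2.2 := by
    intro t n
    obtain ⟨U1, V1, z1, h1, h2, h3, h4, h5, h6⟩ := step hS hA hB hE hbox infA infB t.2 (hu n) (hv n)
    exact ⟨⟨(U1, V1, z1), h1⟩, h2, h3, h4, h5, h6⟩
  choose t0 ht0 using h0
  choose f hf using hs
  let g : ℕ → D := fun n => Nat.rec t0 (fun k t => f t (k + 1)) n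
  have hg : ∀ n, g (n + 1) = f (g n) (n + 1) := fun n => rfl
  refine ⟨fun n => (g n).1.1, fun n => (g n).1.2.1, fun n => (g n).1.2.2, fun n => (g n).2, ?_, ?_,
    ?_, ?_, ?_⟩
  · intro n
    cases n with
    | zero => exact ht0.1
    | succ k => exact (hf (g k) (k + 1)).1
  · intro n
    cases n with
    | zero => exact ht0.2
    | succ k => exact (hf (g k) (k + 1)).2.2.1
  · intro n
    exact (hf (g n) (n + 1)).2.1
  · intro n
    exact (hf (g n) (n + 1)).2.2.2.1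
  · intro n
    exact (hf (g n) (n + 1)).2.2.2.2

end Vale.Agent.P092.H217
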