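import Mathlib

/-!
P092, TEAM D, block [ext] of [D-CLS] (helper217): functions vanishing at infinity on `X`, extended
by `0` along an open embedding `c : X → Z` into a compact Hausdorff space.
-/

set_option linter.all false

namespace Vale.Agent.P092.H217.Ext

open Topology Filter Set
open scoped ZeroAtInfty

variable {X Z : Type*} [TopologicalSpace X] [TopologicalSpace Z] [CompactSpace Z] [T2Space Z]
  {c : X → Z}

theorem cont_extend (hc : IsOpenEmbedding c) (ψ : C₀(X, ℂ)) :
    Continuous (Function.extend c ψ (fun _ => (0 : ℂ))) := by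
  rw [continuous_iff_continuousAt]
  intro z
  by_cases hz : z ∈ range c
  · obtain ⟨x, rfl⟩ := hz
    rw [← hc.continuousAt_iff]
    have e : Function.extend c ψ (fun _ => (0 : ℂ)) ∘ c = ψ := by
      funext y
      exact hc.injective.extend_apply _ _ y
    rw [e]
    exact ψ.continuous.continuousAt
  · have h0 : Function.extend c ψ (fun _ => (0 : ℂ)) z = 0 :=
      Function.extend_apply' _ _ _ (fun ⟨x, hx⟩ => hz ⟨x, hx⟩)
    rw [ContinuousAt, h0, Metric.tendsto_nhds]
    intro ε hε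
    have h1 : {x | ‖ψ x‖ < ε} ∈ cocompact X := by
      have := ψ.zero_at_infty'
      rw [Metric.tendsto_nhds] at this
      filter_upwards [this ε hε] with x hx
      simpa [dist_zero_right] using hx
    obtain ⟨K, hK, hKs⟩ := mem_cocompact.1 h1
    have hcl : IsClosed (c '' K) := (hK.image hc.continuous).isClosed
    have hzK : z ∈ (c '' K)ᶜ := fun ⟨x, _, hx⟩ => hz ⟨x, hx⟩
    filter_upwards [hcl.isOpen_compl.mem_nhds hzK] with z' hz'
    by_cases h' : z' ∈ range c
    · obtain ⟨x, rfl⟩ := h'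
      have hx : x ∈ Kᶜ := fun hxK => hz' ⟨x, hxK, rfl⟩
      rw [hc.injective.extend_apply, dist_zero_right]
      exact hKs hx
    · rw [Function.extend_apply' _ _ _ (fun ⟨x, hx⟩ => h' ⟨x, hx⟩), dist_self]
      exact hε

/-- extension by zero -/
noncomputable def ext (hc : IsOpenEmbedding c) : C₀(X, ℂ) →⋆ₙₐ[ℂ] C(Z, ℂ) where
  toFun ψ := ⟨Function.extend c ψ (fun _ => 0), cont_extend hc ψ⟩
  map_smul' a ψ := by
    ext z
    by_cases hz : z ∈ range c
    · obtain ⟨x, rfl⟩ := hz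
      simp [hc.injective.extend_apply]
    · simp [Function.extend_apply' _ _ _ (fun ⟨x, hx⟩ => hz ⟨x, hx⟩)]
  map_zero' := by
    ext z
    by_cases hz : z ∈ range c
    · obtain ⟨x, rfl⟩ := hz
      simp [hc.injective.extend_apply]
    · simp [Function.extend_apply' _ _ _ (fun ⟨x, hx⟩ => hz ⟨x, hx⟩)]
  map_add' ψ φ := by
    ext z
    by_cases hz : z ∈ range c
    · obtain ⟨x, rfl⟩ := hz
      simp [hc.injective.extend_apply]
    · simp [Function.extend_apply' _ _ _ (fun ⟨x, hx⟩ => hz ⟨x, hx⟩)]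
  map_mul' ψ φ := by
    ext z
    by_cases hz : z ∈ range c
    · obtain ⟨x, rfl⟩ := hz
      simp [hc.injective.extend_apply]
    · simp [Function.extend_apply' _ _ _ (fun ⟨x, hx⟩ => hz ⟨x, hx⟩)]
  map_star' ψ := by
    ext z
    by_cases hz : z ∈ range c
    · obtain ⟨x, rfl⟩ := hz
      simp [hc.injective.extend_apply]
    · simp [Function.extend_apply' _ _ _ (fun ⟨x, hx⟩ => hz ⟨x, hx⟩)]

theorem ext_def (hc : IsOpenEmbedding c) (ψ : C₀(X, ℂ)) (z : Z) :
    ext hc ψ z = Function.extend c ψ (fun _ => (0 : ℂ)) z := rfl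

theorem ext_apply (hc : IsOpenEmbedding c) (ψ : C₀(X, ℂ)) (x : X) : ext hc ψ (c x) = ψ x := by
  rw [ext_def]
  exact hc.injective.extend_apply _ _ x

theorem ext_off (hc : IsOpenEmbedding c) (ψ : C₀(X, ℂ)) {z : Z} (hz : z ∉ range c) :
    ext hc ψ z = 0 := by
  rw [ext_def]
  exact Function.extend_apply' _ _ _ (fun ⟨x, hx⟩ => hz ⟨x, hx⟩)

theorem ext_inj (hc : IsOpenEmbedding c) : Function.Injective (ext hc) := by
  intro ψ φ h
  ext x
  rw [← ext_apply hc ψ x, h, ext_apply]

/-- an element of `C(Z, ℂ)` is an extension as soon as it has the right values -/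
theorem eq_ext (hc : IsOpenEmbedding c) {f : C(Z, ℂ)} {ψ : C₀(X, ℂ)} (h : ∀ x, f (c x) = ψ x)
    (h0 : ∀ z, z ∉ range c → f z = 0) : f = ext hc ψ := by
  ext z
  by_cases hz : z ∈ range c
  · obtain ⟨x, rfl⟩ := hz
    rw [h, ext_apply]
  · rw [h0 z hz, ext_off hc ψ hz]

theorem ext_surj (hc : IsOpenEmbedding c) (f : C(Z, ℂ)) (h0 : ∀ z, z ∉ range c → f z = 0) :
    ∃ ψ : C₀(X, ℂ), ext hc ψ = f ∧ ∀ x, ψ x = f (c x) := by
  have hz : Tendsto (fun x => f (c x)) (cocompact X) (𝓝 0) := by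
    rw [Metric.tendsto_nhds]
    intro ε hε
    have hcl : IsClosed {z | ε ≤ ‖f z‖} :=
      isClosed_le continuous_const (map_continuous f).norm
    have hsub : {z | ε ≤ ‖f z‖} ⊆ range c := by
      intro z hz
      by_contra h
      have : ε ≤ ‖f z‖ := hz
      rw [h0 z h, norm_zero] at this
      exact absurd this (not_le.2 hε)
    have hK : IsCompact (c ⁻¹' {z | ε ≤ ‖f z‖}) :=
      hc.isInducing.isCompact_preimage' hcl.isCompact hsub
    filter_upwards [hK.compl_mem_cocompact] with x hx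
    rw [dist_zero_right]
    exact not_le.1 hx
  refine ⟨⟨⟨fun x => f (c x), (map_continuous f).comp hc.continuous⟩, hz⟩, ?_, fun x => rfl⟩
  exact (eq_ext hc (fun x => rfl) h0).symm

theorem mul_ext (hc : IsOpenEmbedding c) (f : C(Z, ℂ)) {ψ ψ' : C₀(X, ℂ)}
    (h : ∀ x, ψ' x = f (c x) * ψ x) : f * ext hc ψ = ext hc ψ' := by
  refine eq_ext hc (fun x => ?_) fun z hz => ?_
  · rw [h, ContinuousMap.mul_apply, ext_apply]
  · rw [ContinuousMap.mul_apply, ext_off hc ψ hz, mul_zero]

theorem comp_ext (hc : IsOpenEmbedding c) (g : C(Z, Z)) (h : X → X) (hg : ∀ x, g (c x) = c (h x))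
    (hr : ∀ z, g z ∈ range c → z ∈ range c) {ψ ψ' : C₀(X, ℂ)} (hψ : ∀ x, ψ' x = ψ (h x)) :
    (ext hc ψ).comp g = ext hc ψ' := by
  refine eq_ext hc (fun x => ?_) fun z hz => ?_
  · rw [ContinuousMap.comp_apply, hg, ext_apply, hψ]
  · rw [ContinuousMap.comp_apply]
    exact ext_off hc ψ fun h' => hz (hr z h')

/-- approximation: functions of `Z` which vanish off `range c` times anything stay extensions -/
theorem ext_mul_ext (hc : IsOpenEmbedding c) (ψ φ : C₀(X, ℂ)) :
    ext hc ψ * ext hc φ = ext hc (ψ * φ) :=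
  (map_mul (ext hc) ψ φ).symm

end Vale.Agent.P092.H217.Ext
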