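import Vale.Agent.P092.H589.K2w

/-!
P092, stage 3 (helper217), block [P3-COUNT], part 1: **the unit step for labels which need not be
nested and need not be isotropic** (abstract), and its ultrametric form (the functions are constant
on the cells).
-/

set_option linter.all false

namespace Vale.Agent.P092.H217.F

open Finset
open Vale.Agent.P092.H464 (Pv)
open Vale.Agent.P092.H589.K2 (Opf mink_sum)
open Vale.Agent.P092.H589.Mu (Cap)

variable {K : Type} [NormedAddCommGroup K] [InnerProductSpace ℂ K] [CompleteSpace K]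

/-- **the abstract unit step**: `ch k ν ω` = there is a chain of `k` from `ν` to `ω`; `mm k ω` = the
level of `ω` for `k`; `lb m` = the labels of level `m`; `P m t` = the neighbourhood of the cell -/
theorem unitX {Y T κ : Type} [MeasurableSpace Y] {Ls Ln : Set Y → (K →L[ℂ] K)} (hLs : Pv Ls)
    (hLn : Pv Ln) (Z : K →L[ℂ] K) (J : ℕ) (lb : ℕ → Y → T)
    (hfin : ∀ m, ∃ G : Finset T, ∀ y, lb m y ∈ G)
    (hmeas : ∀ m t, MeasurableSet {y | lb m y = t}) (S : Finset κ) (ch : κ → Y → Y → Prop)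
    (mm : κ → Y → ℕ) (hJ : ∀ k ∈ S, ∀ ν ω, ch k ν ω → mm k ω ≤ J)
    (hc : ∀ k ∈ S, ∀ ν ω ω', ch k ν ω → lb (mm k ω) ω' = lb (mm k ω) ω → mm k ω' = mm k ω)
    (P : ℕ → T → Set Y) (hPm : ∀ m t, MeasurableSet (P m t))
    (hP : ∀ k ∈ S, ∀ ν ω, ch k ν ω → ν ∈ P (mm k ω) (lb (mm k ω) ω)) (M : ℕ)
    (hM : ∀ m ν, ∀ U : Finset T, (∀ t ∈ U, (∃ y, lb m y = t) ∧ ν ∈ P m t) → U.card ≤ M)
    (E W : κ → (K →L[ℂ] K))
    (hins : ∀ k ∈ S, ∀ A D : Set Y, MeasurableSet A → MeasurableSet D →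
      (∀ ν ∈ A, ∀ ω ∈ D, ¬ ch k ν ω) → Ln A * (E k * (W k * (Ls D * Z))) = 0)
    (MT : ℝ) (hMT : 0 ≤ MT) (v : K)
    (hmul : ∀ m t, ∀ S' ⊆ S, (∀ k ∈ S', ∃ ν ω, ch k ν ω ∧ mm k ω = m ∧ lb m ω = t) →
      ∑ k ∈ S', ‖E k (W k (Ls {y | lb m y = t} (Z v)))‖ ^ 2 ≤
        MT ^ 2 * ‖Ls {y | lb m y = t} (Z v)‖ ^ 2) :
    ∑ k ∈ S, ‖E k (W k (Z v))‖ ^ 2 ≤ (Real.sqrt M * MT * (J + 1)) ^ 2 * ‖Z v‖ ^ 2 := by
  classical
  choose 𝒞 h𝒞 using hfin
  set cell : ℕ → T → Set Y := fun m t => {y | lb m y = t} with hcell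
  have hcd : ∀ m t t', t ≠ t' → Disjoint (cell m t) (cell m t') := fun m t t' htt =>
    Set.disjoint_left.2 fun y h1 h2 => htt ((h1 : lb m y = t).symm.trans h2)
  set 𝒲 : κ → ℕ → Finset T := fun k m =>
    (𝒞 m).filter fun t => ∃ ν ω, ch k ν ω ∧ mm k ω = m ∧ lb m ω = t with h𝒲
  have hmc : ∀ k ∈ S, ∀ m t, t ∈ 𝒲 k m → ∀ y ∈ cell m t, mm k y = m := by
    intro k hk m t ht y hy
    obtain ⟨ν, ω, h1, h2, h3⟩ := (mem_filter.1 ht).2
    subst h2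
    exact hc k hk ν ω y h1 ((hy : lb (mm k ω) y = t).trans h3.symm)
  set U : κ → ℕ → Set Y := fun k m => ⋃ t ∈ 𝒲 k m, cell m t with hU
  have hUm : ∀ k m, MeasurableSet (U k m) := fun k m =>
    Finset.measurableSet_biUnion _ fun t _ => hmeas m t
  have hUd : ∀ k ∈ S, ∀ m ∈ range (J + 1), ∀ m' ∈ range (J + 1), m ≠ m' →
      Disjoint (U k m) (U k m') := by
    intro k hk m _ m' _ hmm'
    rw [Set.disjoint_left]
    intro y hy hy'
    simp only [hU, Set.mem_iUnion, exists_prop] at hy hy'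
    obtain ⟨t, ht, hyt⟩ := hy
    obtain ⟨t', ht', hyt'⟩ := hy'
    exact hmm' ((hmc k hk m t ht y hyt).symm.trans (hmc k hk m' t' ht' y hyt'))
  -- decomposition
  set x : ℕ → κ → K := fun m k => ∑ t ∈ 𝒲 k m, E k (W k (Ls (cell m t) (Z v))) with hx
  have hsum : ∀ k ∈ S, E k (W k (Z v)) = ∑ m ∈ range (J + 1), x m k := by
    intro k hk
    set G : Set Y := ⋃ m ∈ range (J + 1), U k m with hG
    have hGm : MeasurableSet G := Finset.measurableSet_biUnion _ fun m _ => hUm k m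
    have hG1 : Ls G = ∑ m ∈ range (J + 1), ∑ t ∈ 𝒲 k m, Ls (cell m t) := by
      rw [hG, hLs.sum _ _ (fun m _ => hUm k m) (hUd k hk)]
      refine sum_congr rfl fun m _ => ?_
      exact hLs.sum _ _ (fun t _ => hmeas m t) fun t _ t' _ htt => hcd m t t' htt
    have h0 : Ln Set.univ * (E k * (W k * (Ls Gᶜ * Z))) = 0 := by
      refine hins k hk _ _ MeasurableSet.univ hGm.compl fun ν _ ω hω hch => hω ?_
      simp only [hG, hU, Set.mem_iUnion, exists_prop]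
      refine ⟨mm k ω, mem_range.2 (Nat.lt_succ_of_le (hJ k hk ν ω hch)), lb (mm k ω) ω, ?_, rfl⟩
      exact mem_filter.2 ⟨h𝒞 _ ω, ν, ω, hch, rfl, rfl⟩
    rw [hLn.univ, one_mul, hLs.compl _ hGm] at h0
    have h1 : E k (W k (Z v)) = E k (W k (Ls G (Z v))) := by
      have h2 := congrArg (fun T : K →L[ℂ] K => T v) h0
      have h3 : E k (W k (Z v - Ls G (Z v))) = 0 := by simpa using h2
      rw [map_sub, map_sub, sub_eq_zero] at h3
      exact h3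
    rw [h1, hG1]
    simp only [_root_.sum_apply, map_sum, hx]
  -- one level
  have hlev : ∀ m ∈ range (J + 1), ∑ k ∈ S, ‖x m k‖ ^ 2 ≤ (Real.sqrt M * MT * ‖Z v‖) ^ 2 := by
    intro m _
    have hleft : ∀ k ∈ S, ‖x m k‖ ^ 2
        ≤ M * ∑ t ∈ 𝒲 k m, ‖E k (W k (Ls (cell m t) (Z v)))‖ ^ 2 := by
      intro k hk
      have hfix : ∀ t ∈ 𝒲 k m, Ln (P m t) (E k (W k (Ls (cell m t) (Z v))))
          = E k (W k (Ls (cell m t) (Z v))) := by
        intro t ht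
        have h0 : Ln (P m t)ᶜ * (E k * (W k * (Ls (cell m t) * Z))) = 0 := by
          refine hins k hk _ _ (hPm m t).compl (hmeas m t) fun ν hν ω hω hch => hν ?_
          have h1 := hP k hk ν ω hch
          rw [hmc k hk m t ht ω hω] at h1
          rwa [(hω : lb m ω = t)] at h1
        have h1 : Ln (P m t)ᶜ (E k (W k (Ls (cell m t) (Z v)))) = 0 := by
          have := congrArg (fun T : K →L[ℂ] K => T v) h0
          simpa using this
        rw [hLn.compl _ (hPm m t)] at h1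
        have h2 : E k (W k (Ls (cell m t) (Z v))) -
            Ln (P m t) (E k (W k (Ls (cell m t) (Z v)))) = 0 := by
          simpa using h1
        exact (sub_eq_zero.1 h2).symm
      have h1 : x m k = ∑ t ∈ 𝒲 k m, Ln (P m t) (E k (W k (Ls (cell m t) (Z v)))) := by
        rw [hx]
        exact sum_congr rfl fun t ht => (hfix t ht).symm
      rw [h1]
      refine hLn.mult' (𝒲 k m) (P m) (fun t _ => hPm m t) M ?_ _
      intro ν T' hT hTν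
      refine hM m ν T' fun t ht => ⟨?_, hTν t ht⟩
      obtain ⟨_, ω, _, _, h3⟩ := (mem_filter.1 (hT ht)).2
      exact ⟨ω, h3⟩
    have hcellb : ∀ t ∈ 𝒞 m, ∑ k ∈ S.filter (fun k => t ∈ 𝒲 k m),
        ‖E k (W k (Ls (cell m t) (Z v)))‖ ^ 2 ≤ MT ^ 2 * ‖Ls (cell m t) (Z v)‖ ^ 2 := by
      intro t _
      refine hmul m t _ (filter_subset _ _) fun k hk => ?_
      exact (mem_filter.1 (mem_filter.1 hk).2).2
    calc ∑ k ∈ S, ‖x m k‖ ^ 2
        ≤ ∑ k ∈ S, M * ∑ t ∈ 𝒲 k m, ‖E k (W k (Ls (cell m t) (Z v)))‖ ^ 2 := sum_le_sum hleft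
      _ = M * ∑ t ∈ 𝒞 m, ∑ k ∈ S.filter (fun k => t ∈ 𝒲 k m),
            ‖E k (W k (Ls (cell m t) (Z v)))‖ ^ 2 := by
          rw [← mul_sum]
          congr 1
          have h1 : ∀ k ∈ S, ∑ t ∈ 𝒲 k m, ‖E k (W k (Ls (cell m t) (Z v)))‖ ^ 2
              = ∑ t ∈ 𝒞 m, if t ∈ 𝒲 k m then ‖E k (W k (Ls (cell m t) (Z v)))‖ ^ 2 else 0 := by
            intro k _
            rw [← sum_filter]
            refine sum_congr ?_ fun _ _ => rfl
            ext t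
            exact ⟨fun h => mem_filter.2 ⟨(mem_filter.1 h).1, h⟩, fun h => (mem_filter.1 h).2⟩
          rw [sum_congr rfl h1, sum_comm]
          exact sum_congr rfl fun t _ => by rw [sum_filter]
      _ ≤ M * ∑ t ∈ 𝒞 m, MT ^ 2 * ‖Ls (cell m t) (Z v)‖ ^ 2 := by
          gcongr with t ht
          exact hcellb t ht
      _ = M * (MT ^ 2 * ∑ t ∈ 𝒞 m, ‖Ls (cell m t) (Z v)‖ ^ 2) := by
          congr 1
          rw [← mul_sum]
      _ ≤ M * (MT ^ 2 * ‖Z v‖ ^ 2) := by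
          gcongr
          exact hLs.bessel _ _ (fun t _ => hmeas m t) (fun t _ t' _ htt => hcd m t t' htt) _
      _ = _ := by
          rw [mul_pow, mul_pow, Real.sq_sqrt (Nat.cast_nonneg _)]; ring
  have hfin := mink_sum S (range (J + 1)) x (fun _ => Real.sqrt M * MT * ‖Z v‖)
    (fun _ _ => by positivity) hlev
  calc ∑ k ∈ S, ‖E k (W k (Z v))‖ ^ 2 = ∑ k ∈ S, ‖∑ m ∈ range (J + 1), x m k‖ ^ 2 :=
        sum_congr rfl fun k hk => by rw [hsum k hk]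
    _ ≤ _ := hfin
    _ = _ := by
        rw [sum_const, card_range, nsmul_eq_mul]
        push_cast
        ring

/-- ultrametric form: the functions are constant on the cells -/
theorem unitU {Y T κ : Type} [MeasurableSpace Y] {Ls Ln : Set Y → (K →L[ℂ] K)} (hLs : Pv Ls)
    (hLn : Pv Ln) (Z : K →L[ℂ] K) (J : ℕ) (lb : ℕ → Y → T)
    (hfin : ∀ m, ∃ G : Finset T, ∀ y, lb m y ∈ G)
    (hmeas : ∀ m t, MeasurableSet {y | lb m y = t}) (S : Finset κ) (ch : κ → Y → Y → Prop)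
    (mm : κ → Y → ℕ) (hJ : ∀ k ∈ S, ∀ ν ω, ch k ν ω → mm k ω ≤ J)
    (hc : ∀ k ∈ S, ∀ ν ω ω', ch k ν ω → lb (mm k ω) ω' = lb (mm k ω) ω → mm k ω' = mm k ω)
    (P : ℕ → T → Set Y) (hPm : ∀ m t, MeasurableSet (P m t))
    (hP : ∀ k ∈ S, ∀ ν ω, ch k ν ω → ν ∈ P (mm k ω) (lb (mm k ω) ω)) (M : ℕ)
    (hM : ∀ m ν, ∀ U : Finset T, (∀ t ∈ U, (∃ y, lb m y = t) ∧ ν ∈ P m t) → U.card ≤ M)
    (E W : κ → (K →L[ℂ] K))
    (hins : ∀ k ∈ S, ∀ A D : Set Y, MeasurableSet A → MeasurableSet D →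
      (∀ ν ∈ A, ∀ ω ∈ D, ¬ ch k ν ω) → Ln A * (E k * (W k * (Ls D * Z))) = 0)
    (F : κ → Y → ℂ) (CF N : ℝ) (hCF : 0 ≤ CF) (hN : 0 ≤ N) (hF : ∀ k ∈ S, ∀ y, ‖F k y‖ ≤ CF)
    (hFc : ∀ k ∈ S, ∀ ν ω ω', ch k ν ω → lb (mm k ω) ω' = lb (mm k ω) ω → F k ω' = F k ω)
    (hW : ∀ k ∈ S, Opf Ls (F k) (W k)) (hE : Cap S E N) (v : K) :
    ∑ k ∈ S, ‖E k (W k (Z v))‖ ^ 2 ≤ (Real.sqrt M * (CF * N) * (J + 1)) ^ 2 * ‖Z v‖ ^ 2 := by
  refine unitX hLs hLn Z J lb hfin hmeas S ch mm hJ hc P hPm hP M hM E W hins (CF * N)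
    (by positivity) v ?_
  intro m t S' hS' hS''
  have h1 : ∀ k ∈ S', ‖E k (W k (Ls {y | lb m y = t} (Z v)))‖ ^ 2 ≤
      CF ^ 2 * ‖E k (Ls {y | lb m y = t} (Z v))‖ ^ 2 := by
    intro k hk
    obtain ⟨ν, ω, h1, h2, h3⟩ := hS'' k hk
    subst h2
    have h4 := (hW k (hS' hk)).approx {y | lb (mm k ω) y = t} (hmeas _ _) (F k ω) 0 le_rfl
      (fun y hy => by
        rw [hFc k (hS' hk) ν ω y h1 ((hy : lb (mm k ω) y = t).trans h3.symm), sub_self, norm_zero])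
      (Z v)
    rw [zero_mul] at h4
    have h5 := sub_eq_zero.1 (norm_le_zero_iff.1 h4)
    rw [h5, map_smul, norm_smul, mul_pow]
    gcongr
    exact hF k (hS' hk) ω
  calc ∑ k ∈ S', ‖E k (W k (Ls {y | lb m y = t} (Z v)))‖ ^ 2
      ≤ ∑ k ∈ S', CF ^ 2 * ‖E k (Ls {y | lb m y = t} (Z v))‖ ^ 2 := sum_le_sum h1
    _ = CF ^ 2 * ∑ k ∈ S', ‖E k (Ls {y | lb m y = t} (Z v))‖ ^ 2 := by rw [mul_sum]
    _ ≤ CF ^ 2 * (N ^ 2 * ‖Ls {y | lb m y = t} (Z v)‖ ^ 2) := by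
        gcongr
        exact (sum_le_sum_of_subset_of_nonneg hS' fun _ _ _ => sq_nonneg _).trans (hE _)
    _ = _ := by ring

end Vale.Agent.P092.H217.F
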