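import Vale.Agent.P092.H217.FD

/-!
P092, stage 3 (helper217), block [P3-COUNT], part 2: algebra of the form and bounds for an isometry
near the 1-wall, without coordinates.
-/

set_option linter.all false

namespace Vale.Agent.P092.H217.F

open Finset Matrix
open Vale.Agent.P092.H820 (wd)
open Vale.Agent.P092.H714.Cl (hf hf_add_left hf_smul_left hf_add_right hf_smul_right hf_zero_left
  hf_zero_right)
open Vale.Agent.P092.H835.PlF (w3 Alt sq sq_wd alt_wd alt_sq bl bl_self bl_anti sq_apply)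
open Vale.Agent.P092.H589.K2 (Nrm mn mn_wd wd_norm_le chain_mn nrm_one nrm_ne)

variable {k : Type} [NontriviallyNormedField k] {n : Type} [Fintype n] [DecidableEq n]
  {σ : k →+* k} {J : Matrix n n k} {β : ℝ}

section alg

lemma hf_neg_left (x y : n → k) : hf σ J (-x) y = - hf σ J x y := by
  unfold hf; rw [neg_dotProduct]

lemma hf_sub_left (x x' y : n → k) : hf σ J (x - x') y = hf σ J x y - hf σ J x' y := by
  rw [sub_eq_add_neg, hf_add_left, hf_neg_left, sub_eq_add_neg]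

lemma hf_neg_right (x y : n → k) : hf σ J x (-y) = - hf σ J x y := by
  have e : (fun i => σ ((-y) i)) = - fun i => σ (y i) := by
    funext i; simp
  unfold hf
  rw [e, mulVec_neg, dotProduct_neg]

lemma hf_sub_right (x y y' : n → k) : hf σ J x (y - y') = hf σ J x y - hf σ J x y' := by
  rw [sub_eq_add_neg, hf_add_right, hf_neg_right, sub_eq_add_neg]

/-- `J σ(x)` -/
def jv (σ : k →+* k) (J : Matrix n n k) (x : n → k) : n → k := J *ᵥ fun i => σ (x i)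

lemma hf_jv (x y : n → k) : hf σ J x y = ∑ i, x i * jv σ J y i := rfl

lemma ct_jv (x : n → k) (P : n × n → k) (a : n) :
    ct σ J x P a = ∑ c, P (a, c) * jv σ J x c := rfl

lemma ct_wd (x y m : n → k) :
    ct σ J x (wd y m) = hf σ J m x • y - hf σ J y x • m := by
  funext a
  have e : (fun c => wd y m (a, c)) = y a • m - m a • y := by
    funext c; simp only [wd, Pi.sub_apply, Pi.smul_apply, smul_eq_mul]; ring
  unfold ct
  rw [e, hf_sub_left, hf_smul_left, hf_smul_left]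
  simp only [Pi.sub_apply, Pi.smul_apply, smul_eq_mul]; ring

lemma ct_sub (x : n → k) (P Q : n × n → k) :
    ct σ J x (P - Q) = ct σ J x P - ct σ J x Q := by
  funext a
  exact hf_sub_left (fun c => P (a, c)) (fun c => Q (a, c)) x

lemma ct_add (x : n → k) (P Q : n × n → k) :
    ct σ J x (P + Q) = ct σ J x P + ct σ J x Q := by
  funext a
  exact hf_add_left σ J (fun c => P (a, c)) (fun c => Q (a, c)) x

lemma ct_smul (x : n → k) (c : k) (P : n × n → k) : ct σ J x (c • P) = c • ct σ J x P := by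
  funext a
  exact hf_smul_left σ J c (fun c => P (a, c)) x

lemma ct_add_left (x x' : n → k) (P : n × n → k) :
    ct σ J (x + x') P = ct σ J x P + ct σ J x' P := by
  funext a
  exact hf_add_right σ J _ x x'

lemma Bm_wd_right (P : n × n → k) (y m : n → k) (a b : n) :
    Bm σ J P (wd y m) (a, b) = σ (y b) * ct σ J m P a - σ (m b) * ct σ J y P a := by
  have e : (fun d => wd y m (b, d)) = y b • m - m b • y := by
    funext c; simp only [wd, Pi.sub_apply, Pi.smul_apply, smul_eq_mul]; ring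
  simp only [Bm, ct]
  rw [e, hf_sub_right, hf_smul_right, hf_smul_right]

lemma hf_ct (x y : n → k) (Q : n × n → k) :
    hf σ J (ct σ J x Q) y = bl Q (jv σ J y) (jv σ J x) := by
  rw [hf_jv]
  simp only [ct_jv, bl, Finset.sum_mul]
  refine sum_congr rfl fun a _ => sum_congr rfl fun c _ => ?_
  ring

lemma hf_ct_self (x : n → k) {Q : n × n → k} (hQ : Alt Q) : hf σ J (ct σ J x Q) x = 0 := by
  rw [hf_ct, bl_self hQ]

lemma hf_ct_anti (x y : n → k) {Q : n × n → k} (hQ : Alt Q) :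
    hf σ J (ct σ J x Q) y = - hf σ J (ct σ J y Q) x := by
  rw [hf_ct, hf_ct, bl_anti hQ]

lemma row_le (P : n × n → k) (a : n) : ‖fun c => P (a, c)‖ ≤ ‖P‖ :=
  (pi_norm_le_iff_of_nonneg (norm_nonneg _)).2 fun c => norm_le_pi_norm P (a, c)

lemma alt_neg {Q : n × n → k} (hQ : Alt Q) (a b : n) : Q (a, b) = - Q (b, a) := hQ.2 a b

/-- the rows of `M P Mᵀ` -/
lemma sq_row (M : Matrix n n k) (P : n × n → k) (i : n) :
    (fun c => (sq M *ᵥ P) (i, c)) = ∑ a, M i a • (M *ᵥ fun c => P (a, c)) := by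
  funext c
  rw [sq_apply]
  simp only [bl, Finset.sum_apply, Pi.smul_apply, smul_eq_mul, mulVec, dotProduct, mul_sum]
  refine sum_congr rfl fun a _ => sum_congr rfl fun b _ => ?_
  ring

lemma hf_sum_left {α : Type} (s : Finset α) (f : α → n → k) (y : n → k) :
    hf σ J (∑ a ∈ s, f a) y = ∑ a ∈ s, hf σ J (f a) y := by
  classical
  induction s using Finset.induction_on with
  | empty => simp [hf_zero_left]
  | insert a s ha ih => rw [sum_insert ha, sum_insert ha, hf_add_left, ih]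

/-- contraction and an isometry -/
lemma ct_sq {M : Matrix n n k} (hM : ∀ v w, hf σ J (M *ᵥ v) (M *ᵥ w) = hf σ J v w) (x : n → k)
    (P : n × n → k) : ct σ J (M *ᵥ x) (sq M *ᵥ P) = M *ᵥ ct σ J x P := by
  funext i
  change hf σ J (fun c => (sq M *ᵥ P) (i, c)) (M *ᵥ x) = _
  rw [sq_row, hf_sum_left]
  simp only [hf_smul_left, hM, mulVec, dotProduct]
  rfl

end alg

section bd

lemma norm_single_one (j : n) : ‖(Pi.single j (1 : k) : n → k)‖ ≤ 1 := by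
  refine (pi_norm_le_iff_of_nonneg zero_le_one).2 fun i => ?_
  by_cases h : i = j
  · subst h; simp
  · rw [Pi.single_eq_of_ne h]; simp

namespace Fm

variable (h : Fm σ J β)
include h

lemma b0 : 0 < β := lt_of_lt_of_le one_pos h.b1

lemma le {x y : n → k} {a b : ℝ} (hx : ‖x‖ ≤ a) (hy : ‖y‖ ≤ b) : ‖hf σ J x y‖ ≤ β * (a * b) := by
  have hb := h.b0
  have ha : 0 ≤ a := (norm_nonneg _).trans hx
  refine (h.bd x y).trans ?_
  gcongr

lemma ct_le (x : n → k) (P : n × n → k) : ‖ct σ J x P‖ ≤ β * (‖P‖ * ‖x‖) := by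
  have hb := h.b0
  refine (pi_norm_le_iff_of_nonneg (by positivity)).2 fun a => ?_
  exact h.le (row_le P a) le_rfl

lemma Bm_le (P Q : n × n → k) : ‖Bm σ J P Q‖ ≤ β * (‖P‖ * ‖Q‖) := by
  have hb := h.b0
  refine (pi_norm_le_iff_of_nonneg (by positivity)).2 fun a => ?_
  exact h.le (row_le P a.1) (row_le Q a.2)

lemma Bm_sym (P Q : n × n → k) : ‖Bm σ J P Q‖ ≤ ‖Bm σ J Q P‖ := by
  refine (pi_norm_le_iff_of_nonneg (norm_nonneg _)).2 fun a => ?_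
  have e : ‖Bm σ J P Q a‖ = ‖Bm σ J Q P (a.2, a.1)‖ := h.sym _ _
  rw [e]
  exact norm_le_pi_norm _ _

lemma z {x y : n → k} (hxy : hf σ J x y = 0) : hf σ J y x = 0 := by
  rw [← norm_eq_zero, h.sym, hxy, norm_zero]

/-- a 2-vector is bounded by its double contractions -/
lemma nd2 (P : n × n → k) : ∃ i j, ‖P‖ ≤ β ^ 2 *
    ‖hf σ J (ct σ J (Pi.single j 1) P) (Pi.single i 1)‖ := by
  have hb := h.b0
  by_cases h0 : P = 0
  · by_cases hn : Nonempty n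
    · obtain ⟨i⟩ := hn
      exact ⟨i, i, by rw [h0, norm_zero]; positivity⟩
    · exact absurd (h.nd 0) fun ⟨j, _⟩ => hn ⟨j⟩
  · have hP : ∃ p, ‖P‖ ≤ ‖P p‖ := by
      obtain ⟨p0, hp0⟩ : ∃ p, P p ≠ 0 := by
        by_contra hc
        push Not at hc
        exact h0 (funext hc)
      haveI : Nonempty (n × n) := ⟨p0⟩
      obtain ⟨p, hp⟩ := Finite.exists_max fun p => ‖P p‖
      exact ⟨p, (pi_norm_le_iff_of_nonneg (norm_nonneg _)).2 hp⟩
    obtain ⟨⟨a, c⟩, hp⟩ := hP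
    obtain ⟨j, hj⟩ := h.nd fun c => P (a, c)
    obtain ⟨i, hi⟩ := h.nd (ct σ J (Pi.single j 1) P)
    refine ⟨i, j, ?_⟩
    have h1 : ‖P (a, c)‖ ≤ ‖fun c => P (a, c)‖ := norm_le_pi_norm (fun c => P (a, c)) c
    have h2 : ‖hf σ J (fun c => P (a, c)) (Pi.single j 1)‖ ≤ ‖ct σ J (Pi.single j 1) P‖ :=
      norm_le_pi_norm (ct σ J (Pi.single j 1) P) a
    calc ‖P‖ ≤ β * ‖hf σ J (fun c => P (a, c)) (Pi.single j 1)‖ := hp.trans (h1.trans hj)
      _ ≤ β * (β * ‖hf σ J (ct σ J (Pi.single j 1) P) (Pi.single i 1)‖) := by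
          gcongr
          exact h2.trans hi
      _ = _ := by ring

end Fm

/-- a vector is a multiple of another one up to the wedge product -/
lemma dec_max {u w : n → k} (hu : u ≠ 0) : ∃ (α : k) (r : n → k), w = α • u + r ∧
    ‖α‖ * ‖u‖ ≤ ‖w‖ ∧ ‖r‖ * ‖u‖ ≤ ‖wd w u‖ := by
  obtain ⟨p0, hp0⟩ : ∃ p, u p ≠ 0 := by
    by_contra hc
    push Not at hc
    exact hu (funext hc)
  haveI : Nonempty n := ⟨p0⟩
  obtain ⟨p, hp⟩ := Finite.exists_max fun p => ‖u p‖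
  have hup : ‖u p‖ = ‖u‖ := le_antisymm (norm_le_pi_norm _ _)
    ((pi_norm_le_iff_of_nonneg (norm_nonneg _)).2 hp)
  have hu0 : 0 < ‖u‖ := norm_pos_iff.2 hu
  have hne : u p ≠ 0 := by
    rw [← norm_pos_iff, hup]; exact hu0
  refine ⟨w p / u p, w - (w p / u p) • u, by abel, ?_, ?_⟩
  · rw [norm_div, hup, div_mul_cancel₀ _ hu0.ne']
    exact norm_le_pi_norm _ _
  · rw [← hup, mul_comm, ← norm_smul]
    refine (pi_norm_le_iff_of_nonneg (norm_nonneg _)).2 fun i => ?_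
    have e : (u p • (w - (w p / u p) • u)) i = wd w u (i, p) := by
      simp only [wd, Pi.sub_apply, Pi.smul_apply, smul_eq_mul]
      field_simp
    rw [e]
    exact norm_le_pi_norm _ _

/-- the double contraction of an alternating 2-vector depends on the wedge -/
lemma hf_ct_le (h : Fm σ J β) (u w : n → k) {Q : n × n → k} (hQ : Alt Q) :
    ‖hf σ J (ct σ J u Q) w‖ ≤ β ^ 2 * (‖Q‖ * ‖wd u w‖) := by
  have hb := h.b0
  have key : ∀ u w : n → k, u ≠ 0 →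
      ‖hf σ J (ct σ J u Q) w‖ ≤ β ^ 2 * (‖Q‖ * ‖wd w u‖) := by
    intro u w hu
    obtain ⟨α, r, hw, h1, h2⟩ := dec_max (w := w) hu
    have e : hf σ J (ct σ J u Q) w = hf σ J (ct σ J u Q) r := by
      rw [hw, hf_add_right, hf_smul_right, hf_ct_self u hQ, mul_zero, zero_add]
    rw [e]
    calc ‖hf σ J (ct σ J u Q) r‖ ≤ β * ((β * (‖Q‖ * ‖u‖)) * ‖r‖) := h.le (h.ct_le u Q) le_rfl
      _ = β ^ 2 * (‖Q‖ * (‖r‖ * ‖u‖)) := by ring
      _ ≤ _ := by gcongr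
  have hs : ‖wd w u‖ = ‖wd u w‖ := by
    have e : wd w u = - wd u w := by funext p; simp only [wd, Pi.neg_apply]; ring
    rw [e, norm_neg]
  by_cases hu : u = 0
  · have e : ct σ J u Q = 0 := by
      funext a; rw [hu]; exact hf_zero_right σ J _
    rw [e, hf_zero_left, norm_zero]; positivity
  · rw [← hs]; exact key u w hu

variable {C m C₂ : ℝ} {M : Matrix n n k}

/-- inverse bound -/
lemma adj1 (h : Fm σ J β) (hM : Nw σ J C m M) (v : n → k) : ‖v‖ ≤ β ^ 2 * C * m * ‖M *ᵥ v‖ := by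
  have hb := h.b0
  have hC := hM.C1
  have hm := hM.m1
  obtain ⟨j, hj⟩ := h.nd v
  refine hj.trans ?_
  rw [← hM.iso]
  have h1 : ‖M *ᵥ (Pi.single j 1 : n → k)‖ ≤ C * m := by
    refine (hM.u1 _).trans ?_
    have := norm_single_one (k := k) j
    have : 0 ≤ C * m := by positivity
    nlinarith
  calc β * ‖hf σ J (M *ᵥ v) (M *ᵥ Pi.single j 1)‖ ≤ β * (β * (‖M *ᵥ v‖ * (C * m))) := by
        gcongr
        exact h.le le_rfl h1
    _ = _ := by ring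

/-- inverse bound for 2-vectors -/
lemma adj2 (h : Fm σ J β) (hM : Nw σ J C m M) {P : n × n → k} (hP : Alt P) :
    ‖P‖ ≤ 2 * β ^ 4 * C * m * ‖sq M *ᵥ P‖ := by
  have hb := h.b0
  have hC := hM.C1
  have hm := hM.m1
  obtain ⟨i, j, hij⟩ := h.nd2 P
  refine hij.trans ?_
  rw [← hM.iso, ← ct_sq hM.iso]
  have h1 : ‖wd (M *ᵥ (Pi.single j 1 : n → k)) (M *ᵥ (Pi.single i 1 : n → k))‖ ≤ 2 * (C * m) := by
    rw [← sq_wd]
    refine (hM.u2 _ (alt_wd _ _)).trans ?_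
    have h2 := wd_norm_le (Pi.single j 1 : n → k) (Pi.single i 1)
    have h3 : ‖(Pi.single j 1 : n → k)‖ * ‖(Pi.single i 1 : n → k)‖ ≤ 1 * 1 :=
      mul_le_mul (norm_single_one j) (norm_single_one i) (norm_nonneg _) zero_le_one
    have h4 : ‖wd (Pi.single j 1 : n → k) (Pi.single i 1)‖ ≤ 2 := by linarith
    calc C * m * ‖wd (Pi.single j 1 : n → k) (Pi.single i 1)‖ ≤ C * m * 2 := by gcongr
      _ = _ := by ring
  have h2 := hf_ct_le h (M *ᵥ (Pi.single j 1 : n → k)) (M *ᵥ (Pi.single i 1 : n → k))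
    (alt_sq M hP)
  calc β ^ 2 * _ ≤ β ^ 2 * (β ^ 2 * (‖sq M *ᵥ P‖ * (2 * (C * m)))) := by
        gcongr
        refine h2.trans ?_
        gcongr
    _ = _ := by ring

/-- the data of a contracted point -/
structure Cx (σ : k →+* k) (J : Matrix n n k) (C₂ m : ℝ) (M : Matrix n n k) (x : n → k) :
    Prop where
  x1 : ‖x‖ = 1
  iso : hf σ J x x = 0
  c1 : 1 ≤ C₂
  le : ‖M *ᵥ x‖ * m ≤ C₂

variable {x : n → k}

lemma exu (h : Fm σ J β) (hx : ‖x‖ = 1) : ∃ j : n, 1 ≤ β * ‖hf σ J (Pi.single j 1) x‖ := by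
  obtain ⟨j, hj⟩ := h.nd x
  exact ⟨j, by rw [h.sym, ← hx]; exact hj⟩

/-- the constant of (A) -/
def CA (β C C₂ : ℝ) : ℝ := 4 * β ^ 4 * C ^ 2 * C₂ ^ 2

/-- **(A)** on the hyperplane of `x` the isometry is bounded -/
lemma boundA (h : Fm σ J β) (hM : Nw σ J C m M) (hx : Cx σ J C₂ m M x) {v : n → k}
    (hv : hf σ J v x = 0) : ‖M *ᵥ v‖ ≤ CA β C C₂ * ‖v‖ := by
  have hb := h.b0
  have hb1 := h.b1
  have hC := hM.C1
  have hm := hM.m1
  have hC₂ := hx.c1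
  obtain ⟨j, hj⟩ := exu h hx.x1
  set u : n → k := Pi.single j 1 with hu
  have hu1 : ‖u‖ ≤ 1 := norm_single_one j
  have hm0 : 0 < m := by linarith
  have hMx := hx.le
  -- `m ≤ β² C₂ ‖M u‖`
  have e1 : m ≤ β ^ 2 * C₂ * ‖M *ᵥ u‖ := by
    rw [← hM.iso] at hj
    have h1 : 1 ≤ β * (β * (‖M *ᵥ u‖ * ‖M *ᵥ x‖)) := hj.trans (by gcongr; exact h.bd _ _)
    calc m ≤ m * (β * (β * (‖M *ᵥ u‖ * ‖M *ᵥ x‖))) := by nlinarith
      _ = β ^ 2 * ‖M *ᵥ u‖ * (‖M *ᵥ x‖ * m) := by ring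
      _ ≤ β ^ 2 * ‖M *ᵥ u‖ * C₂ := by gcongr
      _ = _ := by ring
  have hMu : 0 < ‖M *ᵥ u‖ := by
    by_contra hc
    have : ‖M *ᵥ u‖ = 0 := le_antisymm (not_lt.1 hc) (norm_nonneg _)
    rw [this, mul_zero] at e1
    linarith
  obtain ⟨α, r, hw, k1, k2⟩ := dec_max (u := M *ᵥ u) (w := M *ᵥ v) (norm_pos_iff.1 hMu)
  have e2 : ‖wd (M *ᵥ v) (M *ᵥ u)‖ ≤ 2 * C * m * ‖v‖ := by
    rw [← sq_wd]
    refine (hM.u2 _ (alt_wd _ _)).trans ?_
    have h2 := wd_norm_le v u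
    have h3 : ‖v‖ * ‖u‖ ≤ ‖v‖ := mul_le_of_le_one_right (norm_nonneg _) hu1
    calc C * m * ‖wd v u‖ ≤ C * m * (2 * ‖v‖) := by gcongr; linarith
      _ = _ := by ring
  have e3 : ‖r‖ ≤ 2 * β ^ 2 * C * C₂ * ‖v‖ := by
    have : ‖r‖ * m ≤ (2 * β ^ 2 * C * C₂ * ‖v‖) * m := by
      calc ‖r‖ * m ≤ ‖r‖ * (β ^ 2 * C₂ * ‖M *ᵥ u‖) := by gcongr
        _ = β ^ 2 * C₂ * (‖r‖ * ‖M *ᵥ u‖) := by ring
        _ ≤ β ^ 2 * C₂ * (2 * C * m * ‖v‖) :=
          mul_le_mul_of_nonneg_left (k2.trans e2) (by positivity)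
        _ = _ := by ring
    exact le_of_mul_le_mul_right this hm0
  have e4 : ‖α‖ * m ≤ 2 * β ^ 4 * C * C₂ ^ 2 * ‖v‖ := by
    have h0 : α * hf σ J u x + hf σ J r (M *ᵥ x) = 0 := by
      rw [← hM.iso u x, ← hf_smul_left, ← hf_add_left, ← hw, hM.iso, hv]
    have h1 : ‖α‖ * ‖hf σ J u x‖ = ‖hf σ J r (M *ᵥ x)‖ := by
      rw [← norm_mul, eq_neg_of_add_eq_zero_left h0, norm_neg]
    calc ‖α‖ * m ≤ ‖α‖ * m * (β * ‖hf σ J u x‖) := by
          have : 0 ≤ ‖α‖ * m := by positivity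
          nlinarith
      _ = β * m * (‖α‖ * ‖hf σ J u x‖) := by ring
      _ = β * m * ‖hf σ J r (M *ᵥ x)‖ := by rw [h1]
      _ ≤ β * m * (β * ((2 * β ^ 2 * C * C₂ * ‖v‖) * ‖M *ᵥ x‖)) := by
          gcongr
          exact h.le e3 le_rfl
      _ = 2 * β ^ 4 * C * C₂ * ‖v‖ * (‖M *ᵥ x‖ * m) := by ring
      _ ≤ 2 * β ^ 4 * C * C₂ * ‖v‖ * C₂ := by gcongr
      _ = _ := by ring
  have e5 : ‖α • (M *ᵥ u)‖ ≤ 2 * β ^ 4 * C ^ 2 * C₂ ^ 2 * ‖v‖ := by
    rw [norm_smul]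
    have h1 : ‖M *ᵥ u‖ ≤ C * m := (hM.u1 u).trans (by
      have : 0 ≤ C * m := by positivity
      nlinarith)
    calc ‖α‖ * ‖M *ᵥ u‖ ≤ ‖α‖ * (C * m) := by gcongr
      _ = C * (‖α‖ * m) := by ring
      _ ≤ C * (2 * β ^ 4 * C * C₂ ^ 2 * ‖v‖) := by gcongr
      _ = _ := by ring
  rw [hw]
  refine (norm_add_le _ _).trans ?_
  have e6 : 2 * β ^ 2 * C * C₂ * ‖v‖ ≤ 2 * β ^ 4 * C ^ 2 * C₂ ^ 2 * ‖v‖ := by
    have h1 : β ^ 2 ≤ β ^ 4 := pow_le_pow_right₀ hb1 (by norm_num)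
    have h2 : C ≤ C ^ 2 := by nlinarith
    have h3 : C₂ ≤ C₂ ^ 2 := by nlinarith
    gcongr
  rw [CA]
  linarith

/-- (A1) -/
lemma boundA1 (h : Fm σ J β) (hM : Nw σ J C m M) (hx : Cx σ J C₂ m M x) (v : n → k) :
    ‖M *ᵥ v‖ ≤ (2 * β ^ 2 * CA β C C₂) * ‖v‖ + β * C * m * ‖hf σ J v x‖ := by
  have hb := h.b0
  have hb1 := h.b1
  have hC := hM.C1
  have hm := hM.m1
  have hC₂ := hx.c1
  obtain ⟨j, hj⟩ := exu h hx.x1
  set u : n → k := Pi.single j 1 with hu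
  have hu1 : ‖u‖ ≤ 1 := norm_single_one j
  set c := hf σ J u x with hc
  have hc0 : 0 < ‖c‖ := by
    by_contra h0
    have : ‖c‖ = 0 := le_antisymm (not_lt.1 h0) (norm_nonneg _)
    rw [this, mul_zero] at hj
    linarith
  have hcne : c ≠ 0 := norm_pos_iff.1 hc0
  set α := hf σ J v x / c with hα
  have hαn : ‖α‖ ≤ β * ‖hf σ J v x‖ := by
    rw [hα, norm_div, div_le_iff₀ hc0]
    have := norm_nonneg (hf σ J v x)
    nlinarith
  have hv' : hf σ J (v - α • u) x = 0 := by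
    rw [hf_sub_left, hf_smul_left, ← hc, hα, div_mul_cancel₀ _ hcne, sub_self]
  have h1 := boundA h hM hx hv'
  have h2 : ‖v - α • u‖ ≤ 2 * β ^ 2 * ‖v‖ := by
    refine (norm_sub_le _ _).trans ?_
    rw [norm_smul]
    have h3 : ‖hf σ J v x‖ ≤ β * (‖v‖ * 1) := h.le le_rfl hx.x1.le
    have h4 : ‖α‖ * ‖u‖ ≤ β * (β * ‖v‖) := by
      calc ‖α‖ * ‖u‖ ≤ ‖α‖ * 1 := by gcongr
        _ ≤ β * (β * ‖v‖) := by
          rw [mul_one]
          refine hαn.trans ?_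
          rw [mul_one] at h3
          gcongr
    have h5 : ‖v‖ ≤ β ^ 2 * ‖v‖ := by
      have : 1 ≤ β ^ 2 := one_le_pow₀ hb1
      have := norm_nonneg v
      nlinarith
    linarith
  have h3 : M *ᵥ v = M *ᵥ (v - α • u) + α • (M *ᵥ u) := by
    rw [mulVec_sub, mulVec_smul]; abel
  have hCA : 0 ≤ CA β C C₂ := by unfold CA; positivity
  rw [h3]
  refine (norm_add_le _ _).trans ?_
  rw [norm_smul]
  have h4 : ‖M *ᵥ u‖ ≤ C * m := (hM.u1 u).trans (by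
    have : 0 ≤ C * m := by positivity
    nlinarith)
  have h5 : ‖α‖ * ‖M *ᵥ u‖ ≤ (β * ‖hf σ J v x‖) * (C * m) := by gcongr
  have h6 : CA β C C₂ * ‖v - α • u‖ ≤ CA β C C₂ * (2 * β ^ 2 * ‖v‖) := by gcongr
  calc _ ≤ CA β C C₂ * (2 * β ^ 2 * ‖v‖) + (β * ‖hf σ J v x‖) * (C * m) := by linarith
    _ = _ := by ring

/-- the constant of (B) -/
def CB (β C C₂ : ℝ) : ℝ := 3 * β ^ 2 * CA β C C₂ ^ 2 + 2 * β * C

lemma CB1 (hb : 1 ≤ β) (hC : 1 ≤ C) (hC₂ : 1 ≤ C₂) : 1 ≤ CB β C C₂ := by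
  have : 1 ≤ β * C := one_le_mul_of_one_le_of_one_le hb hC
  have : 0 ≤ CA β C C₂ := by unfold CA; positivity
  unfold CB
  have : 0 ≤ 3 * β ^ 2 * CA β C C₂ ^ 2 := by positivity
  nlinarith

/-- **(B)** 2-vectors -/
lemma boundB (h : Fm σ J β) (hM : Nw σ J C m M) (hx : Cx σ J C₂ m M x) {Q : n × n → k}
    (hQ : Alt Q) : ‖sq M *ᵥ Q‖ ≤ CB β C C₂ * (m * ‖ct σ J x Q‖ + ‖Q‖) := by
  have hb := h.b0
  have hb1 := h.b1
  have hC := hM.C1
  have hm := hM.m1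
  have hC₂ := hx.c1
  have hCA : 0 ≤ CA β C C₂ := by unfold CA; positivity
  obtain ⟨j, hj⟩ := exu h hx.x1
  set u : n → k := Pi.single j 1 with hu
  have hu1 : ‖u‖ ≤ 1 := norm_single_one j
  set c := hf σ J u x with hc
  have hc0 : 0 < ‖c‖ := by
    by_contra h0
    have : ‖c‖ = 0 := le_antisymm (not_lt.1 h0) (norm_nonneg _)
    rw [this, mul_zero] at hj
    linarith
  have hcne : c ≠ 0 := norm_pos_iff.1 hc0
  set w := ct σ J x Q with hw
  have hwx : hf σ J w x = 0 := hf_ct_self x hQ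
  set Q' : n × n → k := Q + c⁻¹ • wd u w with hQ'
  have hQ'A : Alt Q' := by
    have h1 := alt_wd u w
    refine ⟨fun i => ?_, fun i j => ?_⟩
    · simp only [hQ', Pi.add_apply, Pi.smul_apply, smul_eq_mul, hQ.1 i, h1.1 i]; ring
    · simp only [hQ', Pi.add_apply, Pi.smul_apply, smul_eq_mul]
      rw [hQ.2 i j, h1.2 i j]; ring
  have hct : ct σ J x Q' = 0 := by
    rw [hQ', ct_add, ct_smul, ct_wd, hwx, ← hc, ← hw, zero_smul, zero_sub, smul_neg, smul_smul,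
      inv_mul_cancel₀ hcne, one_smul, add_neg_cancel]
  have hci : ‖c⁻¹‖ ≤ β := by
    rw [norm_inv, inv_le_comm₀ hc0 hb, inv_le_iff_one_le_mul₀ hb]
    linarith
  have hwn : ‖w‖ ≤ β * ‖Q‖ := by
    have := h.ct_le x Q
    rwa [hx.x1, mul_one] at this
  have hwd : ‖wd u w‖ ≤ 2 * ‖w‖ := by
    refine (wd_norm_le _ _).trans ?_
    have := mul_le_of_le_one_left (norm_nonneg w) hu1
    linarith
  have hQn : ‖Q'‖ ≤ 3 * β ^ 2 * ‖Q‖ := by
    refine (norm_add_le _ _).trans ?_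
    rw [norm_smul]
    have h1 : ‖c⁻¹‖ * ‖wd u w‖ ≤ β * (2 * (β * ‖Q‖)) := by
      calc ‖c⁻¹‖ * ‖wd u w‖ ≤ β * (2 * ‖w‖) := by gcongr
        _ ≤ _ := by gcongr
    have h5 : ‖Q‖ ≤ β ^ 2 * ‖Q‖ := by
      have : 1 ≤ β ^ 2 := one_le_pow₀ hb1
      have := norm_nonneg Q
      nlinarith
    linarith
  -- rows of `Q'` are orthogonal to `x`
  have hrow : ∀ a, hf σ J (fun c => Q' (a, c)) x = 0 := fun a => congrFun hct a
  -- `R = Q' Mᵀ`
  set R : n × n → k := fun p => (M *ᵥ fun c => Q' (p.1, c)) p.2 with hR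
  have hRn : ∀ p, ‖R p‖ ≤ CA β C C₂ * ‖Q'‖ := by
    intro p
    refine (norm_le_pi_norm (M *ᵥ fun c => Q' (p.1, c)) p.2).trans ?_
    refine (boundA h hM hx (hrow p.1)).trans ?_
    gcongr
    exact row_le Q' p.1
  -- columns of `R`
  have hcol : ∀ c, hf σ J (fun a => R (a, c)) x = 0 := by
    intro c
    have e : (fun a => R (a, c)) = ∑ b, (- M c b) • fun a => Q' (b, a) := by
      funext a
      simp only [hR, Finset.sum_apply, Pi.smul_apply, smul_eq_mul, mulVec, dotProduct]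
      refine sum_congr rfl fun b _ => ?_
      rw [hQ'A.2 a b]; ring
    rw [e, hf_sum_left]
    refine sum_eq_zero fun b _ => ?_
    rw [hf_smul_left, hrow b, mul_zero]
  have hsq : ‖sq M *ᵥ Q'‖ ≤ CA β C C₂ ^ 2 * ‖Q'‖ := by
    refine (pi_norm_le_iff_of_nonneg (by positivity)).2 ?_
    rintro ⟨i, c⟩
    have e : (sq M *ᵥ Q') (i, c) = (M *ᵥ fun a => R (a, c)) i := by
      rw [congrFun (sq_row M Q' i) c]
      simp only [hR, Finset.sum_apply, Pi.smul_apply, smul_eq_mul]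
      simp only [mulVec, dotProduct]
    rw [e]
    refine (norm_le_pi_norm _ i).trans ((boundA h hM hx (hcol c)).trans ?_)
    have : ‖fun a => R (a, c)‖ ≤ CA β C C₂ * ‖Q'‖ :=
      (pi_norm_le_iff_of_nonneg (by positivity)).2 fun a => hRn (a, c)
    calc CA β C C₂ * ‖fun a => R (a, c)‖ ≤ CA β C C₂ * (CA β C C₂ * ‖Q'‖) := by gcongr
      _ = _ := by ring
  have hfin : sq M *ᵥ Q = sq M *ᵥ Q' - c⁻¹ • (sq M *ᵥ wd u w) := by
    rw [hQ', mulVec_add, mulVec_smul]; abel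
  rw [hfin]
  refine (norm_sub_le _ _).trans ?_
  rw [norm_smul]
  have h1 : ‖sq M *ᵥ wd u w‖ ≤ C * m * (2 * ‖w‖) := (hM.u2 _ (alt_wd _ _)).trans (by gcongr)
  have h2 : ‖c⁻¹‖ * ‖sq M *ᵥ wd u w‖ ≤ β * (C * m * (2 * ‖w‖)) := by gcongr
  have h3 : CA β C C₂ ^ 2 * ‖Q'‖ ≤ CA β C C₂ ^ 2 * (3 * β ^ 2 * ‖Q‖) := by gcongr
  have h4 : 0 ≤ 3 * β ^ 2 * CA β C C₂ ^ 2 * (m * ‖w‖) := by positivity
  have h5 : 0 ≤ 2 * β * C * ‖Q‖ := by positivity
  calc _ ≤ CA β C C₂ ^ 2 * (3 * β ^ 2 * ‖Q‖) + β * (C * m * (2 * ‖w‖)) := by linarith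
    _ ≤ CA β C C₂ ^ 2 * (3 * β ^ 2 * ‖Q‖) + β * (C * m * (2 * ‖w‖)) +
        (3 * β ^ 2 * CA β C C₂ ^ 2 * (m * ‖w‖) + 2 * β * C * ‖Q‖) := by linarith
    _ = _ := by rw [CB]; ring

end bd

end Vale.Agent.P092.H217.F
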