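import Vale.Agent.P092.H217.F5
import Vale.Agent.P092.H261.K3b

/-!
P092, stage 3 (helper217), block [P3-COUNT], part 6: `unit3` in the shape `U3Stmt` of helper261; one
shell `Ka3Stmt` gives its count.
-/

set_option linter.all false

namespace Vale.Agent.P092.H217.F

open Finset Matrix
open Vale.Agent.P092.H589.K2 (Cells)
open Vale.Agent.P092.H261.K3 (U3Stmt U3At)

variable {𝕜 : Type} [NontriviallyNormedField 𝕜] [IsUltrametricDist 𝕜] [ProperSpace 𝕜]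
  [MeasurableSpace 𝕜] [BorelSpace 𝕜] {n : Type} [Fintype n] [DecidableEq n] {σ : 𝕜 →+* 𝕜}
  {J : Matrix n n 𝕜} {β : ℝ}

/-- **the class estimate** -/
theorem u3Stmt (K : Type) [NormedAddCommGroup K] [InnerProductSpace ℂ K] [CompleteSpace K]
    (cl : Cells 𝕜) (h : Fm σ J β) {Ca : ℝ} (hCa : 0 ≤ Ca) (hA : An σ J Ca) (hZ : ZmS σ J)
    {φ : (n × n → 𝕜) → ℂ} {δ CF : ℝ} (hφ : Lcf φ δ CF) : U3Stmt K σ J φ := by
  intro C C₂ C₃ c₀ hC h₂ h₃ h0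
  obtain ⟨T₀, C', hT, hC', hu⟩ := unit3 (K := K) cl h hCa hA hZ hφ C C₂ C₃ c₀ hC h₂ h₃ h0
  refine ⟨T₀, C', hT, hC', ?_⟩
  intro X Y _ _ _ _ _ _ _ _ _ _ s q hs hss hqm hqn hqI Inc hI hinc b z l n' hbn hzn hzl κ S M η m
    hM hη ρ hρ0 hρ1 hTρ B hB hBx A' hA' hnear hfar E W F N hN hEB hEn hcap hF hW hWz v
  rcases S.eq_empty_or_nonempty with rfl | ⟨k0, hk0⟩
  · rw [Finset.sum_empty]
    positivity
  · exact hu X Y s q hs hss hqm hqn hqI Inc hI hinc b z l n' hbn hzn hzl κ S M η m (hM k0 hk0).m1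
      hM hη ρ hρ0 hρ1 hTρ B hB hBx A' hA' hnear hfar E W F N hN hEB hEn hcap hF hW hWz v

end Vale.Agent.P092.H217.F
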