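import Vale.Agent.P092.H217.F6
import Vale.Agent.P092.H866.G1b
import Vale.Agent.P092.H188.G2c
import Vale.Agent.P092.H914.Cl

/-!
P092, stage 3 (helper217), block [P3-COUNT], part 7: the class estimate and the estimate of one
shell of COUNT_1 **for every form of Witt index 2** over a non-archimedean local field, no other
hypothesis.
-/

set_option linter.all false

namespace Vale.Agent.P092.H217.F

open Finset Matrix
open Vale.Agent.P092.H589.K2 (Cells)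
open Vale.Agent.P092.H188.G2 (Fh WI2 exists_an exists_fm)
open Vale.Agent.P092.H261.K3 (U3Stmt U3At Ka3Stmt ka3_of)

variable {𝕜 : Type} [NontriviallyNormedField 𝕜] {n : Type} [Fintype n] [DecidableEq n]
  {σ : 𝕜 →+* 𝕜} {ε : 𝕜} {J : Matrix n n 𝕜} {β : ℝ}

theorem zmS_of (h : H866.G1.ZmS σ J) : ZmS σ J := fun C c hC hc => by
  obtain ⟨C', c', h1, h2, h3⟩ := h C c hC hc
  refine ⟨C', c', h1, h2, fun g ρ hg hgg hρ hρ1 => ?_⟩
  obtain ⟨a, a', z⟩ := h3 g ρ hg hgg hρ hρ1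
  exact ⟨a, a', ⟨z.inv, z.iso, z.z1, z.z2, z.z3⟩⟩

variable [ProperSpace 𝕜]

/-- **the zooms exist** -/
theorem zmS_fh (hF : Fh σ ε J) (hJ : Fm σ J β) : ZmS σ J := by
  obtain ⟨Cz, _, hz⟩ := H866.G1.exists_hz hF hJ
  exact zmS_of (H866.G1.zmS hJ hF.inv hz)

variable [IsUltrametricDist 𝕜] [MeasurableSpace 𝕜] [BorelSpace 𝕜] [Nonempty n]

/-- **the class estimate of COUNT_1**, every form of Witt index 2 -/
theorem u3_fh (hF : Fh σ ε J) (hσ : ∀ a, ‖σ a‖ = ‖a‖) (hW : WI2 σ J) (K : Type)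
    [NormedAddCommGroup K] [InnerProductSpace ℂ K] [CompleteSpace K] {φ : (n × n → 𝕜) → ℂ}
    {δ CF : ℝ} (hφ : Lcf φ δ CF) : U3Stmt K σ J φ := by
  obtain ⟨β, hJ⟩ := exists_fm hF hσ
  obtain ⟨Ca, hCa, hA⟩ := exists_an hF hσ hW
  obtain ⟨cl⟩ := H914.exists_cells (k := 𝕜) (Or.inr inferInstance)
  exact u3Stmt K cl hJ hCa hA (zmS_fh hF hJ) hφ

/-- **one shell of COUNT_1**, every form -/
theorem ka3_fh (hF : Fh σ ε J) (hσ : ∀ a, ‖σ a‖ = ‖a‖) : Ka3Stmt σ J := by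
  obtain ⟨β, hJ⟩ := exists_fm hF hσ
  obtain ⟨Cz, _, hz⟩ := H866.G1.exists_hz hF hJ
  obtain ⟨cl⟩ := H914.exists_cells (k := 𝕜) (Or.inr inferInstance)
  exact ka3_of cl hJ hz

end Vale.Agent.P092.H217.F
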