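import Vale.Agent.P092.H217.Out
import Vale.Agent.P092.H361.Compl

/-!
P092, project B, block B-TA-OUT2 (helper217), part 3: maximality, and the sequence of boxes.
-/

set_option autoImplicit false
set_option linter.all false

open scoped InnerProductSpace Pointwise
open ContinuousLinearMap Filter Topology

namespace Vale.Agent.P092.H217

open Vale.Agent.P092.H432.TA

variable {E : Type*} [NormedAddCommGroup E] [InnerProductSpace ℂ E] [CompleteSpace E]
variable {A B G : Type*} [Group A] [Group B] [Group G] [TopologicalSpace G]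
variable {S : A →* (E →L[ℂ] E)} {R : B →* (E →L[ℂ] E)} {W : Set (E →L[ℂ] E)}
  {cA : Set (Subgroup A)} {cB : Set (Subgroup B)} {p : A →* G} {K : ℕ → Subgroup G}
    {V : ℕ → Subgroup B} {z : ℕ → (E →L[ℂ] E)}

namespace Ch

variable [IsTopologicalGroup G] [T2Space G]

theorem maxi (h : Ch S R W cA cB p K V z) {K1 K2 : Subgroup G} (h1o : IsOpen (K1 : Set G))
    (h2o : IsOpen (K2 : Set G)) (h1 : K1.comap p ∈ cA) (h2 : K2.comap h.q ∈ cB) {y : E →L[ℂ] E}
    (hy : y ∈ Q S R W (K1.comap p) (K2.comap h.q)) (g : G)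
    (hCc : IsCompact {x | ∃ a ∈ K1, ∃ b ∈ K2, x = a * g * b})
    (hCo : IsOpen {x | ∃ a ∈ K1, ∃ b ∈ K2, x = a * g * b}) :
    ∃ c : ℂ, y * h.P {x | ∃ a ∈ K1, ∃ b ∈ K2, x = a * g * b} =
      c • h.P {x | ∃ a ∈ K1, ∃ b ∈ K2, x = a * g * b} := by
  set C : Set G := {x | ∃ a ∈ K1, ∃ b ∈ K2, x = a * g * b} with hC
  obtain ⟨m0, hm0⟩ := h.Vcof _ h2
  have hsc : ∀ a, ∃ c : ℂ, y * tr S a (z m0) = c • tr S a (z m0) := fun a =>
    box_scal h.sys h.conjA (h.box m0) h1 (Q_mono le_rfl hm0 hy) a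
  choose cf hcf using hsc
  have hup : ∀ m, m0 ≤ m → ∀ a, tr S a (z m0) * tr S a (z m) = tr S a (z m) := by
    intro m hm a
    rw [← map_mul, h.zz hm]
  have hcm : ∀ m, m0 ≤ m → ∀ a, y * tr S a (z m) = cf a • tr S a (z m) := by
    intro m hm a
    calc y * tr S a (z m) = y * tr S a (z m0) * tr S a (z m) := by rw [mul_assoc, hup m hm a]
      _ = cf a • tr S a (z m) := by rw [hcf, smul_mul_assoc, hup m hm a]
  have key : ∀ a a', p a ∈ C → p a' ∈ C → cf a = cf a' := by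
    rintro a a' ⟨a1, ha1, b1, hb1, e1⟩ ⟨a2, ha2, b2, hb2, e2⟩
    set k1 : G := a2 * a1⁻¹ with hk1
    set k2 : G := b1⁻¹ * b2 with hk2
    have hk1m : k1 ∈ K1 := K1.mul_mem ha2 (K1.inv_mem ha1)
    have hk2m : k2 ∈ K2 := K2.mul_mem (K2.inv_mem hb1) hb2
    have e3 : p a' = k1 * p a * k2 := by rw [e1, e2, hk1, hk2]; group
    have hopen : IsOpen {xy : G × G | xy.1 ∈ K1 ∧ xy.2 ∈ K2 ∧
        (xy.1 * p a)⁻¹ * p a' * xy.2 ∈ K m0} := by
      refine (h1o.preimage continuous_fst).inter ((h2o.preimage continuous_snd).inter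
        ((h.Ko m0).preimage ?_))
      fun_prop
    have hd : DenseRange (Prod.map p h.q) := h.dense.prodMap h.q_dense
    obtain ⟨⟨s, b⟩, hs1, hs2, hs3⟩ := hd.exists_mem_open hopen ⟨(k1, k2⁻¹), hk1m,
      K2.inv_mem hk2m, by
        change (k1 * p a)⁻¹ * p a' * k2⁻¹ ∈ K m0
        have : (k1 * p a)⁻¹ * p a' * k2⁻¹ = 1 := by rw [e3]; group
        rw [this]; exact (K m0).one_mem⟩
    have hs1' : p s ∈ K1 := hs1
    have hs2' : h.q b ∈ K2 := hs2
    have hs3' : (p s * p a)⁻¹ * p a' * h.q b ∈ K m0 := hs3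
    set Y := tr S s (tr S a (tr R b (z m0))) with hY
    have hyS : tr S s y = y := tr_fix (hy.1 s hs1')
    have hyR : tr R b y = y := tr_fix (hy.2.1 b hs2')
    have hyY : y * Y = cf a • Y := by
      rw [hY, tr_comm h.sys.SR]
      calc y * tr S s (tr R b (tr S a (z m0)))
          = tr S s y * tr S s (tr R b (tr S a (z m0))) := by rw [hyS]
        _ = tr S s (tr R b y * tr R b (tr S a (z m0))) := by rw [← map_mul, hyR]
        _ = tr S s (tr R b (y * tr S a (z m0))) := by rw [map_mul (tr R b)]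
        _ = cf a • tr S s (tr R b (tr S a (z m0))) := by rw [hcf, map_smul, map_smul]
    have hYP := ((h.r_spec b m0).tr' a).tr' s
    obtain ⟨n, hn⟩ := hYP
    have hmem : p a' ∈ {x | (p s)⁻¹ * x ∈ {x | (p a)⁻¹ * x ∈ RC K m0 (h.r b)}} := by
      change (p a)⁻¹ * ((p s)⁻¹ * p a') * (h.r b)⁻¹ ∈ K m0
      rw [h.r_eq, inv_inv]
      have e4 : (p a)⁻¹ * ((p s)⁻¹ * p a') * h.q b = (p s * p a)⁻¹ * p a' * h.q b := by group
      rw [e4]; exact hs3'
    have e5 := (hn (max n m0) (le_max_left _ _) a').1 hmem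
    have e6 : cf a • tr S a' (z (max n m0)) = cf a' • tr S a' (z (max n m0)) := by
      rw [← hcm _ (le_max_right n m0) a']
      nth_rewrite 2 [← e5]
      rw [← mul_assoc]
      change _ = y * Y * _
      rw [hyY, smul_mul_assoc]
      congr 1
      exact e5.symm
    have e7 : (cf a - cf a') • tr S a' (z (max n m0)) = 0 := by rw [sub_smul, e6, sub_self]
    exact sub_eq_zero.1 ((smul_eq_zero.1 e7).resolve_right (h.zt_ne _ _))
  obtain ⟨a0, ha0⟩ := h.dense.exists_mem_open hCo ⟨g, 1, K1.one_mem, 1, K2.one_mem, by group⟩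
  refine ⟨cf a0, ?_⟩
  obtain ⟨⟨n, hn⟩, -⟩ := h.P_spec hCc hCo
  rw [← sub_eq_zero]
  refine total_right h.sys (h.erg.E2 _ (h.box (max n m0)).V_mem) (h.box (max n m0)).mem
    (h.box (max n m0)).prj.adj (h.box (max n m0)).ne _ fun a => ?_
  rw [sub_mul, smul_mul_assoc, mul_assoc]
  by_cases ha : p a ∈ C
  · rw [(hn _ (le_max_left n m0) a).1 ha, hcm _ (le_max_right n m0) a, key a a0 ha ha0, sub_self]
  · rw [(hn _ (le_max_left n m0) a).2 ha, mul_zero, smul_zero, sub_self]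

end Ch

/-! ### The families of subgroups -/

/-- compact open -/
def CoSub (K : Subgroup G) : Prop := IsCompact (K : Set G) ∧ IsOpen (K : Set G)

/-- the traces on a dense subgroup of the compact open subgroups -/
def cof (p : A →* G) : Set (Subgroup A) := {L | ∃ U : Subgroup G, CoSub U ∧ L = U.comap p}

theorem cof_inf [IsTopologicalGroup G] [T2Space G] (p : A →* G) :
    ∀ U ∈ cof p, ∀ V ∈ cof p, U ⊓ V ∈ cof p := by
  rintro _ ⟨U, hU, rfl⟩ _ ⟨V, hV, rfl⟩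
  exact ⟨U ⊓ V, ⟨hU.1.inter_right hV.1.isClosed, hU.2.inter hV.2⟩, rfl⟩

theorem cof_conj [IsTopologicalGroup G] (p : A →* G) : Conj' (cof p) := by
  rintro _ ⟨U, hU, rfl⟩ a
  have he : ((U.map (MulAut.conj (p a)).toMonoidHom : Subgroup G) : Set G) =
      (Homeomorph.mulLeft (p a)).trans (Homeomorph.mulRight (p a)⁻¹) '' (U : Set G) := by
    ext x
    simp [Subgroup.mem_map, MulAut.conj_apply]
  refine ⟨(U.map (MulAut.conj (p a)).toMonoidHom).comap p, ⟨_, ⟨?_, ?_⟩, rfl⟩, ?_⟩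
  · rw [he]
    exact hU.1.image (Homeomorph.continuous _)
  · rw [he]
    exact (Homeomorph.isOpenMap _) _ hU.2
  · intro x
    rw [Subgroup.mem_comap, Subgroup.mem_comap, Subgroup.mem_map]
    constructor
    · rintro ⟨u, hu, hux⟩
      have : p (a⁻¹ * x * a) = u := by
        rw [map_mul, map_mul, map_inv, ← hux]
        change (p a)⁻¹ * (p a * u * (p a)⁻¹) * p a = u
        group
      rw [this]; exact hu
    · intro hx
      refine ⟨_, hx, ?_⟩
      change p a * p (a⁻¹ * x * a) * (p a)⁻¹ = p x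
      rw [map_mul, map_mul, map_inv]
      group

theorem le_of_comap_le [IsTopologicalGroup G] {p : A →* G} (hp : DenseRange p)
    {K K' : Subgroup G} (hK : IsOpen (K : Set G)) (hK' : IsOpen (K' : Set G))
    (hle : K.comap p ≤ K'.comap p) : K ≤ K' := by
  intro x hx
  by_contra hx'
  have hcl : IsClosed (K' : Set G) := Subgroup.isClosed_of_isOpen _ hK'
  obtain ⟨a, ha⟩ := hp.exists_mem_open (hK.inter hcl.isOpen_compl) ⟨x, hx, hx'⟩
  exact ha.2 (hle ha.1)

/-- a cofinal sequence of compact open subgroups -/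
theorem exists_basis [FirstCountableTopology G]
    (hb : ∀ U : Set G, IsOpen U → (1 : G) ∈ U → ∃ K : Subgroup G, CoSub K ∧ (K : Set G) ⊆ U) :
    ∃ K : ℕ → Subgroup G, (∀ n, CoSub (K n)) ∧ ∀ O ∈ 𝓝 (1 : G), ∃ n, (K n : Set G) ⊆ O := by
  obtain ⟨x, hx⟩ := (𝓝 (1 : G)).exists_antitone_basis
  have h1 : ∀ n, ∃ K : Subgroup G, CoSub K ∧ (K : Set G) ⊆ x n := by
    intro n
    have hn : x n ∈ 𝓝 (1 : G) := hx.1.mem_of_mem trivial
    obtain ⟨O, hO, hOo, h1O⟩ := mem_nhds_iff.1 hn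
    obtain ⟨K, hK, hKO⟩ := hb O hOo h1O
    exact ⟨K, hK, hKO.trans hO⟩
  choose K hK hKx using h1
  refine ⟨K, hK, fun O hO => ?_⟩
  obtain ⟨n, -, hn⟩ := hx.1.mem_iff.1 hO
  exact ⟨n, (hKx n).trans hn⟩

/-- The main construction. -/
theorem exists_ch {G' : Type*} [Group G'] [TopologicalSpace G'] [IsTopologicalGroup G]
    [T2Space G] [FirstCountableTopology G] [IsTopologicalGroup G']
    [T2Space G'] [FirstCountableTopology G'] {p : A →* G} {p' : B →* G'} (hp : DenseRange p)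
    (hp' : DenseRange p')
    (hb : ∀ U : Set G, IsOpen U → (1 : G) ∈ U → ∃ K : Subgroup G, CoSub K ∧ (K : Set G) ⊆ U)
    (hb' : ∀ U : Set G', IsOpen U → (1 : G') ∈ U → ∃ K : Subgroup G', CoSub K ∧ (K : Set G') ⊆ U)
    (hS : Sys S R W) (hE : Erg S R W (cof p) (cof p'))
    (hbox : ∀ U0 ∈ cof p, ∀ V0 ∈ cof p', ∃ U V z, U ≤ U0 ∧ V ≤ V0 ∧
      Box S R W (cof p) (cof p') U V z) :
    ∃ (K : ℕ → Subgroup G) (L : ℕ → Subgroup G') (z : ℕ → (E →L[ℂ] E)),
      Ch S R W (cof p) (cof p') p K (fun n => (L n).comap p') z ∧ (∀ n, CoSub (L n)) ∧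
      ∀ O ∈ 𝓝 (1 : G'), ∃ n, (L n : Set G') ⊆ O := by
  obtain ⟨B0, hB0, hB1⟩ := exists_basis hb
  obtain ⟨C0, hC0, hC1⟩ := exists_basis hb'
  obtain ⟨U, V, z, hbx, hUu, hVv, hUd, hVd, hzd⟩ := chain hS (cof_conj p) (cof_conj p') hE hbox
    (cof_inf p) (cof_inf p') (fun n => (B0 n).comap p) (fun n => ⟨B0 n, hB0 n, rfl⟩)
    (fun n => (C0 n).comap p') (fun n => ⟨C0 n, hC0 n, rfl⟩)
  have hU : ∀ n, ∃ K : Subgroup G, CoSub K ∧ U n = K.comap p := fun n => (hbx n).U_mem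
  have hV : ∀ n, ∃ K : Subgroup G', CoSub K ∧ V n = K.comap p' := fun n => (hbx n).V_mem
  choose K hK hUK using hU
  choose L hL hVL using hV
  have hKB : ∀ n, K n ≤ B0 n := fun n => le_of_comap_le hp (hK n).2 (hB0 n).2
    (by rw [← hUK]; exact hUu n)
  have hLC : ∀ n, L n ≤ C0 n := fun n => le_of_comap_le hp' (hL n).2 (hC0 n).2
    (by rw [← hVL]; exact hVv n)
  have hVeq : V = fun n => (L n).comap p' := funext hVL
  refine ⟨K, L, z, ⟨hS, hE, cof_conj p, cof_conj p', fun n => ?_, hzd, fun n => (hK n).1,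
    fun n => (hK n).2, ?_, fun O hO => ?_, ?_, ?_, hp⟩, hL, fun O hO => ?_⟩
  · rw [← hUK, ← hVL]; exact hbx n
  · exact antitone_nat_of_succ_le fun n => le_of_comap_le hp (hK _).2 (hK n).2
      (by rw [← hUK, ← hUK]; exact hUd n)
  · obtain ⟨n, hn⟩ := hB1 O hO
    exact ⟨n, fun x hx => hn (hKB n hx)⟩
  · exact antitone_nat_of_succ_le fun n => by
      change (L (n + 1)).comap p' ≤ (L n).comap p'
      rw [← hVL, ← hVL]; exact hVd n
  · rintro _ ⟨L', hL', rfl⟩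
    obtain ⟨n, hn⟩ := hC1 (L' : Set G') (hL'.2.mem_nhds L'.one_mem)
    exact ⟨n, fun x hx => hn (hLC n hx)⟩
  · obtain ⟨n, hn⟩ := hC1 O hO
    exact ⟨n, fun x hx => hn (hLC n hx)⟩

end Vale.Agent.P092.H217
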