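import Vale.Agent.P092.H217.Box

/-!
P092, project B, block B-TA-OUT2 (helper217), part 2: from a decreasing sequence of boxes to the
covariant family of projections over the compact open sets.
-/

set_option autoImplicit false
set_option linter.all false

open scoped InnerProductSpace Pointwise
open ContinuousLinearMap Filter Topology

namespace Vale.Agent.P092.H217

open Vale.Agent.P092.H432.TA

variable {E : Type*} [NormedAddCommGroup E] [InnerProductSpace ℂ E] [CompleteSpace E]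
variable {A B G : Type*} [Group A] [Group B] [Group G] [TopologicalSpace G]

/-- A decreasing sequence of boxes of level `(p⁻¹(K n), V n)`. -/
structure Ch (S : A →* (E →L[ℂ] E)) (R : B →* (E →L[ℂ] E)) (W : Set (E →L[ℂ] E))
    (cA : Set (Subgroup A)) (cB : Set (Subgroup B)) (p : A →* G) (K : ℕ → Subgroup G)
    (V : ℕ → Subgroup B) (z : ℕ → (E →L[ℂ] E)) : Prop where
  sys : Sys S R W
  erg : Erg S R W cA cB
  conjA : Conj' cA
  conjB : Conj' cB
  box : ∀ n, Box S R W cA cB ((K n).comap p) (V n) (z n)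
  le : ∀ n, z n * z (n + 1) = z (n + 1)
  Kc : ∀ n, IsCompact (K n : Set G)
  Ko : ∀ n, IsOpen (K n : Set G)
  Kanti : Antitone K
  Kbas : ∀ O ∈ 𝓝 (1 : G), ∃ n, (K n : Set G) ⊆ O
  Vanti : Antitone V
  Vcof : ∀ V' ∈ cB, ∃ n, V n ≤ V'
  dense : DenseRange p

variable {S : A →* (E →L[ℂ] E)} {R : B →* (E →L[ℂ] E)} {W : Set (E →L[ℂ] E)}
  {cA : Set (Subgroup A)} {cB : Set (Subgroup B)} {p : A →* G} {K : ℕ → Subgroup G}
    {V : ℕ → Subgroup B} {z : ℕ → (E →L[ℂ] E)}

/-- `X` is the projection belonging to `C`. -/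
def IsP (S : A →* (E →L[ℂ] E)) (p : A →* G) (z : ℕ → (E →L[ℂ] E)) (C : Set G)
    (X : E →L[ℂ] E) : Prop :=
  ∃ n0, ∀ n, n0 ≤ n → ∀ a, (p a ∈ C → X * tr S a (z n) = tr S a (z n)) ∧
    (p a ∉ C → X * tr S a (z n) = 0)

/-- right coset `K n * g` -/
def RC (K : ℕ → Subgroup G) (n : ℕ) (g : G) : Set G := {x | x * g⁻¹ ∈ K n}

namespace Ch

theorem zz (h : Ch S R W cA cB p K V z) {n m : ℕ} (hnm : n ≤ m) : z n * z m = z m := by
  induction m, hnm using Nat.le_induction with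
  | base => exact (h.box n).prj.idem
  | succ m hm ih => rw [← h.le m, ← mul_assoc, ih]

theorem zt_ne (h : Ch S R W cA cB p K V z) (n : ℕ) (a : A) : tr S a (z n) ≠ 0 := by
  rw [Ne, tr_eq_zero]; exact (h.box n).ne

theorem zt_fix (h : Ch S R W cA cB p K V z) {n : ℕ} {a b : A} (hab : p (a⁻¹ * b) ∈ K n) :
    tr S b (z n) = tr S a (z n) := by
  have h1 : b = a * (a⁻¹ * b) := by group
  rw [h1, ← tr_tr, tr_fix ((h.box n).mem.1 _ hab)]

theorem zt_mul (h : Ch S R W cA cB p K V z) {n m : ℕ} (hnm : n ≤ m) (a b : A) :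
    (p (a⁻¹ * b) ∈ K n → tr S a (z n) * tr S b (z m) = tr S b (z m)) ∧
    (p (a⁻¹ * b) ∉ K n → tr S a (z n) * tr S b (z m) = 0) := by
  constructor
  · intro hab
    rw [← h.zt_fix hab, ← map_mul, h.zz hnm]
  · intro hab
    have h1 : tr S a (z n) * tr S b (z n) = 0 := by
      have h2 := congrArg (tr S a) ((h.box n).sepS (a⁻¹ * b) hab)
      rw [← tr_apply, map_mul, map_zero, tr_tr] at h2
      have h3 : a * (a⁻¹ * b) = b := by group
      rwa [h3] at h2
    rw [← h.zz hnm, map_mul, ← mul_assoc, h1, zero_mul]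

theorem uniq (h : Ch S R W cA cB p K V z) {C : Set G} {X Y : E →L[ℂ] E} (hX : IsP S p z C X)
    (hY : IsP S p z C Y) : X = Y := by
  obtain ⟨n, hn⟩ := hX
  obtain ⟨m, hm⟩ := hY
  rw [← sub_eq_zero]
  refine total_right h.sys (h.erg.E2 _ (h.box (max n m)).V_mem) (h.box (max n m)).mem
    (h.box (max n m)).prj.adj (h.box (max n m)).ne _ fun a => ?_
  rw [sub_mul]
  by_cases ha : p a ∈ C
  · rw [(hn _ (le_max_left n m) a).1 ha, (hm _ (le_max_right n m) a).1 ha, sub_self]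
  · rw [(hn _ (le_max_left n m) a).2 ha, (hm _ (le_max_right n m) a).2 ha, sub_self]

theorem isP_z (h : Ch S R W cA cB p K V z) (n : ℕ) : IsP S p z (K n : Set G) (z n) := by
  refine ⟨n, fun m hm a => ?_⟩
  have h1 := h.zt_mul hm 1 a
  rw [inv_one, one_mul, tr_one] at h1
  exact h1

end Ch

theorem IsP.tr' {C : Set G} {X : E →L[ℂ] E} (hX : IsP S p z C X) (g : A) :
    IsP S p z {x | (p g)⁻¹ * x ∈ C} (tr S g X) := by
  obtain ⟨n, hn⟩ := hX
  refine ⟨n, fun m hm a => ?_⟩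
  have h1 := hn m hm (g⁻¹ * a)
  have h2 : tr S g (X * tr S (g⁻¹ * a) (z m)) = tr S g X * tr S a (z m) := by
    rw [map_mul, tr_tr, mul_inv_cancel_left]
  have h3 : tr S g (tr S (g⁻¹ * a) (z m)) = tr S a (z m) := by
    rw [tr_tr, mul_inv_cancel_left]
  constructor
  · intro ha
    have ha' : p (g⁻¹ * a) ∈ C := by rw [map_mul, map_inv]; exact ha
    rw [← h2, h1.1 ha', h3]
  · intro ha
    have ha' : p (g⁻¹ * a) ∉ C := by rw [map_mul, map_inv]; exact ha
    rw [← h2, h1.2 ha', map_zero]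

theorem IsP.mul {C D : Set G} {X Y : E →L[ℂ] E} (hX : IsP S p z C X) (hY : IsP S p z D Y) :
    IsP S p z (C ∩ D) (X * Y) := by
  obtain ⟨n, hn⟩ := hX
  obtain ⟨m, hm⟩ := hY
  refine ⟨max n m, fun k hk a => ?_⟩
  have h1 := hn k (le_trans (le_max_left n m) hk) a
  have h2 := hm k (le_trans (le_max_right n m) hk) a
  rw [mul_assoc]
  constructor
  · rintro ⟨hC, hD⟩
    rw [h2.1 hD, h1.1 hC]
  · intro hCD
    by_cases hD : p a ∈ D
    · rw [h2.1 hD, h1.2 fun hC => hCD ⟨hC, hD⟩]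
    · rw [h2.2 hD, mul_zero]

theorem IsP.union {C D : Set G} {X Y : E →L[ℂ] E} (hX : IsP S p z C X) (hY : IsP S p z D Y) :
    IsP S p z (C ∪ D) (X + Y - X * Y) := by
  obtain ⟨n, hn⟩ := hX
  obtain ⟨m, hm⟩ := hY
  refine ⟨max n m, fun k hk a => ?_⟩
  have h1 := hn k (le_trans (le_max_left n m) hk) a
  have h2 := hm k (le_trans (le_max_right n m) hk) a
  rw [sub_mul, add_mul, mul_assoc]
  by_cases hC : p a ∈ C <;> by_cases hD : p a ∈ D
  · rw [h2.1 hD, h1.1 hC, add_sub_cancel_right]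
    exact ⟨fun _ => rfl, fun hn => absurd (Or.inl hC) hn⟩
  · rw [h2.2 hD, h1.1 hC, mul_zero, add_zero, sub_zero]
    exact ⟨fun _ => rfl, fun hn => absurd (Or.inl hC) hn⟩
  · rw [h2.1 hD, h1.2 hC, zero_add, sub_zero]
    exact ⟨fun _ => rfl, fun hn => absurd (Or.inr hD) hn⟩
  · rw [h2.2 hD, h1.2 hC, mul_zero, zero_add, sub_zero]
    exact ⟨fun hn => absurd hn (by rintro (h | h); exacts [hC h, hD h]), fun _ => rfl⟩

theorem IsP.add {C D : Set G} (hCD : Disjoint C D) {X Y : E →L[ℂ] E} (hX : IsP S p z C X)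
    (hY : IsP S p z D Y) : IsP S p z (C ∪ D) (X + Y) := by
  obtain ⟨n, hn⟩ := hX
  obtain ⟨m, hm⟩ := hY
  refine ⟨max n m, fun k hk a => ?_⟩
  have h1 := hn k (le_trans (le_max_left n m) hk) a
  have h2 := hm k (le_trans (le_max_right n m) hk) a
  rw [add_mul]
  by_cases hC : p a ∈ C <;> by_cases hD : p a ∈ D
  · exact absurd hD (Set.disjoint_left.1 hCD hC)
  · rw [h2.2 hD, h1.1 hC, add_zero]
    exact ⟨fun _ => rfl, fun hn => absurd (Or.inl hC) hn⟩
  · rw [h2.1 hD, h1.2 hC, zero_add]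
    exact ⟨fun _ => rfl, fun hn => absurd (Or.inr hD) hn⟩
  · rw [h2.2 hD, h1.2 hC, zero_add]
    exact ⟨fun hn => absurd hn (by rintro (h | h); exacts [hC h, hD h]), fun _ => rfl⟩

theorem isP_empty : IsP S p z (∅ : Set G) 0 :=
  ⟨0, fun _ _ _ => ⟨fun h => absurd h (Set.notMem_empty _), fun _ => zero_mul _⟩⟩

namespace Ch

variable [IsTopologicalGroup G] [T2Space G]

/-- the operator determines the clopen set -/
theorem isP_inj (h : Ch S R W cA cB p K V z) {C D : Set G} (hC : IsClopen C) (hD : IsClopen D)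
    {X : E →L[ℂ] E} (hX : IsP S p z C X) (hY : IsP S p z D X) : C = D := by
  have key : ∀ C D : Set G, IsClopen C → IsClopen D → IsP S p z C X → IsP S p z D X → C ⊆ D := by
    intro C D hC hD hX hY x hx
    by_contra hxD
    obtain ⟨n, hn⟩ := hX
    obtain ⟨m, hm⟩ := hY
    obtain ⟨a, ha⟩ := h.dense.exists_mem_open (hC.2.inter hD.1.isOpen_compl) ⟨x, hx, hxD⟩
    apply h.zt_ne (max n m) a
    rw [← (hn _ (le_max_left n m) a).1 ha.1, (hm _ (le_max_right n m) a).2 ha.2]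
  exact Set.Subset.antisymm (key C D hC hD hX hY) (key D C hD hC hY hX)

theorem RC_open (h : Ch S R W cA cB p K V z) (n : ℕ) (g : G) : IsOpen (RC K n g) :=
  (h.Ko n).preimage (continuous_mul_const g⁻¹)

theorem RC_closed (h : Ch S R W cA cB p K V z) (n : ℕ) (g : G) : IsClosed (RC K n g) :=
  (h.Kc n).isClosed.preimage (continuous_mul_const g⁻¹)

theorem RC_eq (n : ℕ) (g : G) : RC K n g = (fun x => x * g) '' (K n : Set G) := by
  ext x
  simp only [RC, Set.mem_image]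
  constructor
  · intro hx
    exact ⟨x * g⁻¹, hx, by group⟩
  · rintro ⟨y, hy, rfl⟩
    change y * g * g⁻¹ ∈ K n
    rwa [mul_inv_cancel_right]

theorem RC_compact (h : Ch S R W cA cB p K V z) (n : ℕ) (g : G) : IsCompact (RC K n g) := by
  rw [RC_eq]
  exact (h.Kc n).image (continuous_mul_const g)

theorem mem_RC (n : ℕ) (g : G) : g ∈ RC K n g := by
  change g * g⁻¹ ∈ K n
  rw [mul_inv_cancel]; exact (K n).one_mem

/-- The support of a target translate of `z n`. -/
theorem supp (h : Ch S R W cA cB p K V z) (b : B) (n : ℕ) :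
    ∃ a0 : A, IsP S p z (RC K n (p a0)) (tr R b (z n)) := by
  obtain ⟨V'', hV'', hc⟩ := h.conjB _ (h.box n).V_mem b
  obtain ⟨m0, hm0⟩ := h.Vcof V'' hV''
  set w := tr R b (z n) with hw
  have hwQ : w ∈ Q S R W ((K n).comap p) V'' := by
    rw [Q_symm]
    exact Q_tr (sys_symm h.sys) hc (by rw [Q_symm]; exact (h.box n).mem)
  have hwi : w * w = w := by rw [hw, ← map_mul, (h.box n).prj.idem]
  have h01 : ∀ m, m0 ≤ m → ∀ a, w * tr S a (z m) = tr S a (z m) ∨ w * tr S a (z m) = 0 := by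
    intro m hm a
    exact box_scal01 h.sys h.conjA (h.box m) (h.box n).U_mem
      (Q_mono le_rfl ((h.Vanti hm).trans hm0) hwQ) hwi a
  have hup : ∀ m, m0 ≤ m → ∀ a, tr S a (z m0) * tr S a (z m) = tr S a (z m) := by
    intro m hm a
    rw [← map_mul, h.zz hm]
  have hne : ∃ a, w * tr S a (z m0) = tr S a (z m0) := by
    by_contra hcon
    push Not at hcon
    have : w = 0 := by
      refine total_right h.sys (h.erg.E2 _ (h.box m0).V_mem) (h.box m0).mem
        (h.box m0).prj.adj (h.box m0).ne _ fun a => ?_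
      exact (h01 m0 le_rfl a).resolve_left (hcon a)
    rw [hw, tr_eq_zero] at this
    exact (h.box n).ne this
  obtain ⟨a0, ha0⟩ := hne
  have hcomm : ∀ x : A, p x ∈ K n → tr S x w = w := fun x hx => tr_fix (hwQ.1 x hx)
  have hsep : ∀ x : A, p x ∉ K n → w * tr S x w = 0 := by
    intro x hx
    have h2 := congrArg (tr R b) ((h.box n).sepS x hx)
    rw [← tr_apply, map_mul, map_zero, ← tr_comm h.sys.SR] at h2
    exact h2
  have hD : ∀ a, (p a ∈ RC K n (p a0) → w * tr S a (z m0) = tr S a (z m0)) ∧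
      (p a ∉ RC K n (p a0) → w * tr S a (z m0) = 0) := by
    intro a
    have hpx : p (a * a0⁻¹) = p a * (p a0)⁻¹ := by rw [map_mul, map_inv]
    have htr : tr S (a * a0⁻¹) (tr S a0 (z m0)) = tr S a (z m0) := by
      rw [tr_tr, inv_mul_cancel_right]
    constructor
    · intro ha
      have hx : p (a * a0⁻¹) ∈ K n := by rw [hpx]; exact ha
      calc w * tr S a (z m0) = tr S (a * a0⁻¹) w * tr S (a * a0⁻¹) (tr S a0 (z m0)) := by
            rw [hcomm _ hx, htr]
        _ = tr S a (z m0) := by rw [← map_mul, ha0, htr]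
    · intro ha
      have hx : p (a * a0⁻¹) ∉ K n := by rw [hpx]; exact ha
      refine (h01 m0 le_rfl a).resolve_left fun h1 => ?_
      apply h.zt_ne m0 a
      calc tr S a (z m0) = w * tr S a (z m0) := h1.symm
        _ = w * tr S (a * a0⁻¹) (w * tr S a0 (z m0)) := by rw [ha0, htr]
        _ = w * tr S (a * a0⁻¹) w * tr S (a * a0⁻¹) (tr S a0 (z m0)) := by
            rw [map_mul, mul_assoc]
        _ = 0 := by rw [hsep _ hx, zero_mul]
  refine ⟨a0, m0, fun m hm a => ⟨fun ha => ?_, fun ha => ?_⟩⟩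
  · rw [← hup m hm a, ← mul_assoc, (hD a).1 ha]
  · rw [← hup m hm a, ← mul_assoc, (hD a).2 ha, zero_mul]

/-- The point which belongs to a target translate. -/
theorem exists_point (h : Ch S R W cA cB p K V z) (b : B) :
    ∃ g : G, ∀ n, IsP S p z (RC K n g) (tr R b (z n)) := by
  choose a0 ha0 using h.supp b
  have hnest : ∀ n, RC K (n + 1) (p (a0 (n + 1))) ⊆ RC K n (p (a0 n)) := by
    intro n x hx
    have h1 : p (a0 (n + 1)) ∈ RC K n (p (a0 n)) := by
      by_contra hcon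
      obtain ⟨k, hk⟩ := ha0 n
      obtain ⟨l, hl⟩ := ha0 (n + 1)
      have e1 := (hk _ (le_max_left k l) (a0 (n + 1))).2 hcon
      have e2 := (hl _ (le_max_right k l) (a0 (n + 1))).1 (mem_RC _ _)
      apply h.zt_ne (max k l) (a0 (n + 1))
      rw [← e2, ← h.le n, map_mul, mul_assoc, e2, e1]
    change x * (p (a0 n))⁻¹ ∈ K n
    have h2 : x * (p (a0 n))⁻¹ = (x * (p (a0 (n + 1)))⁻¹) * (p (a0 (n + 1)) * (p (a0 n))⁻¹) := by
      group
    rw [h2]
    exact (K n).mul_mem (h.Kanti (Nat.le_succ n) hx) h1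
  obtain ⟨g, hg⟩ := IsCompact.nonempty_iInter_of_sequence_nonempty_isCompact_isClosed
    (fun n => RC K n (p (a0 n))) hnest (fun n => ⟨_, mem_RC _ _⟩) (h.RC_compact 0 _)
    (fun n => h.RC_closed n _)
  refine ⟨g, fun n => ?_⟩
  have hgn : g * (p (a0 n))⁻¹ ∈ K n := Set.mem_iInter.1 hg n
  have : RC K n g = RC K n (p (a0 n)) := by
    ext x
    constructor
    · intro hx
      change x * (p (a0 n))⁻¹ ∈ K n
      have h2 : x * (p (a0 n))⁻¹ = (x * g⁻¹) * (g * (p (a0 n))⁻¹) := by group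
      rw [h2]
      exact (K n).mul_mem hx hgn
    · intro hx
      change x * g⁻¹ ∈ K n
      have h2 : x * g⁻¹ = (x * (p (a0 n))⁻¹) * (g * (p (a0 n))⁻¹)⁻¹ := by group
      rw [h2]
      exact (K n).mul_mem hx ((K n).inv_mem hgn)
  rw [this]
  exact ha0 n

theorem eq_of_forall_mem (h : Ch S R W cA cB p K V z) {x y : G} (hxy : ∀ n, x * y⁻¹ ∈ K n) :
    x = y := by
  by_contra hne
  have h1 : x * y⁻¹ ≠ 1 := fun h0 => hne (by rwa [mul_inv_eq_one] at h0)
  obtain ⟨n, hn⟩ := h.Kbas {x * y⁻¹}ᶜ (isOpen_compl_singleton.mem_nhds (by simpa using h1.symm))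
  exact hn (hxy n) rfl

theorem point_uniq (h : Ch S R W cA cB p K V z) {x y : G} {X : ℕ → (E →L[ℂ] E)}
    (hx : ∀ n, IsP S p z (RC K n x) (X n)) (hy : ∀ n, IsP S p z (RC K n y) (X n)) : x = y := by
  apply h.eq_of_forall_mem
  intro n
  have := h.isP_inj ⟨h.RC_closed n x, h.RC_open n x⟩ ⟨h.RC_closed n y, h.RC_open n y⟩ (hx n) (hy n)
  have h2 := mem_RC (K := K) n x
  rw [this] at h2
  exact h2

/-- the point of a target translate -/
noncomputable def r (h : Ch S R W cA cB p K V z) (b : B) : G := (h.exists_point b).choose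

theorem r_spec (h : Ch S R W cA cB p K V z) (b : B) (n : ℕ) :
    IsP S p z (RC K n (h.r b)) (tr R b (z n)) := (h.exists_point b).choose_spec n

/-- Compact open sets are finite unions of cosets. -/
theorem co_induction (h : Ch S R W cA cB p K V z) {P : Set G → Prop} (h0 : P ∅)
    (h1 : ∀ (n : ℕ) (a : A), P {x | (p a)⁻¹ * x ∈ K n})
    (h2 : ∀ C D, P C → P D → P (C ∪ D)) {C : Set G} (hC : IsCompact C) (hCo : IsOpen C) : P C := by
  classical
  -- every point has a coset neighbourhood inside `C`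
  have hpt : ∀ x ∈ C, ∃ (n : ℕ) (a : A), x ∈ {y | (p a)⁻¹ * y ∈ K n} ∧
      {y | (p a)⁻¹ * y ∈ K n} ⊆ C := by
    intro x hx
    have hc : Continuous fun y : G => x * y := continuous_const_mul x
    have hO : (fun y : G => x * y) ⁻¹' C ∈ 𝓝 (1 : G) :=
      (hCo.preimage hc).mem_nhds (by simpa using hx)
    obtain ⟨n, hn⟩ := h.Kbas _ hO
    have hopen : IsOpen {y : G | x⁻¹ * y ∈ K n} := (h.Ko n).preimage (continuous_const_mul x⁻¹)
    obtain ⟨a, ha⟩ := h.dense.exists_mem_open hopen ⟨x, by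
      change x⁻¹ * x ∈ K n
      rw [inv_mul_cancel]; exact (K n).one_mem⟩
    have ha' : x⁻¹ * p a ∈ K n := ha
    refine ⟨n, a, ?_, ?_⟩
    · change (p a)⁻¹ * x ∈ K n
      have : (p a)⁻¹ * x = (x⁻¹ * p a)⁻¹ := by group
      rw [this]; exact (K n).inv_mem ha'
    · intro y hy
      have hy' : (p a)⁻¹ * y ∈ K n := hy
      have e : x⁻¹ * y = (x⁻¹ * p a) * ((p a)⁻¹ * y) := by group
      have h3 : x⁻¹ * y ∈ K n := by rw [e]; exact (K n).mul_mem ha' hy'
      have h4 := hn h3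
      have h5 : x * (x⁻¹ * y) = y := by group
      change x * (x⁻¹ * y) ∈ C at h4
      rwa [h5] at h4
  choose! n a hx1 hx2 using hpt
  obtain ⟨t, ht⟩ := hC.elim_finite_subcover_image (b := C)
    (c := fun x => {y | (p (a x))⁻¹ * y ∈ K (n x)})
    (fun x _ => (h.Ko (n x)).preimage (continuous_const_mul _))
    (fun x hx => Set.mem_iUnion₂.2 ⟨x, hx, hx1 x hx⟩)
  obtain ⟨htC, htf, hts⟩ := ht
  have hCeq : C = ⋃ x ∈ htf.toFinset, {y | (p (a x))⁻¹ * y ∈ K (n x)} := by
    apply Set.Subset.antisymm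
    · intro y hy
      obtain ⟨x, hx, hy'⟩ := Set.mem_iUnion₂.1 (hts hy)
      exact Set.mem_iUnion₂.2 ⟨x, htf.mem_toFinset.2 hx, hy'⟩
    · intro y hy
      obtain ⟨x, hx, hy'⟩ := Set.mem_iUnion₂.1 hy
      exact hx2 x (htC (htf.mem_toFinset.1 hx)) hy'
  rw [hCeq]
  generalize htf.toFinset = s
  induction s using Finset.induction_on with
  | empty => simpa using h0
  | insert x s hx ih =>
    rw [Finset.set_biUnion_insert]
    exact h2 _ _ (h1 _ _) ih

/-- Everything about the operator of a compact open set. -/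
theorem good (h : Ch S R W cA cB p K V z) {C : Set G} (hC : IsCompact C) (hCo : IsOpen C) :
    ∃ X, IsP S p z C X ∧ adjoint X = X ∧ (∀ w ∈ W, w * X = X * w) ∧
      ∀ b, IsP S p z {x | x * (h.r b)⁻¹ ∈ C} (tr R b X) := by
  refine h.co_induction (P := fun C => ∃ X, IsP S p z C X ∧ adjoint X = X ∧
    (∀ w ∈ W, w * X = X * w) ∧ ∀ b, IsP S p z {x | x * (h.r b)⁻¹ ∈ C} (tr R b X)) ?_ ?_ ?_ hC hCo
  · refine ⟨0, isP_empty, map_zero _, fun w _ => by rw [mul_zero, zero_mul], fun b => ?_⟩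
    rw [map_zero]
    exact isP_empty
  · intro n a
    refine ⟨tr S a (z n), (h.isP_z n).tr' a, (prj_tr h.sys a (h.box n).prj).adj, ?_, fun b => ?_⟩
    · obtain ⟨U', hc, hb⟩ := box_tr h.sys h.conjA (h.box n) a
      exact hb.mem.2.2
    · rw [← tr_comm h.sys.SR]
      have h1 := (h.r_spec b n).tr' a
      have h2 : {x | (p a)⁻¹ * x ∈ RC K n (h.r b)} =
          {x | x * (h.r b)⁻¹ ∈ {x | (p a)⁻¹ * x ∈ K n}} := by
        ext x
        change (p a)⁻¹ * x * (h.r b)⁻¹ ∈ K n ↔ (p a)⁻¹ * (x * (h.r b)⁻¹) ∈ K n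
        rw [mul_assoc]
      rw [← h2]
      exact h1
  · rintro C D ⟨X, hX, hXa, hXw, hXb⟩ ⟨Y, hY, hYa, hYw, hYb⟩
    have hcomm : X * Y = Y * X := by
      refine h.uniq (hX.mul hY) ?_
      rw [Set.inter_comm]
      exact hY.mul hX
    refine ⟨X + Y - X * Y, hX.union hY, ?_, fun w hw => ?_, fun b => ?_⟩
    · rw [map_sub, map_add, hXa, hYa, ContinuousLinearMap.mul_def, adjoint_comp, hXa, hYa]
      rw [← ContinuousLinearMap.mul_def, ← ContinuousLinearMap.mul_def, hcomm]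
    · rw [mul_sub, mul_add, sub_mul, add_mul, hXw w hw, hYw w hw, ← mul_assoc, hXw w hw, mul_assoc,
        hYw w hw, mul_assoc]
    · rw [map_sub, map_add, map_mul]
      exact (hXb b).union (hYb b)

open Classical in
/-- The projection of a compact open set. -/
noncomputable def P (h : Ch S R W cA cB p K V z) (C : Set G) : E →L[ℂ] E :=
  if hC : IsCompact C ∧ IsOpen C then (h.good hC.1 hC.2).choose else 0

theorem P_spec (h : Ch S R W cA cB p K V z) {C : Set G} (hC : IsCompact C) (hCo : IsOpen C) :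
    IsP S p z C (h.P C) ∧ adjoint (h.P C) = h.P C ∧ (∀ w ∈ W, w * h.P C = h.P C * w) ∧
      ∀ b, IsP S p z {x | x * (h.r b)⁻¹ ∈ C} (tr R b (h.P C)) := by
  rw [P, dif_pos ⟨hC, hCo⟩]
  exact (h.good hC hCo).choose_spec

theorem r_mul (h : Ch S R W cA cB p K V z) (b c : B) : h.r (b * c) = h.r c * h.r b := by
  refine h.point_uniq (X := fun n => tr R (b * c) (z n)) (h.r_spec (b * c)) fun n => ?_
  have h1 := h.P_spec (h.RC_compact n (h.r c)) (h.RC_open n (h.r c))
  have h2 : h.P (RC K n (h.r c)) = tr R c (z n) := h.uniq h1.1 (h.r_spec c n)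
  have h3 := h1.2.2.2 b
  rw [h2, tr_tr] at h3
  have h4 : {x | x * (h.r b)⁻¹ ∈ RC K n (h.r c)} = RC K n (h.r c * h.r b) := by
    ext x
    change x * (h.r b)⁻¹ * (h.r c)⁻¹ ∈ K n ↔ x * (h.r c * h.r b)⁻¹ ∈ K n
    rw [mul_inv_rev, mul_assoc]
  rwa [h4] at h3

theorem r_one (h : Ch S R W cA cB p K V z) : h.r 1 = 1 := by
  have := h.r_mul 1 1
  rw [mul_one] at this
  exact (mul_eq_left.1 this.symm)

/-- the homomorphism into `G` -/
noncomputable def q (h : Ch S R W cA cB p K V z) : B →* G where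
  toFun b := (h.r b)⁻¹
  map_one' := by rw [h.r_one, inv_one]
  map_mul' b c := by rw [h.r_mul, mul_inv_rev]

theorem q_apply (h : Ch S R W cA cB p K V z) (b : B) : h.q b = (h.r b)⁻¹ := rfl

theorem r_eq (h : Ch S R W cA cB p K V z) (b : B) : h.r b = (h.q b)⁻¹ := by
  rw [q_apply, inv_inv]

theorem q_mem_iff (h : Ch S R W cA cB p K V z) (b : B) (n : ℕ) : h.q b ∈ K n ↔ b ∈ V n := by
  have hK : IsClopen (K n : Set G) := ⟨(h.Kc n).isClosed, h.Ko n⟩
  rw [q_apply, inv_mem_iff]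
  constructor
  · intro hb
    have hRC : RC K n (h.r b) = (K n : Set G) := by
      ext x
      change x * (h.r b)⁻¹ ∈ K n ↔ x ∈ K n
      exact (K n).mul_mem_cancel_right ((K n).inv_mem hb)
    have h1 := h.r_spec b n
    rw [hRC] at h1
    have h2 := h.uniq h1 (h.isP_z n)
    by_contra hn
    have h3 := (h.box n).sepR b hn
    rw [← tr_apply, h2, (h.box n).prj.idem] at h3
    exact (h.box n).ne h3
  · intro hb
    have h2 : tr R b (z n) = z n := tr_fix ((h.box n).mem.2.1 b hb)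
    have h1 := h.r_spec b n
    rw [h2] at h1
    have h3 := h.isP_inj hK ⟨h.RC_closed n _, h.RC_open n _⟩ (h.isP_z n) h1
    have h4 := mem_RC (K := K) n (h.r b)
    rw [← h3] at h4
    exact h4

theorem q_dense (h : Ch S R W cA cB p K V z) : DenseRange h.q := by
  have hr : ∀ (g : G) (n : ℕ), ∃ b, h.r b ∈ RC K n g := by
    intro g n
    by_contra hcon
    push Not at hcon
    have h1 := h.P_spec (h.RC_compact n g) (h.RC_open n g)
    have h0 : h.P (RC K n g) = 0 := by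
      have hz := (h.box n).mem
      rw [Q_symm] at hz
      refine total_left (sys_symm h.sys) (fun x hx => h.erg.E1 _ (h.box n).U_mem x
        (by rw [Q_symm]; exact hx)) hz (h.box n).ne _ fun b => ?_
      have h2 := (h.r_spec b n).mul h1.1
      have h3 : RC K n (h.r b) ∩ RC K n g = ∅ := by
        rw [Set.eq_empty_iff_forall_notMem]
        rintro x ⟨hx1, hx2⟩
        apply hcon b
        change h.r b * g⁻¹ ∈ K n
        have e : h.r b * g⁻¹ = (x * (h.r b)⁻¹)⁻¹ * (x * g⁻¹) := by group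
        rw [e]
        exact (K n).mul_mem ((K n).inv_mem hx1) hx2
      rw [h3] at h2
      exact h.uniq h2 isP_empty
    have h2 := h1.1
    rw [h0] at h2
    have h3 := h.isP_inj ⟨h.RC_closed n g, h.RC_open n g⟩ ⟨isClosed_empty, isOpen_empty⟩ h2 isP_empty
    have h4 := mem_RC (K := K) n g
    rw [h3] at h4
    exact h4
  intro g
  rw [mem_closure_iff_nhds]
  intro O hO
  have hc : Continuous fun y : G => (y * g⁻¹)⁻¹ := by fun_prop
  have hO' : (fun y : G => (y * g⁻¹)⁻¹) ⁻¹' ((fun y => y⁻¹ * g) ⁻¹' O) ∈ 𝓝 g := by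
    have e : (fun y : G => (y * g⁻¹)⁻¹) ⁻¹' ((fun y => y⁻¹ * g) ⁻¹' O) = O := by
      ext y
      simp
    rw [e]; exact hO
  have hO2 : (fun y : G => g * y) ⁻¹' O ∈ 𝓝 (1 : G) := by
    have hc : Continuous fun y : G => g * y := continuous_const_mul g
    exact hc.continuousAt.preimage_mem_nhds (by simpa using hO)
  obtain ⟨n, hn⟩ := h.Kbas _ hO2
  obtain ⟨b, hb⟩ := hr g⁻¹ n
  refine ⟨h.q b, ?_, b, rfl⟩
  have hb' : h.r b * (g⁻¹)⁻¹ ∈ K n := hb
  rw [inv_inv] at hb'
  have h5 : (h.r b * g)⁻¹ ∈ K n := (K n).inv_mem hb'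
  have h6 : g * (h.r b * g)⁻¹ ∈ O := hn h5
  have h7 : g * (h.r b * g)⁻¹ = h.q b := by rw [q_apply]; group
  rwa [h7] at h6

end Ch

end Vale.Agent.P092.H217
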