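import Vale.Agent.P092.H217.Max
import Vale.Agent.P092.SR.Defs

/-!
P092, project B, block B-TA-OUT2 (helper217), part 4: boxes at all small levels give the covariant
family of projections `PFam` and the isomorphism `ψ`.
-/

set_option autoImplicit false
set_option linter.all false

open scoped InnerProductSpace Pointwise
open ContinuousLinearMap Filter Topology

namespace Vale.Agent.P092.H217

open Vale.Agent.P092.H432.TA Vale.Agent.P092.SR

variable {Γ H H' ℋ : Type} [Group Γ] [Group H] [Group H'] [TopologicalSpace H]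
    [TopologicalSpace H'] [NormedAddCommGroup ℋ] [InnerProductSpace ℂ ℋ] [CompleteSpace ℋ]
    {pr : Γ →* H} {pr' : Γ →* H'} {S T : Γ →* (ℋ →L[ℂ] ℋ)} {sc : Set (ℋ →L[ℂ] ℋ)}

theorem sys_of_leg (h : Leg pr pr' S T sc) : Sys S T sc where
  Sadj := h.adjS
  Radj := h.adjT
  SR := h.comm
  WS := h.scS
  WR := h.scT
  Wadj := h.sc_adj

theorem erg_of_leg (h : Leg pr pr' S T sc) : Erg S T sc (cof pr) (cof pr') where
  E1 := by
    rintro _ ⟨K, hK, rfl⟩ x hx
    exact h.ergT K hK.2 x ⟨fun g hg => (hx.1 g hg).symm,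
      fun g _ => (hx.2.1 g (Subgroup.mem_top g)).symm, fun a ha => (hx.2.2 a ha).symm⟩
  E2 := by
    rintro _ ⟨K, hK, rfl⟩ x hx
    exact h.ergS K hK.2 x ⟨fun g _ => (hx.1 g (Subgroup.mem_top g)).symm,
      fun g hg => (hx.2.1 g hg).symm, fun a ha => (hx.2.2 a ha).symm⟩

theorem goodGrp_wlc {H : Type} [Group H] [TopologicalSpace H] (h : GoodGrp H) :
    WeaklyLocallyCompactSpace H := by
  haveI := h.top
  refine ⟨fun x => ?_⟩
  obtain ⟨K, hK, -⟩ := h.basis Set.univ isOpen_univ trivial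
  refine ⟨(fun y => x * y) '' (K : Set H), hK.1.image (continuous_const_mul x), ?_⟩
  exact ((Homeomorph.mulLeft x).isOpenMap _ hK.2).mem_nhds ⟨1, K.one_mem, mul_one x⟩

theorem pfam_of_box (hH : GoodGrp H) (hH' : GoodGrp H') (hL : Leg pr pr' S T sc)
    (hbox : ∀ U0 ∈ cof pr, ∀ V0 ∈ cof pr', ∃ U V z, U ≤ U0 ∧ V ≤ V0 ∧
      Box S T sc (cof pr) (cof pr') U V z) :
    ∃ (ψ : H' ≃ₜ* H) (P : Set H → (ℋ →L[ℂ] ℋ)),
      PFam pr (ψ.toMulEquiv.toMonoidHom.comp pr') S T sc P := by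
  haveI := hH.top
  haveI := hH.t2
  haveI := hH.sc
  haveI := hH'.top
  haveI := hH'.t2
  haveI := hH'.sc
  haveI := goodGrp_wlc hH
  haveI := goodGrp_wlc hH'
  have hS := sys_of_leg hL
  have hE := erg_of_leg hL
  obtain ⟨K, L, z, hch, hLc, hLb⟩ := exists_ch hL.dense hL.dense' hH.basis hH'.basis hS hE hbox
  have hqV : ∀ b n, hch.q b ∈ K n ↔ pr' b ∈ L n := fun b n => hch.q_mem_iff b n
  have hcomap : comap pr' (𝓝 1) = comap hch.q (𝓝 1) := by
    ext s
    rw [mem_comap, mem_comap]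
    constructor
    · rintro ⟨t, ht, hts⟩
      obtain ⟨n, hn⟩ := hLb t ht
      exact ⟨(K n : Set H), (hch.Ko n).mem_nhds (K n).one_mem,
        fun b hb => hts (hn ((hqV b n).1 hb))⟩
    · rintro ⟨t, ht, hts⟩
      obtain ⟨n, hn⟩ := hch.Kbas t ht
      exact ⟨(L n : Set H'), (hLc n).2.mem_nhds (L n).one_mem,
        fun b hb => hts (hn ((hqV b n).2 hb))⟩
  obtain ⟨ψ, hψ⟩ := H361.compl pr' hch.q hL.dense' hch.q_dense hcomap
  have hq : ψ.toMulEquiv.toMonoidHom.comp pr' = hch.q := by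
    ext g
    exact hψ g
  refine ⟨ψ, hch.P, ?_⟩
  rw [hq]
  refine ⟨fun C hC => (hch.P_spec hC.1 hC.2).2.1, ?_, ?_, ?_, ?_, ?_, ?_, ?_⟩
  · intro C D hC hD
    have h1 := (hch.P_spec hC.1 hC.2).1.mul (hch.P_spec hD.1 hD.2).1
    exact hch.uniq h1 (hch.P_spec (hC.1.inter_right hD.1.isClosed) (hC.2.inter hD.2)).1
  · intro C D hC hD hCD
    have h1 := (hch.P_spec hC.1 hC.2).1.add hCD (hch.P_spec hD.1 hD.2).1
    exact hch.uniq (hch.P_spec (hC.1.union hD.1) (hC.2.union hD.2)).1 h1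
  · intro g C hC
    have h1 := (hch.P_spec hC.1 hC.2).1.tr' g
    have e1 : (fun x => pr g * x) '' C = {x | (pr g)⁻¹ * x ∈ C} := by
      ext x
      constructor
      · rintro ⟨y, hy, rfl⟩
        change (pr g)⁻¹ * (pr g * y) ∈ C
        rwa [inv_mul_cancel_left]
      · intro hx
        exact ⟨_, hx, mul_inv_cancel_left _ _⟩
    have hc1 : IsCompact ((fun x => pr g * x) '' C) := hC.1.image (continuous_const_mul _)
    have hc2 : IsOpen ((fun x => pr g * x) '' C) := (Homeomorph.mulLeft (pr g)).isOpenMap _ hC.2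
    have h2 := (hch.P_spec hc1 hc2).1
    rw [e1] at h2 ⊢
    exact hch.uniq h1 h2
  · intro g C hC
    have h1 := (hch.P_spec hC.1 hC.2).2.2.2 g
    have e1 : (fun x => x * (hch.q g)⁻¹) '' C = {x | x * (hch.r g)⁻¹ ∈ C} := by
      rw [hch.r_eq]
      ext x
      constructor
      · rintro ⟨y, hy, rfl⟩
        change y * (hch.q g)⁻¹ * (hch.q g)⁻¹⁻¹ ∈ C
        rwa [mul_inv_cancel_right]
      · intro hx
        exact ⟨_, hx, inv_mul_cancel_right _ _⟩
    have hc1 : IsCompact ((fun x => x * (hch.q g)⁻¹) '' C) := hC.1.image (continuous_mul_const _)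
    have hc2 : IsOpen ((fun x => x * (hch.q g)⁻¹) '' C) :=
      (Homeomorph.mulRight (hch.q g)⁻¹).isOpenMap _ hC.2
    have h2 := (hch.P_spec hc1 hc2).1
    rw [e1] at h2 ⊢
    exact hch.uniq h1 h2
  · intro a ha C hC
    exact (hch.P_spec hC.1 hC.2).2.2.1 a ha
  · intro ζ hζ
    refine total hS (hE.E2 _ (hch.box 0).V_mem) (hch.box 0).mem (hch.box 0).ne ζ fun a => ?_
    have hc1 : IsCompact {x | (pr a)⁻¹ * x ∈ K 0} := by
      have e1 : {x | (pr a)⁻¹ * x ∈ K 0} = (fun x => pr a * x) '' (K 0 : Set H) := by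
        ext x
        constructor
        · intro hx
          exact ⟨_, hx, mul_inv_cancel_left _ _⟩
        · rintro ⟨y, hy, rfl⟩
          change (pr a)⁻¹ * (pr a * y) ∈ K 0
          rwa [inv_mul_cancel_left]
      rw [e1]
      exact (hch.Kc 0).image (continuous_const_mul _)
    have hc2 : IsOpen {x | (pr a)⁻¹ * x ∈ K 0} := (hch.Ko 0).preimage (continuous_const_mul _)
    have h1 := (hch.isP_z 0).tr' a
    have h2 := hch.uniq h1 (hch.P_spec hc1 hc2).1
    rw [h2]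
    exact hζ _ ⟨hc1, hc2⟩
  · intro K1 K2 hK1 hK2 y hy g
    have hset : {x | ∃ a ∈ K1, ∃ b ∈ K2, x = a * g * b} =
        (fun ab : H × H => ab.1 * g * ab.2) '' ((K1 : Set H) ×ˢ (K2 : Set H)) := by
      ext x
      constructor
      · rintro ⟨a, ha, b, hb, rfl⟩
        exact ⟨(a, b), ⟨ha, hb⟩, rfl⟩
      · rintro ⟨⟨a, b⟩, ⟨ha, hb⟩, rfl⟩
        exact ⟨a, ha, b, hb, rfl⟩
    have hc1 : IsCompact {x | ∃ a ∈ K1, ∃ b ∈ K2, x = a * g * b} := by
      rw [hset]
      exact (hK1.1.prod hK2.1).image (by fun_prop)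
    have hc2 : IsOpen {x | ∃ a ∈ K1, ∃ b ∈ K2, x = a * g * b} := by
      have e1 : {x | ∃ a ∈ K1, ∃ b ∈ K2, x = a * g * b} =
          ⋃ b ∈ K2, (fun x => x * (g * b)) '' (K1 : Set H) := by
        ext x
        simp only [Set.mem_iUnion, Set.mem_image]
        constructor
        · rintro ⟨a, ha, b, hb, rfl⟩
          exact ⟨b, hb, a, ha, by group⟩
        · rintro ⟨b, hb, a, ha, rfl⟩
          exact ⟨a, ha, b, hb, by group⟩
      rw [e1]
      exact isOpen_biUnion fun b _ => (Homeomorph.mulRight (g * b)).isOpenMap _ hK1.2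
    refine hch.maxi hK1.2 hK2.2 ⟨K1, hK1, rfl⟩ ?_ ⟨?_, ?_, ?_⟩ g hc1 hc2
    · refine ⟨K2.comap ψ.toMulEquiv.toMonoidHom, ⟨?_, ?_⟩, ?_⟩
      · have e2 : ((K2.comap ψ.toMulEquiv.toMonoidHom : Subgroup H') : Set H') =
            ψ.symm '' (K2 : Set H) := by
          ext x
          constructor
          · intro hx
            exact ⟨ψ x, hx, ψ.symm_apply_apply x⟩
          · rintro ⟨y, hy, rfl⟩
            change ψ (ψ.symm y) ∈ K2
            rw [ψ.apply_symm_apply]; exact hy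
        rw [e2]
        exact hK2.1.image ψ.symm.continuous
      · exact hK2.2.preimage ψ.continuous
      · rw [Subgroup.comap_comap, hq]
    · exact fun a ha => (hy.1 a ha).symm
    · exact fun a ha => (hy.2.1 a ha).symm
    · exact fun a ha => (hy.2.2 a ha).symm

end Vale.Agent.P092.H217
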