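import Vale.Agent.P092.H835.PlGr
import Vale.Agent.P092.H835.Zoom
import Vale.Agent.P092.H589.K2x

/-!
P092, TEAM P, [P-KEY] (helper217), part 1: linear algebra of the symplectic space of dimension 4
for the count of KEY_a: the form `om`, the dilations `Hm p g t` (`ev p ↦ t² ev p`, `g ↦ g`, `t` on
the rest), their products, the compound matrix, the exterior insertion inequality.
-/

set_option linter.all false

namespace Vale.Agent.P092.H217.PK

open Finset Matrix
open Vale.Agent.P092.H820 (wd)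
open Vale.Agent.P092.H835.PlF (w3 Alt sq sq_wd alt_wd)
open Vale.Agent.P092.H589.K2 (mn mn_wd wd_norm_le chain_mn Nrm)

section alg

variable {k : Type} [Field k]

/-- the symplectic form -/
def om (x y : Fin 4 → k) : k := x 0 * y 3 + x 1 * y 2 - x 2 * y 1 - x 3 * y 0

/-- the vector dual to the coordinate `p` -/
def ev (p : Fin 4) : Fin 4 → k :=
  ![![0, 0, 0, 1], ![0, 0, 1, 0], ![0, -1, 0, 0], ![-1, 0, 0, 0]] p

lemma om_ev (v : Fin 4 → k) (p : Fin 4) : om v (ev p) = v p := by
  fin_cases p <;> simp [om, ev]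

lemma ev_self (p : Fin 4) : (ev p : Fin 4 → k) p = 0 := by
  fin_cases p <;> simp [ev]

lemma om_anti (x y : Fin 4 → k) : om x y = - om y x := by simp only [om]; ring

lemma om_self (x : Fin 4 → k) : om x x = 0 := by simp only [om]; ring

lemma om_add_left (x y z : Fin 4 → k) : om (x + y) z = om x z + om y z := by
  simp only [om, Pi.add_apply]; ring

lemma om_add_right (x y z : Fin 4 → k) : om x (y + z) = om x y + om x z := by
  simp only [om, Pi.add_apply]; ring

lemma om_sub_left (x y z : Fin 4 → k) : om (x - y) z = om x z - om y z := by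
  simp only [om, Pi.sub_apply]; ring

lemma om_sub_right (x y z : Fin 4 → k) : om x (y - z) = om x y - om x z := by
  simp only [om, Pi.sub_apply]; ring

lemma om_smul_left (a : k) (x z : Fin 4 → k) : om (a • x) z = a * om x z := by
  simp only [om, Pi.smul_apply, smul_eq_mul]; ring

lemma om_smul_right (a : k) (x z : Fin 4 → k) : om x (a • z) = a * om x z := by
  simp only [om, Pi.smul_apply, smul_eq_mul]; ring

lemma ev_om (v : Fin 4 → k) (p : Fin 4) : om (ev p) v = - v p := by
  rw [om_anti, om_ev]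

/-- the dilation with centre `ev p`, `g` -/
def Hm (p : Fin 4) (g : Fin 4 → k) (t : k) : (Fin 4 → k) →ₗ[k] (Fin 4 → k) where
  toFun v := t • v + ((t ^ 2 - t) * om g v) • ev p + ((1 - t) * v p) • g
  map_add' v w := by
    rw [om_add_right]
    funext a
    simp only [Pi.add_apply, Pi.smul_apply, smul_eq_mul]; ring
  map_smul' a v := by
    rw [om_smul_right]
    funext b
    simp only [Pi.add_apply, Pi.smul_apply, smul_eq_mul, RingHom.id_apply]; ring

lemma Hm_apply (p : Fin 4) (g : Fin 4 → k) (t : k) (v : Fin 4 → k) :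
    Hm p g t v = t • v + ((t ^ 2 - t) * om g v) • ev p + ((1 - t) * v p) • g := rfl

/-- its matrix -/
def HM (p : Fin 4) (g : Fin 4 → k) (t : k) : Matrix (Fin 4) (Fin 4) k :=
  LinearMap.toMatrix' (Hm p g t)

lemma HM_mulVec (p : Fin 4) (g : Fin 4 → k) (t : k) (v : Fin 4 → k) :
    HM p g t *ᵥ v = Hm p g t v := LinearMap.toMatrix'_mulVec _ _

lemma Hm_p {p : Fin 4} {g : Fin 4 → k} (hg : g p = 1) (t : k) (v : Fin 4 → k) :
    Hm p g t v p = v p := by
  rw [Hm_apply]
  simp only [Pi.add_apply, Pi.smul_apply, smul_eq_mul, ev_self, hg]; ring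

lemma om_Hm_right {p : Fin 4} {g : Fin 4 → k} (hg : g p = 1) (t : k) (v : Fin 4 → k) :
    om g (Hm p g t v) = t ^ 2 * om g v := by
  rw [Hm_apply, om_add_right, om_add_right, om_smul_right, om_smul_right, om_smul_right, om_ev,
    om_self, hg]
  ring

lemma Hm_mul {p : Fin 4} {g : Fin 4 → k} (hg : g p = 1) (t t' : k) (v : Fin 4 → k) :
    Hm p g t (Hm p g t' v) = Hm p g (t * t') v := by
  rw [Hm_apply p g t, om_Hm_right hg, Hm_p hg, Hm_apply, Hm_apply]
  funext a
  simp only [Pi.add_apply, Pi.smul_apply, smul_eq_mul]; ring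

lemma Hm_one (p : Fin 4) (g : Fin 4 → k) (v : Fin 4 → k) : Hm p g 1 v = v := by
  rw [Hm_apply]
  funext a
  simp only [Pi.add_apply, Pi.smul_apply, smul_eq_mul]; ring

lemma Hm_inv {p : Fin 4} {g : Fin 4 → k} (hg : g p = 1) {t : k} (ht : t ≠ 0) (v : Fin 4 → k) :
    Hm p g t (Hm p g t⁻¹ v) = v := by
  rw [Hm_mul hg, mul_inv_cancel₀ ht, Hm_one]

lemma Hm_inv' {p : Fin 4} {g : Fin 4 → k} (hg : g p = 1) {t : k} (ht : t ≠ 0) (v : Fin 4 → k) :
    Hm p g t⁻¹ (Hm p g t v) = v := by
  rw [Hm_mul hg, inv_mul_cancel₀ ht, Hm_one]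

lemma om_Hm {p : Fin 4} {g : Fin 4 → k} (hg : g p = 1) (t : k) (v w : Fin 4 → k) :
    om (Hm p g t v) (Hm p g t w) = t ^ 2 * om v w := by
  rw [Hm_apply p g t w]
  rw [om_add_right, om_add_right, om_smul_right, om_smul_right, om_smul_right, om_ev, Hm_p hg]
  rw [Hm_apply p g t v]
  rw [om_add_left, om_add_left, om_smul_left, om_smul_left, om_smul_left, ev_om]
  rw [om_add_left, om_add_left, om_smul_left, om_smul_left, om_smul_left, ev_om, om_self, hg,
    om_anti v g]
  ring

/-- the product of two dilations -/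
lemma HH (p : Fin 4) {η g : Fin 4 → k} (hη : η p = 1) (hg : g p = 1) (c ρ : k) (v : Fin 4 → k) :
    Hm p η c (Hm p g ρ v) =
      (c * (ρ ^ 2 - ρ) * om g v + (c ^ 2 - c) *
        (ρ * om (η - g) v + ρ ^ 2 * om g v + (1 - ρ) * v p * om η g)) • ev p +
      ((c * ρ) • v + v p • (c • (g - η) - (c * ρ) • g + η)) := by
  rw [Hm_apply p η c, Hm_p hg]
  have e : om η (Hm p g ρ v) =
      ρ * om (η - g) v + ρ ^ 2 * om g v + (1 - ρ) * v p * om η g := by
    rw [Hm_apply, om_add_right, om_add_right, om_smul_right, om_smul_right, om_smul_right, om_ev,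
      om_sub_left, hη]
    ring
  rw [e, Hm_apply]
  funext a
  simp only [Pi.add_apply, Pi.smul_apply, smul_eq_mul, Pi.sub_apply]; ring

end alg

end Vale.Agent.P092.H217.PK
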