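import Vale.Agent.P092.H217.PK1

/-!
P092, TEAM P, [P-KEY] (helper217), part 2: norms. The product of two dilations, the compound
matrix, the lower bound of a similitude on 2-vectors, the insertion inequality.
-/

set_option linter.all false

namespace Vale.Agent.P092.H217.PK

open Finset Matrix
open Vale.Agent.P092.H820 (wd)
open Vale.Agent.P092.H835.PlF (w3 Alt sq sq_wd alt_wd alt_sq)
open Vale.Agent.P092.H835.PlGr (wd_of_w3)
open Vale.Agent.P092.H835.NF (w3_norm_le)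
open Vale.Agent.P092.H87.N (cn mulVec_le)
open Vale.Agent.P092.H589.K2 (mn mn_wd wd_norm_le chain_mn Nrm)

section ident

variable {k : Type} [NormedField k]

/-- signs of the minors -/
def ee : Fin 4 → Fin 4 → Fin 4 → k := ![![![0, 0, 0, 0], ![0, 0, 1, -1], ![0, -1, 0, -1], ![0, 1, 1, 0]],
    ![![0, 0, -1, 1], ![0, 0, 0, 0], ![1, 0, 0, 1], ![-1, 0, -1, 0]],
    ![![0, 1, 0, 1], ![-1, 0, 0, -1], ![0, 0, 0, 0], ![-1, 1, 0, 0]],
    ![![0, -1, -1, 0], ![1, 0, 1, 0], ![1, -1, 0, 0], ![0, 0, 0, 0]]]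

/-- coordinates of the minors -/
def dd : Fin 4 → Fin 4 → Fin 4 → Fin 4 := ![![![0, 0, 0, 0], ![0, 0, 0, 1], ![0, 0, 0, 2], ![0, 1, 2, 0]],
    ![![0, 0, 0, 1], ![0, 0, 0, 0], ![0, 0, 0, 3], ![1, 0, 3, 0]],
    ![![0, 0, 0, 2], ![0, 0, 0, 3], ![0, 0, 0, 0], ![2, 3, 0, 0]],
    ![![0, 1, 2, 0], ![1, 0, 3, 0], ![2, 3, 0, 0], ![0, 0, 0, 0]]]

set_option maxHeartbeats 1000000 in
/-- the Pfaffian identity -/
lemma pf (x y n : Fin 4 → k) (a b c : Fin 4) : w3 x (wd y n) (a, (b, c)) =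
    ee a b c * (om x y * n (dd a b c) - om x n * y (dd a b c) + x (dd a b c) * om y n) := by
  fin_cases a <;> fin_cases b <;> fin_cases c <;> simp [w3, wd, om, ee, dd] <;> ring

lemma ee_cases (a b c : Fin 4) : (ee a b c : k) = 0 ∨ (ee a b c : k) = 1 ∨ (ee a b c : k) = -1 := by
  fin_cases a <;> fin_cases b <;> fin_cases c <;> simp [ee]

end ident

section nrm

variable {k : Type} [NontriviallyNormedField k]

lemma norm_om_le (x y : Fin 4 → k) : ‖om x y‖ ≤ 4 * (‖x‖ * ‖y‖) := by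
  have h : ∀ i j, ‖x i * y j‖ ≤ ‖x‖ * ‖y‖ := fun i j => by
    rw [norm_mul]
    exact mul_le_mul (norm_le_pi_norm _ _) (norm_le_pi_norm _ _) (norm_nonneg _) (norm_nonneg _)
  unfold om
  have h1 := norm_sub_le (x 0 * y 3 + x 1 * y 2 - x 2 * y 1) (x 3 * y 0)
  have h2 := norm_sub_le (x 0 * y 3 + x 1 * y 2) (x 2 * y 1)
  have h3 := norm_add_le (x 0 * y 3) (x 1 * y 2)
  linarith [h 0 3, h 1 2, h 2 1, h 3 0]

lemma norm_ev (p : Fin 4) : ‖(ev p : Fin 4 → k)‖ ≤ 1 := by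
  refine (pi_norm_le_iff_of_nonneg zero_le_one).2 fun a => ?_
  fin_cases p <;> fin_cases a <;> simp [ev]

lemma norm_ee (a b c : Fin 4) : ‖(ee a b c : k)‖ ≤ 1 := by
  rcases ee_cases (k := k) a b c with h | h | h <;> rw [h] <;> simp

/-- `‖x ∧ y ∧ n‖ ≤ ‖om x n‖ ‖y‖` -/
lemma pf_up {x y n : Fin 4 → k} (h1 : om x y = 0) (h2 : om y n = 0) :
    ‖w3 x (wd y n)‖ ≤ ‖om x n‖ * ‖y‖ := by
  refine (pi_norm_le_iff_of_nonneg (by positivity)).2 fun q => ?_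
  obtain ⟨a, b, c⟩ := q
  rw [pf, h1, h2, zero_mul, mul_zero, add_zero, zero_sub, norm_mul, norm_neg, norm_mul]
  calc ‖(ee a b c : k)‖ * (‖om x n‖ * ‖y (dd a b c)‖) ≤ 1 * (‖om x n‖ * ‖y‖) := by
        gcongr
        · exact norm_ee a b c
        · exact norm_le_pi_norm _ _
    _ = _ := one_mul _

lemma pf_low {x y n : Fin 4 → k} (h1 : om x y = 0) (h2 : om y n = 0) :
    ‖om x n‖ * ‖y‖ ≤ ‖w3 x (wd y n)‖ := by
  have key : ∀ d : Fin 4, ‖om x n‖ * ‖y d‖ ≤ ‖w3 x (wd y n)‖ := by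
    intro d
    have h : ∀ a b c, dd a b c = d → ((ee a b c : k) = 1 ∨ (ee a b c : k) = -1) →
        ‖om x n‖ * ‖y d‖ ≤ ‖w3 x (wd y n)‖ := by
      intro a b c hd he
      have h3 := norm_le_pi_norm (w3 x (wd y n)) (a, (b, c))
      rw [pf, h1, h2, zero_mul, mul_zero, add_zero, zero_sub, norm_mul, norm_neg, norm_mul,
        hd] at h3
      have h4 : ‖(ee a b c : k)‖ = 1 := by
        rcases he with he | he <;> rw [he] <;> simp
      rwa [h4, one_mul] at h3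
    fin_cases d
    · exact h 0 1 2 (by simp [dd]) (by simp [ee])
    · exact h 0 1 3 (by simp [dd]) (by simp [ee])
    · exact h 0 2 3 (by simp [dd]) (by simp [ee])
    · exact h 1 2 3 (by simp [dd]) (by simp [ee])
  obtain ⟨d, hd⟩ : ∃ d, ‖y‖ ≤ ‖y d‖ := by
    obtain ⟨d, _, hd⟩ := Finset.exists_max_image univ (fun i => ‖y i‖) univ_nonempty
    exact ⟨d, (pi_norm_le_iff_of_nonneg (norm_nonneg _)).2 fun i => hd i (mem_univ i)⟩
  exact (mul_le_mul_of_nonneg_left hd (norm_nonneg _)).trans (key d)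

lemma om_of_wd (y n : Fin 4 → k) : om y n = wd y n (0, 3) + wd y n (1, 2) := by
  simp only [om, wd]; ring

/-- **the insertion inequality** -/
theorem ins {M : Matrix (Fin 4) (Fin 4) k} {m : k}
    (hM : ∀ v w, om (M *ᵥ v) (M *ᵥ w) = m * om v w) {x y : Fin 4 → k} {P : Fin 4 × Fin 4 → k}
    (hxy : om x y = 0) (hy : y ≠ 0) (hP : w3 y P = 0) (hiso : P (0, 3) + P (1, 2) = 0) :
    ‖m‖ * ‖w3 x P‖ * ‖M *ᵥ y‖ ≤ 3 * ‖M *ᵥ x‖ * ‖y‖ * ‖sq M *ᵥ P‖ := by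
  obtain ⟨n, rfl⟩ := wd_of_w3 hy hP
  rw [← om_of_wd] at hiso
  have h1 := pf_up hxy hiso
  have h2 : ‖om (M *ᵥ x) (M *ᵥ n)‖ * ‖M *ᵥ y‖ ≤ ‖w3 (M *ᵥ x) (wd (M *ᵥ y) (M *ᵥ n))‖ :=
    pf_low (by rw [hM, hxy, mul_zero]) (by rw [hM, hiso, mul_zero])
  have h3 := w3_norm_le (M *ᵥ x) (wd (M *ᵥ y) (M *ᵥ n))
  rw [hM, norm_mul] at h2
  rw [sq_wd]
  calc ‖m‖ * ‖w3 x (wd y n)‖ * ‖M *ᵥ y‖ ≤ ‖m‖ * (‖om x n‖ * ‖y‖) * ‖M *ᵥ y‖ := by gcongr
    _ = ‖y‖ * (‖m‖ * ‖om x n‖ * ‖M *ᵥ y‖) := by ring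
    _ ≤ ‖y‖ * (3 * (‖M *ᵥ x‖ * ‖wd (M *ᵥ y) (M *ᵥ n)‖)) := by
        exact mul_le_mul_of_nonneg_left (h2.trans h3) (norm_nonneg _)
    _ = _ := by ring

end nrm

end Vale.Agent.P092.H217.PK
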