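import Vale.Agent.P092.H217.PK2

/-!
P092, TEAM P, [P-KEY] (helper217), part 3: the compound matrix, the projection `pr` along `ev p`,
normal forms, bounds for the zoomed matrix.
-/

set_option linter.all false

namespace Vale.Agent.P092.H217.PK

open Finset Matrix
open Vale.Agent.P092.H820 (wd)
open Vale.Agent.P092.H835.PlF (w3 Alt sq sq_wd alt_wd alt_sq bl sq_apply)
open Vale.Agent.P092.H835.PlGr (wd_of_w3)
open Vale.Agent.P092.H835.NF (w3_norm_le sq_le sq_mul sq_smul)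
open Vale.Agent.P092.H87.N (cn mulVec_le)
open Vale.Agent.P092.H589.K2 (mn mn_wd wd_norm_le chain_mn Nrm)

section cmp

variable {k : Type} [NontriviallyNormedField k]

/-- the compound matrix (equal to `sq M` on alternating 2-vectors) -/
def cp (M : Matrix (Fin 4) (Fin 4) k) : Matrix (Fin 4 × Fin 4) (Fin 4 × Fin 4) k :=
  Matrix.of fun p q => if q.1 < q.2 then M p.1 q.1 * M p.2 q.2 - M p.1 q.2 * M p.2 q.1 else 0

lemma cp_alt (M : Matrix (Fin 4) (Fin 4) k) {ω : Fin 4 × Fin 4 → k} (h : Alt ω) :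
    cp M *ᵥ ω = sq M *ᵥ ω := by
  funext q
  obtain ⟨a, b⟩ := q
  rw [sq_apply]
  simp only [Matrix.mulVec, dotProduct, Fintype.sum_prod_type, Fin.sum_univ_four, cp, bl,
    Matrix.of_apply, h.diag, h.anti 1 0, h.anti 2 0, h.anti 3 0, h.anti 2 1, h.anti 3 1,
    h.anti 3 2]
  simp
  ring

lemma cp_norm {M : Matrix (Fin 4) (Fin 4) k} {μ : ℝ} (hμ : 0 ≤ μ)
    (h : ∀ a b c d, ‖M a c * M b d - M a d * M b c‖ ≤ μ) (v : Fin 4 × Fin 4 → k) :
    ‖cp M *ᵥ v‖ ≤ 16 * μ * ‖v‖ := by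
  have h1 := mulVec_le (M := cp M) hμ (fun x y => by
    simp only [cp, Matrix.of_apply]
    split_ifs
    · exact h _ _ _ _
    · simpa using hμ) v
  have e : cn (Fin 4 × Fin 4) = 16 := by simp [cn]
  rw [e] at h1
  linarith

/-- signs -/
def sg : Fin 4 → k := ![1, 1, -1, -1]

lemma norm_sg (a : Fin 4) : ‖(sg a : k)‖ = 1 := by fin_cases a <;> simp [sg]

lemma om_single (c : Fin 4) (u : Fin 4 → k) :
    om (Pi.single c 1) u = sg c * u (Fin.rev c) := by
  fin_cases c <;> simp [om, sg, Fin.rev]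

lemma mulVec_ev (M : Matrix (Fin 4) (Fin 4) k) (a i : Fin 4) :
    (M *ᵥ ev a) i = sg a * M i (Fin.rev a) := by
  fin_cases a <;> simp [Matrix.mulVec, dotProduct, Fin.sum_univ_four, ev, sg, Fin.rev]

/-- the symplectic adjoint -/
def ad (M : Matrix (Fin 4) (Fin 4) k) : Matrix (Fin 4) (Fin 4) k :=
  Matrix.of fun a j => om (Pi.single j 1) (M *ᵥ ev a)

lemma ad_mulVec (M : Matrix (Fin 4) (Fin 4) k) (x : Fin 4 → k) (a : Fin 4) :
    (ad M *ᵥ x) a = om x (M *ᵥ ev a) := by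
  simp only [Matrix.mulVec, dotProduct, Fin.sum_univ_four, ad, Matrix.of_apply, om]
  simp
  ring

lemma ad_minor (M : Matrix (Fin 4) (Fin 4) k) (a b c d : Fin 4) :
    ad M a c * ad M b d - ad M a d * ad M b c = (sg c * sg d * sg a * sg b) *
      (M (Fin.rev c) (Fin.rev a) * M (Fin.rev d) (Fin.rev b) -
        M (Fin.rev c) (Fin.rev b) * M (Fin.rev d) (Fin.rev a)) := by
  simp only [ad, Matrix.of_apply, om_single, mulVec_ev]
  ring

lemma ad_mul {M : Matrix (Fin 4) (Fin 4) k} {m : k}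
    (hM : ∀ v w, om (M *ᵥ v) (M *ᵥ w) = m * om v w) : ad M * M = m • (1 : Matrix _ _ k) := by
  refine (Matrix.toLin' (R := k)).injective (LinearMap.ext fun v => ?_)
  simp only [Matrix.toLin'_apply, ← Matrix.mulVec_mulVec, Matrix.smul_mulVec, Matrix.one_mulVec]
  funext a
  rw [ad_mulVec, hM, om_ev]
  rfl

/-- a similitude is bounded below on 2-vectors -/
theorem sq_low {M : Matrix (Fin 4) (Fin 4) k} {m : k}
    (hM : ∀ v w, om (M *ᵥ v) (M *ᵥ w) = m * om v w) {μ : ℝ} (hμ : 0 ≤ μ)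
    (h : ∀ a b c d, ‖M a c * M b d - M a d * M b c‖ ≤ μ) {ω : Fin 4 × Fin 4 → k} (hω : Alt ω) :
    ‖m‖ ^ 2 * ‖ω‖ ≤ 16 * μ * ‖sq M *ᵥ ω‖ := by
  have e : sq (ad M) *ᵥ (sq M *ᵥ ω) = m ^ 2 • ω := by
    rw [Matrix.mulVec_mulVec, ← sq_mul, ad_mul hM, sq_smul]
    congr 1
    have : (H835.PlF.sq (1 : Matrix (Fin 4) (Fin 4) k)) = 1 := Matrix.one_kronecker_one
    rw [this, Matrix.one_mulVec]
  have h1 : ‖cp (ad M) *ᵥ (sq M *ᵥ ω)‖ ≤ 16 * μ * ‖sq M *ᵥ ω‖ := by
    refine cp_norm hμ (fun a b c d => ?_) _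
    rw [ad_minor, norm_mul, norm_mul, norm_mul, norm_mul, norm_sg, norm_sg, norm_sg, norm_sg,
      one_mul, one_mul, one_mul, one_mul]
    exact h _ _ _ _
  rw [cp_alt _ (alt_sq M hω), e, norm_smul, norm_pow] at h1
  exact h1

end cmp

section prj

variable {k : Type} [NontriviallyNormedField k]

/-- the vector with the coordinate opposite to `p` removed -/
def pr (p : Fin 4) (w : Fin 4 → k) : Fin 4 → k := fun i => if i = Fin.rev p then 0 else w i

lemma norm_pr_le (p : Fin 4) (w : Fin 4 → k) : ‖pr p w‖ ≤ ‖w‖ := by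
  refine (pi_norm_le_iff_of_nonneg (norm_nonneg _)).2 fun i => ?_
  simp only [pr]
  split_ifs
  · simp
  · exact norm_le_pi_norm _ _

lemma pr_add (p : Fin 4) (v w : Fin 4 → k) : pr p (v + w) = pr p v + pr p w := by
  funext i; simp only [pr, Pi.add_apply]; split_ifs <;> simp

lemma pr_sub (p : Fin 4) (v w : Fin 4 → k) : pr p (v - w) = pr p v - pr p w := by
  funext i; simp only [pr, Pi.sub_apply]; split_ifs <;> simp

lemma pr_smul (p : Fin 4) (a : k) (w : Fin 4 → k) : pr p (a • w) = a • pr p w := by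
  funext i; simp only [pr, Pi.smul_apply, smul_eq_mul]; split_ifs <;> simp

lemma pr_ev (p : Fin 4) : pr p (ev p : Fin 4 → k) = 0 := by
  funext i; fin_cases p <;> fin_cases i <;> simp [pr, ev, Fin.rev]

/-- decomposition along `ev p` -/
lemma pr_dec {p : Fin 4} {g : Fin 4 → k} (hg : g p = 1) (w : Fin 4 → k) :
    w = pr p w + (om g w - om g (pr p w)) • ev p := by
  have h : ∃ a : k, w = pr p w + a • ev p := by
    refine ⟨ev p (Fin.rev p) * w (Fin.rev p), ?_⟩
    funext i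
    fin_cases p <;> fin_cases i <;> simp [pr, ev, Fin.rev]
  obtain ⟨a, ha⟩ := h
  have e : om g w = om g (pr p w) + a := by
    conv_lhs => rw [ha]
    rw [om_add_right, om_smul_right, om_ev, hg, mul_one]
  rw [e, add_sub_cancel_left]
  exact ha

lemma norm_le_pr {p : Fin 4} {g : Fin 4 → k} (hg : g p = 1) (w : Fin 4 → k) :
    ‖w‖ ≤ (1 + 4 * ‖g‖) * ‖pr p w‖ + ‖om g w‖ := by
  have h1 := norm_add_le (pr p w) ((om g w - om g (pr p w)) • ev p)
  rw [← pr_dec hg, norm_smul] at h1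
  have h2 := norm_sub_le (om g w) (om g (pr p w))
  have h3 := norm_om_le g (pr p w)
  have h4 := norm_ev (k := k) p
  have h5 : ‖om g w - om g (pr p w)‖ * ‖(ev p : Fin 4 → k)‖ ≤ ‖om g w - om g (pr p w)‖ * 1 := by
    gcongr
  nlinarith

/-- two vectors without `p` coordinate pair through `pr` -/
lemma om_pr {p : Fin 4} {u w : Fin 4 → k} (hu : u p = 0) (hw : w p = 0) :
    om u w = om (pr p u) (pr p w) := by
  have h : ∃ a : k, u = pr p u + a • ev p := by
    refine ⟨ev p (Fin.rev p) * u (Fin.rev p), ?_⟩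
    funext i
    fin_cases p <;> fin_cases i <;> simp [pr, ev, Fin.rev]
  have h' : ∃ a : k, w = pr p w + a • ev p := by
    refine ⟨ev p (Fin.rev p) * w (Fin.rev p), ?_⟩
    funext i
    fin_cases p <;> fin_cases i <;> simp [pr, ev, Fin.rev]
  obtain ⟨a, ha⟩ := h
  obtain ⟨b, hb⟩ := h'
  have e1 : om u w = om (pr p u) w := by
    conv_lhs => rw [ha]
    rw [om_add_left, om_smul_left, ev_om, hw, neg_zero, mul_zero, add_zero]
  have e2 : (pr p u) p = 0 := by
    have := congrFun ha p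
    simp only [Pi.add_apply, Pi.smul_apply, ev_self, smul_zero, add_zero, hu] at this
    exact this.symm
  rw [e1]
  conv_lhs => rw [hb]
  rw [om_add_right, om_smul_right, om_ev, e2, mul_zero, add_zero]

lemma pr_Hm (p : Fin 4) (g : Fin 4 → k) (t : k) (v : Fin 4 → k) :
    pr p (Hm p g t v) = t • pr p v + ((1 - t) * v p) • pr p g := by
  rw [Hm_apply, pr_add, pr_add, pr_smul, pr_smul, pr_smul, pr_ev, smul_zero, add_zero]

end prj

end Vale.Agent.P092.H217.PK
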