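import Vale.Agent.P092.H217.PK3

/-!
P092, TEAM P, [P-KEY] (helper217), part 4: normal form of a near-1-wall element and the geometry of
one zoomed step.
-/

set_option linter.all false

namespace Vale.Agent.P092.H217.PK

open Finset Matrix
open Vale.Agent.P092.H820 (wd)
open Vale.Agent.P092.H835.PlF (w3 Alt sq sq_wd alt_wd alt_sq bl sq_apply)
open Vale.Agent.P092.H835.PlGr (wd_of_w3)
open Vale.Agent.P092.H835.NF (w3_norm_le sq_le sq_mul sq_smul)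
open Vale.Agent.P092.H87.N (cn mulVec_le)
open Vale.Agent.P092.H589.K2 (mn mn_wd wd_norm_le chain_mn Nrm)

variable {k : Type} [NontriviallyNormedField k]

/-- normal form: `M = c⁻¹ A Hm(η, c)` -/
structure Nf (p : Fin 4) (C : ℝ) (M : Matrix (Fin 4) (Fin 4) k) (η : Fin 4 → k) (c : k)
    (A : Matrix (Fin 4) (Fin 4) k) : Prop where
  eq : ∀ v, c • (M *ᵥ v) = A *ᵥ (Hm p η c v)
  c1 : 1 ≤ ‖c‖
  ηp : η p = 1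
  ηn : ‖η‖ ≤ 1
  C1 : 1 ≤ C
  An : ∀ i j, ‖A i j‖ ≤ C
  sy : ∀ v w, om (M *ᵥ v) (M *ᵥ w) = om v w

namespace Nf

variable {p : Fin 4} {C : ℝ} {M A : Matrix (Fin 4) (Fin 4) k} {η : Fin 4 → k} {c : k}

lemma c0 (h : Nf p C M η c A) : c ≠ 0 := by
  intro h0
  have := h.c1
  rw [h0, norm_zero] at this
  linarith

lemma A_sy (h : Nf p C M η c A) (v w : Fin 4 → k) : om (A *ᵥ v) (A *ᵥ w) = om v w := by
  have e : ∀ v, A *ᵥ v = c • (M *ᵥ Hm p η c⁻¹ v) := fun v => by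
    rw [h.eq, Hm_inv h.ηp h.c0]
  rw [e v, e w, om_smul_left, om_smul_right, h.sy, om_Hm h.ηp]
  have := h.c0
  field_simp

lemma A_up (h : Nf p C M η c A) (v : Fin 4 → k) : ‖A *ᵥ v‖ ≤ 4 * C * ‖v‖ := by
  have h1 := mulVec_le (M := A) (by linarith [h.C1] : 0 ≤ C) h.An v
  have e : cn (Fin 4) = 4 := by simp [cn]
  rw [e] at h1
  linarith

lemma A_low (h : Nf p C M η c A) (v : Fin 4 → k) : ‖v‖ ≤ 16 * C * ‖A *ᵥ v‖ := by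
  have hC := h.C1
  refine (pi_norm_le_iff_of_nonneg (by positivity)).2 fun a => ?_
  rw [← om_ev v a, ← h.A_sy]
  have h1 := norm_om_le (A *ᵥ v) (A *ᵥ ev a)
  have h2 := h.A_up (ev a)
  have h3 := norm_ev (k := k) a
  have h4 : ‖A *ᵥ ev a‖ ≤ 4 * C := by nlinarith
  calc _ ≤ 4 * (‖A *ᵥ v‖ * ‖A *ᵥ ev a‖) := h1
    _ ≤ 4 * (‖A *ᵥ v‖ * (4 * C)) := by gcongr
    _ = _ := by ring

lemma up (h : Nf p C M η c A) (v : Fin 4 → k) : ‖M *ᵥ v‖ * ‖c‖ ≤ 4 * C * ‖Hm p η c v‖ := by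
  have h1 := h.A_up (Hm p η c v)
  rw [← h.eq, norm_smul] at h1
  linarith

lemma low (h : Nf p C M η c A) (v : Fin 4 → k) : ‖Hm p η c v‖ ≤ 16 * C * (‖M *ᵥ v‖ * ‖c‖) := by
  have h1 := h.A_low (Hm p η c v)
  rw [← h.eq, norm_smul] at h1
  linarith

lemma pr_eq (p : Fin 4) (η : Fin 4 → k) (c : k) (x : Fin 4 → k) :
    c • pr p (x - x p • η) = pr p (Hm p η c x) - x p • pr p η := by
  rw [pr_Hm, pr_sub, pr_smul]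
  funext a
  simp only [Pi.add_apply, Pi.smul_apply, smul_eq_mul, Pi.sub_apply]; ring

lemma pr_le (hη : ‖η‖ ≤ 1) (x : Fin 4 → k) :
    ‖c‖ * ‖pr p (x - x p • η)‖ ≤ ‖Hm p η c x‖ + ‖x p‖ := by
  rw [← norm_smul, pr_eq]
  refine (norm_sub_le _ _).trans (add_le_add (norm_pr_le _ _) ?_)
  rw [norm_smul]
  have h1 := (norm_pr_le p η).trans hη
  have h2 := norm_nonneg (x p)
  nlinarith

/-- localisation of the contracted points -/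
lemma loc (h : Nf p C M η c A) {x : Fin 4 → k} {C₂ : ℝ} (hx : ‖M *ᵥ x‖ * ‖c‖ ≤ C₂ * ‖x‖) :
    ‖c‖ * ‖pr p (x - x p • η)‖ ≤ (16 * C * C₂ + 1) * ‖x‖ ∧
      ‖c‖ ^ 2 * ‖om η x‖ ≤ 4 * (16 * C * C₂) * ‖x‖ := by
  have hC := h.C1
  have h1 : ‖Hm p η c x‖ ≤ 16 * C * C₂ * ‖x‖ := by
    refine (h.low x).trans ?_
    calc _ ≤ 16 * C * (C₂ * ‖x‖) := by gcongr
      _ = _ := by ring
  constructor
  · refine (pr_le h.ηn x).trans ?_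
    have h2 := norm_le_pi_norm x p
    linarith
  · have e := om_Hm_right h.ηp c x
    have h2 := norm_om_le η (Hm p η c x)
    rw [e, norm_mul, norm_pow] at h2
    refine h2.trans ?_
    have h3 := h.ηn
    have h4 := norm_nonneg (Hm p η c x)
    nlinarith

lemma pr_low (h : Nf p C M η c A) (y : Fin 4 → k) :
    ‖pr p (y - y p • η)‖ ≤ 32 * C * ‖M *ᵥ y‖ := by
  have hC := h.C1
  have h1 := pr_le (p := p) (c := c) h.ηn y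
  have h2 : ‖y p‖ ≤ ‖Hm p η c y‖ := by
    have := norm_le_pi_norm (Hm p η c y) p
    rwa [Hm_p h.ηp] at this
  have h3 := h.low y
  have h4 : 0 < ‖c‖ := by linarith [h.c1]
  have h5 : ‖c‖ * ‖pr p (y - y p • η)‖ ≤ ‖c‖ * (32 * C * ‖M *ᵥ y‖) := by linarith
  exact le_of_mul_le_mul_left h5 h4

end Nf

/-- the base point `g` of a class is close to `η` at scale `ρ` -/
structure Nb (p : Fin 4) (C : ℝ) (η g : Fin 4 → k) (ρ : k) : Prop where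
  g1 : g p = 1
  gn : ‖g‖ ≤ 1
  d1 : ‖η - g‖ ≤ C * ‖ρ‖
  d2 : ‖om η g‖ ≤ C * ‖ρ‖ ^ 2
  ρ0 : ρ ≠ 0
  ρ1 : ‖ρ‖ ≤ 1

section zoom

variable {p : Fin 4} {g : Fin 4 → k} {ρ : k}

lemma Hm_self (hg : g p = 1) (t : k) : Hm p g t g = g := by
  rw [Hm_apply, om_self, hg]
  funext a
  simp only [Pi.add_apply, Pi.smul_apply, smul_eq_mul]; ring

lemma pr_zoom (ρ : k) {w : Fin 4 → k} (hw : w p = 0) :
    pr p (Hm p g ρ⁻¹ w) = ρ⁻¹ • pr p w := by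
  rw [pr_Hm, hw, mul_zero, zero_smul, add_zero]

lemma zoom_up (hg : g p = 1) (hgn : ‖g‖ ≤ 1) (hρ : ρ ≠ 0) {w : Fin 4 → k} (hw : w p = 0) :
    ‖ρ‖ ^ 2 * ‖Hm p g ρ⁻¹ w‖ ≤ 5 * (‖ρ‖ * ‖pr p w‖) + ‖om g w‖ := by
  have h1 := norm_le_pr hg (Hm p g ρ⁻¹ w)
  rw [pr_zoom ρ hw, om_Hm_right hg, norm_smul, norm_mul, norm_pow, norm_inv] at h1
  have hρ' : 0 < ‖ρ‖ := norm_pos_iff.2 hρ
  have h2 : ‖ρ‖ ^ 2 * ‖Hm p g ρ⁻¹ w‖ ≤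
      ‖ρ‖ ^ 2 * ((1 + 4 * ‖g‖) * (‖ρ‖⁻¹ * ‖pr p w‖) + ‖ρ‖⁻¹ ^ 2 * ‖om g w‖) := by gcongr
  refine h2.trans ?_
  have e : ‖ρ‖ ^ 2 * ((1 + 4 * ‖g‖) * (‖ρ‖⁻¹ * ‖pr p w‖) + ‖ρ‖⁻¹ ^ 2 * ‖om g w‖) =
      (1 + 4 * ‖g‖) * (‖ρ‖ * ‖pr p w‖) + ‖om g w‖ := by field_simp
  rw [e]
  have h3 : 0 ≤ ‖ρ‖ * ‖pr p w‖ := by positivity
  nlinarith

lemma zoom_low (hρ : ρ ≠ 0) {w : Fin 4 → k} (hw : w p = 0) :
    ‖pr p w‖ ≤ ‖ρ‖ * ‖Hm p g ρ⁻¹ w‖ := by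
  have h1 := norm_pr_le p (Hm p g ρ⁻¹ w)
  rw [pr_zoom ρ hw, norm_smul, norm_inv] at h1
  have hρ' : 0 < ‖ρ‖ := norm_pos_iff.2 hρ
  rwa [inv_mul_le_iff₀ hρ'] at h1

end zoom

section geo

variable {p : Fin 4} {C : ℝ} {M A : Matrix (Fin 4) (Fin 4) k} {η g : Fin 4 → k} {c ρ : k}

lemma om_g {w : Fin 4 → k} (nf : Nf p C M η c A) (nb : Nb p C η g ρ) (hw : w p = 0) :
    ‖om g w‖ ≤ ‖om η w‖ + 4 * C * (‖ρ‖ * ‖pr p w‖) := by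
  have e : om g w = om η w - om (pr p (η - g)) (pr p w) := by
    rw [← om_pr (by rw [Pi.sub_apply, nf.ηp, nb.g1, sub_self]) hw, om_sub_left]; ring
  rw [e]
  refine (norm_sub_le _ _).trans (add_le_add le_rfl ?_)
  have h1 := norm_om_le (pr p (η - g)) (pr p w)
  have h2 := (norm_pr_le p (η - g)).trans nb.d1
  refine h1.trans ?_
  calc 4 * (‖pr p (η - g)‖ * ‖pr p w‖) ≤ 4 * ((C * ‖ρ‖) * ‖pr p w‖) := by gcongr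
    _ = _ := by ring

lemma eta_zoom (nf : Nf p C M η c A) (nb : Nb p C η g ρ) : ‖Hm p g ρ⁻¹ η‖ ≤ 7 * C := by
  have hC := nf.C1
  have e : Hm p g ρ⁻¹ η = g + Hm p g ρ⁻¹ (η - g) := by
    rw [map_sub, Hm_self nb.g1]; abel
  have hw : (η - g) p = 0 := by rw [Pi.sub_apply, nf.ηp, nb.g1, sub_self]
  have h1 := zoom_up nb.g1 nb.gn nb.ρ0 hw
  have hρ' : 0 < ‖ρ‖ := norm_pos_iff.2 nb.ρ0
  have h2 := (norm_pr_le p (η - g)).trans nb.d1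
  have h3 : ‖om g (η - g)‖ ≤ C * ‖ρ‖ ^ 2 := by
    rw [om_sub_right, om_self, sub_zero, om_anti, norm_neg]; exact nb.d2
  have h4 : ‖ρ‖ ^ 2 * ‖Hm p g ρ⁻¹ (η - g)‖ ≤ ‖ρ‖ ^ 2 * (6 * C) := by
    refine h1.trans ?_
    have : ‖ρ‖ * ‖pr p (η - g)‖ ≤ ‖ρ‖ * (C * ‖ρ‖) := by gcongr
    nlinarith
  have h5 := le_of_mul_le_mul_left h4 (by positivity)
  rw [e]
  refine (norm_add_le _ _).trans ?_
  linarith [nb.gn]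

/-- the contracted points in the zoomed picture -/
lemma geo_x (nf : Nf p C M η c A) (nb : Nb p C η g ρ) {C₂ : ℝ} (hC₂ : 1 ≤ C₂)
    (hT : 18 * (16 * C * C₂ + 1) ≤ ‖c‖ * ‖ρ‖) {x : Fin 4 → k}
    (hx : ‖M *ᵥ x‖ * ‖c‖ ≤ C₂ * ‖x‖) :
    ‖x‖ ≤ 2 * ‖x p‖ ∧ (‖c‖ * ‖ρ‖) * ‖Hm p g ρ⁻¹ (x - x p • η)‖ ≤
      26 * C * (16 * C * C₂ + 1) * ‖x p‖ := by
  have hC := nf.C1
  set D := 16 * C * C₂ with hD
  have hD0 : 0 ≤ D := by positivity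
  obtain ⟨a1, a2⟩ := nf.loc hx
  rw [← hD] at a1 a2
  set w := x - x p • η with hw
  have hwp : w p = 0 := by
    rw [hw, Pi.sub_apply, Pi.smul_apply, nf.ηp, smul_eq_mul, mul_one, sub_self]
  have eo : om η w = om η x := by rw [hw, om_sub_right, om_smul_right, om_self, mul_zero, sub_zero]
  have hρ' : 0 < ‖ρ‖ := norm_pos_iff.2 nb.ρ0
  have hρ1 := nb.ρ1
  have hc1 := nf.c1
  have hcρ : ‖c‖ * ‖ρ‖ ≤ ‖c‖ := by nlinarith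
  have hT1 : 18 * (D + 1) ≤ ‖c‖ := hT.trans hcρ
  have hX := norm_nonneg x
  have b1 := norm_le_pr nf.ηp w
  rw [eo] at b1
  have hpw := norm_nonneg (pr p w)
  have b2 : ‖w‖ ≤ 5 * ‖pr p w‖ + ‖om η x‖ := by nlinarith [nf.ηn]
  have b3 : ‖c‖ * ‖om η x‖ ≤ 4 * D * ‖x‖ := by
    have h0 : ‖c‖ * ‖om η x‖ ≤ ‖c‖ ^ 2 * ‖om η x‖ := by
      have := norm_nonneg (om η x)
      nlinarith [mul_nonneg (norm_nonneg c) this]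
    exact h0.trans a2
  have b4 : ‖c‖ * ‖w‖ ≤ 9 * (D + 1) * ‖x‖ := by
    calc ‖c‖ * ‖w‖ ≤ ‖c‖ * (5 * ‖pr p w‖ + ‖om η x‖) := by gcongr
      _ = 5 * (‖c‖ * ‖pr p w‖) + ‖c‖ * ‖om η x‖ := by ring
      _ ≤ 5 * ((D + 1) * ‖x‖) + 4 * D * ‖x‖ := by linarith
      _ ≤ _ := by nlinarith
  have b5 : ‖w‖ ≤ ‖x‖ / 2 := by
    have hc : 0 < ‖c‖ := by linarith
    have : ‖c‖ * ‖w‖ ≤ ‖c‖ * (‖x‖ / 2) := by
      refine b4.trans ?_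
      nlinarith
    exact le_of_mul_le_mul_left this hc
  have b6 : ‖x‖ ≤ 2 * ‖x p‖ := by
    have e : x = x p • η + w := by rw [hw]; abel
    have h1 : ‖x‖ ≤ ‖x p‖ * ‖η‖ + ‖w‖ := by
      conv_lhs => rw [e]
      exact (norm_add_le _ _).trans (by rw [norm_smul])
    have h2 : ‖x p‖ * ‖η‖ ≤ ‖x p‖ * 1 := by gcongr; exact nf.ηn
    linarith
  refine ⟨b6, ?_⟩
  have c1 := zoom_up nb.g1 nb.gn nb.ρ0 hwp
  have c2 := om_g nf nb hwp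
  rw [eo] at c2
  -- multiply by `c²`
  have c3 : ‖c‖ ^ 2 * (‖ρ‖ ^ 2 * ‖Hm p g ρ⁻¹ w‖) ≤
      9 * C * (‖c‖ * ‖ρ‖) * ((D + 1) * ‖x‖) + 4 * D * ‖x‖ := by
    calc ‖c‖ ^ 2 * (‖ρ‖ ^ 2 * ‖Hm p g ρ⁻¹ w‖)
        ≤ ‖c‖ ^ 2 * (5 * (‖ρ‖ * ‖pr p w‖) + (‖om η x‖ + 4 * C * (‖ρ‖ * ‖pr p w‖))) := by
          gcongr; linarith
      _ = (5 + 4 * C) * (‖c‖ * ‖ρ‖) * (‖c‖ * ‖pr p w‖) + ‖c‖ ^ 2 * ‖om η x‖ := by ring
      _ ≤ (9 * C) * (‖c‖ * ‖ρ‖) * ((D + 1) * ‖x‖) + 4 * D * ‖x‖ := by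
          gcongr
          linarith
      _ = _ := by ring
  have hT0 : 1 ≤ ‖c‖ * ‖ρ‖ := by nlinarith
  have c4 : (‖c‖ * ‖ρ‖) * ((‖c‖ * ‖ρ‖) * ‖Hm p g ρ⁻¹ w‖) ≤
      (‖c‖ * ‖ρ‖) * (26 * C * (D + 1) * ‖x p‖) := by
    calc (‖c‖ * ‖ρ‖) * ((‖c‖ * ‖ρ‖) * ‖Hm p g ρ⁻¹ w‖)
        = ‖c‖ ^ 2 * (‖ρ‖ ^ 2 * ‖Hm p g ρ⁻¹ w‖) := by ring
      _ ≤ 9 * C * (‖c‖ * ‖ρ‖) * ((D + 1) * ‖x‖) + 4 * D * ‖x‖ := c3
      _ ≤ 9 * C * (‖c‖ * ‖ρ‖) * ((D + 1) * ‖x‖) + (‖c‖ * ‖ρ‖) * (4 * C * (D + 1) * ‖x‖) := by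
          have h1 : 4 * D * ‖x‖ ≤ 4 * C * (D + 1) * ‖x‖ := by
            have : 4 * D ≤ 4 * C * (D + 1) := by nlinarith
            gcongr
          have h2 : 0 ≤ 4 * C * (D + 1) * ‖x‖ := by positivity
          nlinarith
      _ = (‖c‖ * ‖ρ‖) * (13 * C * (D + 1) * ‖x‖) := by ring
      _ ≤ (‖c‖ * ‖ρ‖) * (13 * C * (D + 1) * (2 * ‖x p‖)) := by gcongr
      _ = _ := by ring
  exact le_of_mul_le_mul_left c4 (by linarith)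

end geo

end Vale.Agent.P092.H217.PK
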