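import Vale.Agent.P092.H217.PK4

/-!
P092, TEAM P, [P-KEY] (helper217), part 5: geometry of one zoomed step, both points.
-/

set_option linter.all false

namespace Vale.Agent.P092.H217.PK

open Finset Matrix
open Vale.Agent.P092.H820 (wd)
open Vale.Agent.P092.H835.PlF (w3 Alt sq sq_wd alt_wd alt_sq bl sq_apply)
open Vale.Agent.P092.H835.PlGr (wd_of_w3)
open Vale.Agent.P092.H835.NF (w3_norm_le sq_le sq_mul sq_smul)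
open Vale.Agent.P092.H87.N (cn mulVec_le)
open Vale.Agent.P092.H589.K2 (mn mn_wd wd_norm_le chain_mn Nrm)

variable {k : Type} [NontriviallyNormedField k]

section geo

variable {p : Fin 4} {C : ℝ} {M A : Matrix (Fin 4) (Fin 4) k} {η g : Fin 4 → k} {c ρ : k}

/-- the threshold of a class -/
noncomputable def T0 (C C₂ C₃ c₀ : ℝ) : ℝ := 1768 * C ^ 2 * C₃ * (16 * C * C₂ + 1) / c₀

lemma geo_far (nf : Nf p C M η c A) (nb : Nb p C η g ρ) {C₂ c₀ : ℝ} (hC₂ : 1 ≤ C₂)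
    (h0 : 0 < c₀) (h0' : c₀ ≤ 1) (hT : 18 * (16 * C * C₂ + 1) ≤ c₀ * (‖c‖ * ‖ρ‖))
    {x y : Fin 4 → k} (hx0 : x ≠ 0) (hx : ‖M *ᵥ x‖ * ‖c‖ ≤ C₂ * ‖x‖) (hy0 : y ≠ 0)
    (hfar : ¬ (‖pr p (y - y p • η)‖ ≤ c₀ * ‖ρ‖ * ‖y‖ ∧ ‖om η y‖ ≤ c₀ * ‖ρ‖ ^ 2 * ‖y‖))
    (hxy : om x y = 0) : c₀ * ‖ρ‖ * ‖y‖ ≤ ‖pr p (y - y p • η)‖ := by
  have hC := nf.C1
  have hTn : 0 ≤ ‖c‖ * ‖ρ‖ := by positivity
  have hT' : 18 * (16 * C * C₂ + 1) ≤ ‖c‖ * ‖ρ‖ := by nlinarith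
  obtain ⟨hxp, -⟩ := geo_x nf nb hC₂ hT' hx
  obtain ⟨a1, a2⟩ := nf.loc hx
  set D := 16 * C * C₂ with hD
  have hD0 : 0 ≤ D := by positivity
  set w := y - y p • η with hw
  set wx := x - x p • η with hwx
  have hwp : w p = 0 := by
    rw [hw, Pi.sub_apply, Pi.smul_apply, nf.ηp, smul_eq_mul, mul_one, sub_self]
  have hwxp : wx p = 0 := by
    rw [hwx, Pi.sub_apply, Pi.smul_apply, nf.ηp, smul_eq_mul, mul_one, sub_self]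
  have hxn : 0 < ‖x‖ := norm_pos_iff.2 hx0
  have hyn : 0 < ‖y‖ := norm_pos_iff.2 hy0
  have hxpn : 0 < ‖x p‖ := by linarith
  -- the relation
  have e1 : x p * om η y = - (om (pr p wx) (pr p w) - y p * om η x) := by
    have e2 : om x y = x p * om η y + om wx y := by
      rw [hwx, om_sub_left, om_smul_left]; ring
    have e3 : om wx y = om (pr p wx) (pr p w) + y p * om wx η := by
      rw [← om_pr hwxp hwp, hw, om_sub_right, om_smul_right]; ring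
    have e4 : om wx η = - om η x := by
      rw [hwx, om_sub_left, om_smul_left, om_self, mul_zero, sub_zero, om_anti]
    rw [hxy, e3, e4] at e2
    linear_combination -e2
  have b1 : ‖x p‖ * ‖om η y‖ ≤ 4 * (‖pr p wx‖ * ‖pr p w‖) + ‖y‖ * ‖om η x‖ := by
    rw [← norm_mul, e1, norm_neg]
    refine (norm_sub_le _ _).trans (add_le_add (norm_om_le _ _) ?_)
    rw [norm_mul]
    gcongr
    exact norm_le_pi_norm _ _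
  have b2 : ‖x p‖ * (‖c‖ ^ 2 * ‖om η y‖) ≤
      ‖x p‖ * (8 * (‖c‖ * (D + 1) * ‖pr p w‖ + D * ‖y‖)) := by
    calc ‖x p‖ * (‖c‖ ^ 2 * ‖om η y‖) = ‖c‖ ^ 2 * (‖x p‖ * ‖om η y‖) := by ring
      _ ≤ ‖c‖ ^ 2 * (4 * (‖pr p wx‖ * ‖pr p w‖) + ‖y‖ * ‖om η x‖) := by gcongr
      _ = 4 * ‖c‖ * (‖c‖ * ‖pr p wx‖) * ‖pr p w‖ + ‖y‖ * (‖c‖ ^ 2 * ‖om η x‖) := by ring
      _ ≤ 4 * ‖c‖ * ((D + 1) * ‖x‖) * ‖pr p w‖ + ‖y‖ * (4 * D * ‖x‖) := by gcongr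
      _ = ‖x‖ * (4 * (‖c‖ * (D + 1) * ‖pr p w‖ + D * ‖y‖)) := by ring
      _ ≤ (2 * ‖x p‖) * (4 * (‖c‖ * (D + 1) * ‖pr p w‖ + D * ‖y‖)) := by gcongr
      _ = _ := by ring
  have b3 := le_of_mul_le_mul_left b2 hxpn
  by_contra hlt
  push Not at hlt
  have h2 : c₀ * ‖ρ‖ ^ 2 * ‖y‖ < ‖om η y‖ := by
    by_contra h3
    exact hfar ⟨hlt.le, not_lt.1 h3⟩
  have hcp : 0 < ‖c‖ := by linarith [nf.c1]
  have h3 : ‖c‖ ^ 2 * (c₀ * ‖ρ‖ ^ 2 * ‖y‖) < ‖c‖ ^ 2 * ‖om η y‖ := by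
    have : 0 < ‖c‖ ^ 2 := by positivity
    exact mul_lt_mul_of_pos_left h2 this
  set T := ‖c‖ * ‖ρ‖ with hTd
  have h4 : ‖c‖ * (D + 1) * ‖pr p w‖ ≤ (D + 1) * (c₀ * T) * ‖y‖ := by
    calc ‖c‖ * (D + 1) * ‖pr p w‖ ≤ ‖c‖ * (D + 1) * (c₀ * ‖ρ‖ * ‖y‖) := by
          gcongr
      _ = _ := by rw [hTd]; ring
  have h5 : c₀ * T ^ 2 * ‖y‖ < 8 * ((D + 1) * (c₀ * T) * ‖y‖ + D * ‖y‖) := by
    have e : ‖c‖ ^ 2 * (c₀ * ‖ρ‖ ^ 2 * ‖y‖) = c₀ * T ^ 2 * ‖y‖ := by rw [hTd]; ring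
    rw [e] at h3
    linarith
  have h6 : c₀ * T ^ 2 < 8 * ((D + 1) * (c₀ * T) + D) := by
    have : c₀ * T ^ 2 * ‖y‖ < 8 * ((D + 1) * (c₀ * T) + D) * ‖y‖ := by
      calc _ < _ := h5
        _ = _ := by ring
    exact lt_of_mul_lt_mul_right this hyn.le
  have h7 : 0 ≤ c₀ * T := by positivity
  nlinarith

set_option maxHeartbeats 1000000 in
/-- **the geometry of one zoomed step** -/
theorem geo (nf : Nf p C M η c A) (nb : Nb p C η g ρ) {C₂ C₃ c₀ : ℝ} (hC₂ : 1 ≤ C₂)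
    (hC₃ : 1 ≤ C₃) (h0 : 0 < c₀) (h0' : c₀ ≤ 1) (hT : T0 C C₂ C₃ c₀ ≤ ‖c‖ * ‖ρ‖)
    {x y : Fin 4 → k} (hx0 : x ≠ 0) (hx : ‖M *ᵥ x‖ * ‖c‖ ≤ C₂ * ‖x‖) (hy0 : y ≠ 0)
    (hn1 : ‖pr p (y - y p • η)‖ ≤ C₃ * ‖ρ‖ * ‖y‖) (hn2 : ‖om η y‖ ≤ C₃ * ‖ρ‖ ^ 2 * ‖y‖)
    (hfar : ¬ (‖pr p (y - y p • η)‖ ≤ c₀ * ‖ρ‖ * ‖y‖ ∧ ‖om η y‖ ≤ c₀ * ‖ρ‖ ^ 2 * ‖y‖))
    (hxy : om x y = 0) :
    c₀ * ‖ρ‖ * ‖Hm p g ρ⁻¹ y‖ ≤ 544 * C ^ 2 * C₃ * ‖M *ᵥ y‖ ∧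
      ‖M *ᵥ x‖ * ‖c‖ ≤ 2 * C₂ * ‖Hm p g ρ⁻¹ x‖ ∧
      c₀ * (‖Hm p g ρ⁻¹ x‖ * ‖Hm p g ρ⁻¹ y‖) ≤
        272 * C ^ 2 * C₃ * ‖wd (Hm p g ρ⁻¹ x) (Hm p g ρ⁻¹ y)‖ := by
  have hC := nf.C1
  have hTn : 0 ≤ ‖c‖ * ‖ρ‖ := by positivity
  have hT1 : 1768 * C ^ 2 * C₃ * (16 * C * C₂ + 1) ≤ c₀ * (‖c‖ * ‖ρ‖) := by
    rw [T0, div_le_iff₀ h0] at hT
    linarith
  have hCC : 1 ≤ C ^ 2 * C₃ := by nlinarith [mul_self_nonneg (C - 1)]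
  have hDp : 0 < 16 * C * C₂ + 1 := by positivity
  have hT2 : 18 * (16 * C * C₂ + 1) ≤ c₀ * (‖c‖ * ‖ρ‖) := by nlinarith
  have hT3 : 18 * (16 * C * C₂ + 1) ≤ ‖c‖ * ‖ρ‖ := by nlinarith
  obtain ⟨hxp, hu⟩ := geo_x nf nb hC₂ hT3 hx
  have hfar' := geo_far nf nb hC₂ h0 h0' hT2 hx0 hx hy0 hfar hxy
  set D := 16 * C * C₂ with hD
  have hD0 : 0 ≤ D := by positivity
  have hη := eta_zoom nf nb
  set w := y - y p • η with hw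
  set wx := x - x p • η with hwx
  have hwp : w p = 0 := by
    rw [hw, Pi.sub_apply, Pi.smul_apply, nf.ηp, smul_eq_mul, mul_one, sub_self]
  have hxn : 0 < ‖x‖ := norm_pos_iff.2 hx0
  have hyn : 0 < ‖y‖ := norm_pos_iff.2 hy0
  have hxpn : 0 < ‖x p‖ := by linarith
  have hρ' : 0 < ‖ρ‖ := norm_pos_iff.2 nb.ρ0
  set T := ‖c‖ * ‖ρ‖ with hTd
  set u := Hm p g ρ⁻¹ wx with hud
  set v := Hm p g ρ⁻¹ w with hvd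
  set η' := Hm p g ρ⁻¹ η with hη'
  have ex : Hm p g ρ⁻¹ x = x p • η' + u := by
    rw [hud, hη', hwx, map_sub, map_smul]; abel
  have ey : Hm p g ρ⁻¹ y = y p • η' + v := by
    rw [hvd, hη', hw, map_sub, map_smul]; abel
  -- bounds of the second point
  have hv1 : ‖ρ‖ ^ 2 * ‖v‖ ≤ ‖ρ‖ ^ 2 * (10 * C * C₃ * ‖y‖) := by
    have h1 := zoom_up nb.g1 nb.gn nb.ρ0 hwp
    have h2 := om_g nf nb hwp
    have e : om η w = om η y := by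
      rw [hw, om_sub_right, om_smul_right, om_self, mul_zero, sub_zero]
    rw [e] at h2
    have h3 : ‖ρ‖ * ‖pr p w‖ ≤ ‖ρ‖ * (C₃ * ‖ρ‖ * ‖y‖) := by gcongr
    have h4 : 0 ≤ ‖ρ‖ * ‖pr p w‖ := by positivity
    have h5 : 4 * C * (‖ρ‖ * ‖pr p w‖) ≤ 4 * C * (‖ρ‖ * (C₃ * ‖ρ‖ * ‖y‖)) := by gcongr
    have h6 : 0 ≤ ‖ρ‖ ^ 2 * C₃ * ‖y‖ := by positivity
    calc ‖ρ‖ ^ 2 * ‖v‖ ≤ 5 * (‖ρ‖ * ‖pr p w‖) + ‖om g w‖ := h1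
      _ ≤ 5 * (‖ρ‖ * (C₃ * ‖ρ‖ * ‖y‖)) + (C₃ * ‖ρ‖ ^ 2 * ‖y‖ +
            4 * C * (‖ρ‖ * (C₃ * ‖ρ‖ * ‖y‖))) := by linarith
      _ = (6 + 4 * C) * (‖ρ‖ ^ 2 * C₃ * ‖y‖) := by ring
      _ ≤ (10 * C) * (‖ρ‖ ^ 2 * C₃ * ‖y‖) := by gcongr; linarith
      _ = _ := by ring
  have hv2 : ‖v‖ ≤ 10 * C * C₃ * ‖y‖ := le_of_mul_le_mul_left hv1 (by positivity)
  have hy2 : ‖Hm p g ρ⁻¹ y‖ ≤ 17 * C * C₃ * ‖y‖ := by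
    rw [ey]
    refine (norm_add_le _ _).trans ?_
    rw [norm_smul]
    have h1 : ‖y p‖ * ‖η'‖ ≤ ‖y‖ * (7 * C) := by
      gcongr
      exact norm_le_pi_norm _ _
    nlinarith [mul_nonneg (by positivity : (0:ℝ) ≤ C) hyn.le]
  have hv3 : c₀ * ‖y‖ ≤ ‖v‖ := by
    have h1 := zoom_low (g := g) nb.ρ0 hwp
    have h2 : ‖ρ‖ * (c₀ * ‖y‖) ≤ ‖ρ‖ * ‖v‖ := by
      calc ‖ρ‖ * (c₀ * ‖y‖) = c₀ * ‖ρ‖ * ‖y‖ := by ring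
        _ ≤ _ := hfar'
        _ ≤ _ := h1
    exact le_of_mul_le_mul_left h2 hρ'
  refine ⟨?_, ?_, ?_⟩
  · calc c₀ * ‖ρ‖ * ‖Hm p g ρ⁻¹ y‖ ≤ c₀ * ‖ρ‖ * (17 * C * C₃ * ‖y‖) := by gcongr
      _ = 17 * C * C₃ * (c₀ * ‖ρ‖ * ‖y‖) := by ring
      _ ≤ 17 * C * C₃ * (32 * C * ‖M *ᵥ y‖) :=
          mul_le_mul_of_nonneg_left (hfar'.trans (nf.pr_low y)) (by positivity)
      _ = _ := by ring
  · have h1 : ‖x p‖ ≤ ‖Hm p g ρ⁻¹ x‖ := by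
      have := norm_le_pi_norm (Hm p g ρ⁻¹ x) p
      rwa [Hm_p nb.g1] at this
    calc _ ≤ C₂ * ‖x‖ := hx
      _ ≤ C₂ * (2 * ‖Hm p g ρ⁻¹ x‖) := by gcongr; linarith
      _ = _ := by ring
  · -- separation
    have hηp : η' p = 1 := by rw [hη', Hm_p nb.g1, nf.ηp]
    have hvp : v p = 0 := by rw [hvd, Hm_p nb.g1, hwp]
    have s1 : ‖v‖ ≤ ‖wd η' (Hm p g ρ⁻¹ y)‖ := by
      refine (pi_norm_le_iff_of_nonneg (norm_nonneg _)).2 fun i => ?_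
      have h1 := norm_le_pi_norm (wd η' (Hm p g ρ⁻¹ y)) (p, i)
      have e : wd η' (Hm p g ρ⁻¹ y) (p, i) = v i := by
        rw [ey]
        simp only [wd, Pi.add_apply, Pi.smul_apply, smul_eq_mul, hηp, hvp]; ring
      rwa [e] at h1
    have s2 : wd (Hm p g ρ⁻¹ x) (Hm p g ρ⁻¹ y) =
        x p • wd η' (Hm p g ρ⁻¹ y) + wd u (Hm p g ρ⁻¹ y) := by
      rw [ex]
      funext q
      simp only [wd, Pi.add_apply, Pi.smul_apply, smul_eq_mul]; ring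
    have s3 : ‖x p‖ * ‖wd η' (Hm p g ρ⁻¹ y)‖ ≤
        ‖wd (Hm p g ρ⁻¹ x) (Hm p g ρ⁻¹ y)‖ + 2 * (‖u‖ * ‖Hm p g ρ⁻¹ y‖) := by
      rw [← norm_smul]
      have h1 : x p • wd η' (Hm p g ρ⁻¹ y) =
          wd (Hm p g ρ⁻¹ x) (Hm p g ρ⁻¹ y) - wd u (Hm p g ρ⁻¹ y) := by rw [s2]; abel
      rw [h1]
      exact (norm_sub_le _ _).trans (add_le_add le_rfl (wd_norm_le _ _))
    have hTp : 0 < T := by nlinarith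
    -- the small part
    have s4 : 68 * C * C₃ * ‖u‖ ≤ c₀ * ‖x p‖ := by
      have h1 : T * (68 * C * C₃ * ‖u‖) ≤ T * (c₀ * ‖x p‖) := by
        calc T * (68 * C * C₃ * ‖u‖) = 68 * C * C₃ * (T * ‖u‖) := by ring
          _ ≤ 68 * C * C₃ * (26 * C * (D + 1) * ‖x p‖) := by gcongr
          _ = (1768 * C ^ 2 * C₃ * (D + 1)) * ‖x p‖ := by ring
          _ ≤ (c₀ * T) * ‖x p‖ := by gcongr
          _ = _ := by ring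
      exact le_of_mul_le_mul_left h1 hTp
    have s5 : ‖Hm p g ρ⁻¹ x‖ ≤ 8 * C * ‖x p‖ := by
      rw [ex]
      refine (norm_add_le _ _).trans ?_
      rw [norm_smul]
      have h1 : ‖u‖ ≤ ‖x p‖ := by
        have h2 : 1 ≤ 68 * C * C₃ := by nlinarith
        have h3 : ‖u‖ ≤ 68 * C * C₃ * ‖u‖ := le_mul_of_one_le_left (norm_nonneg _) h2
        have h4 : c₀ * ‖x p‖ ≤ ‖x p‖ := mul_le_of_le_one_left hxpn.le h0'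
        linarith
      have h2 : ‖x p‖ * ‖η'‖ ≤ ‖x p‖ * (7 * C) := by gcongr
      nlinarith
    set Y := ‖Hm p g ρ⁻¹ y‖ with hY
    have hY0 : 0 ≤ Y := norm_nonneg _
    set Wn := ‖wd (Hm p g ρ⁻¹ x) (Hm p g ρ⁻¹ y)‖ with hWn
    have s6 : c₀ * Y ≤ 17 * C * C₃ * ‖v‖ := by
      calc c₀ * Y ≤ c₀ * (17 * C * C₃ * ‖y‖) := by gcongr
        _ = 17 * C * C₃ * (c₀ * ‖y‖) := by ring
        _ ≤ _ := by gcongr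
    have s7 : c₀ * (‖x p‖ * Y) ≤ 34 * C * C₃ * Wn := by
      have h2 : 17 * C * C₃ * (‖x p‖ * ‖v‖) ≤ 17 * C * C₃ * (Wn + 2 * (‖u‖ * Y)) :=
        mul_le_mul_of_nonneg_left ((mul_le_mul_of_nonneg_left s1 hxpn.le).trans s3)
          (by positivity)
      have h3 : (68 * C * C₃ * ‖u‖) * Y ≤ (c₀ * ‖x p‖) * Y :=
        mul_le_mul_of_nonneg_right s4 hY0
      have h4 : c₀ * (‖x p‖ * Y) ≤ 17 * C * C₃ * Wn + (1 / 2) * (c₀ * (‖x p‖ * Y)) := by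
        calc c₀ * (‖x p‖ * Y) = ‖x p‖ * (c₀ * Y) := by ring
          _ ≤ ‖x p‖ * (17 * C * C₃ * ‖v‖) := mul_le_mul_of_nonneg_left s6 hxpn.le
          _ = 17 * C * C₃ * (‖x p‖ * ‖v‖) := by ring
          _ ≤ 17 * C * C₃ * (Wn + 2 * (‖u‖ * Y)) := h2
          _ = 17 * C * C₃ * Wn + (1 / 2) * ((68 * C * C₃ * ‖u‖) * Y) := by ring
          _ ≤ 17 * C * C₃ * Wn + (1 / 2) * ((c₀ * ‖x p‖) * Y) := by linarith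
          _ = _ := by ring
      linarith
    calc c₀ * (‖Hm p g ρ⁻¹ x‖ * Y) ≤ c₀ * ((8 * C * ‖x p‖) * Y) := by gcongr
      _ = 8 * C * (c₀ * (‖x p‖ * Y)) := by ring
      _ ≤ 8 * C * (34 * C * C₃ * Wn) := by gcongr
      _ = _ := by ring

end geo

end Vale.Agent.P092.H217.PK
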