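import Vale.Agent.P092.H217.PK6a
import Vale.Agent.P092.H589.K2y

/-!
P092, TEAM P, [P-KEY] (helper217), part 6: **the estimate of one class** `unit1` (near-1-wall
elements of `Sp_4`).
-/

set_option linter.all false

namespace Vale.Agent.P092.H217.PK

open Finset Matrix
open Vale.Agent.P092.H820 (wd)
open Vale.Agent.P092.H464 (Pv CI)
open Vale.Agent.P092.H835.PlF (w3 Alt sq sq_wd alt_wd alt_sq bl sq_apply)
open Vale.Agent.P092.H835.PlGr (wd_of_w3)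
open Vale.Agent.P092.H835.NF (w3_norm_le sq_le sq_mul sq_smul)
open Vale.Agent.P092.H87.N (cn mulVec_le)
open Vale.Agent.P092.H589.K2 (mn mn_wd wd_norm_le chain_mn Nrm nrm_ne nrm_one w3_sq Tame Opf Cells
  exists_nrm)
open Vale.Agent.P092.H589.Mu (Cap)

section small

variable {k : Type} [NontriviallyNormedField k]
variable {p : Fin 4} {C : ℝ} {M A : Matrix (Fin 4) (Fin 4) k} {η g : Fin 4 → k} {c ρ : k}

lemma Nf.mono {C' : ℝ} (h : Nf p C M η c A) (hC : C ≤ C') : Nf p C' M η c A :=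
  ⟨h.eq, h.c1, h.ηp, h.ηn, h.C1.trans hC, fun i j => (h.An i j).trans hC, h.sy⟩

lemma Nb.mono {C' : ℝ} (h : Nb p C η g ρ) (hC : C ≤ C') : Nb p C' η g ρ :=
  ⟨h.g1, h.gn, h.d1.trans (by gcongr), h.d2.trans (by gcongr), h.ρ0, h.ρ1⟩

lemma wd_p (hη : η p = 1) (x : Fin 4 → k) : ‖x - x p • η‖ ≤ ‖wd x η‖ := by
  refine (pi_norm_le_iff_of_nonneg (norm_nonneg _)).2 fun i => ?_
  have h1 := norm_le_pi_norm (wd x η) (i, p)
  have e : wd x η (i, p) = (x - x p • η) i := by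
    simp only [wd, hη, Pi.sub_apply, Pi.smul_apply, smul_eq_mul, mul_one]
  rwa [e] at h1

lemma wd_sub_p (x : Fin 4 → k) : wd x η = wd (x - x p • η) η := by
  funext q
  simp only [wd, Pi.sub_apply, Pi.smul_apply, smul_eq_mul]; ring

lemma nb_of {C₃ : ℝ} (hηp : η p = 1) (hηn : ‖η‖ ≤ 1) (hgp : g p = 1) (hgn : ‖g‖ ≤ 1)
    (hρ0 : ρ ≠ 0) (hρ1 : ‖ρ‖ ≤ 1) {x : Fin 4 → k} (hx : Nrm x) (h₃ : 1 ≤ C₃)
    (a1 : ‖wd x η‖ ≤ C₃ * ‖ρ‖) (a2 : ‖om x η‖ ≤ C₃ * ‖ρ‖ ^ 2) (b1 : ‖wd x g‖ ≤ C₃ * ‖ρ‖)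
    (b2 : ‖om x g‖ ≤ C₃ * ‖ρ‖ ^ 2) : Nb p (24 * C₃ ^ 2) η g ρ := by
  have hρ : 0 < ‖ρ‖ := norm_pos_iff.2 hρ0
  have hxn := nrm_one hx
  have u1 : ‖x - x p • η‖ ≤ C₃ * ‖ρ‖ := (wd_p hηp x).trans a1
  have v1 : ‖x - x p • g‖ ≤ C₃ * ‖ρ‖ := (wd_p hgp x).trans b1
  have hCC : C₃ ≤ C₃ ^ 2 := by nlinarith
  by_cases hs : C₃ * ‖ρ‖ ≤ 1 / 2
  · have hxp : 1 / 2 ≤ ‖x p‖ := by
      have e : x = x p • η + (x - x p • η) := by abel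
      have h1 : ‖x‖ ≤ ‖x p‖ * ‖η‖ + ‖x - x p • η‖ := by
        conv_lhs => rw [e]
        exact (norm_add_le _ _).trans (by rw [norm_smul])
      have h2 : ‖x p‖ * ‖η‖ ≤ ‖x p‖ := mul_le_of_le_one_right (norm_nonneg _) hηn
      linarith
    have hxp1 : ‖x p‖ ≤ 1 := (norm_le_pi_norm x p).trans hxn.le
    refine ⟨hgp, hgn, ?_, ?_, hρ0, hρ1⟩
    · have e : x p • (η - g) = (x - x p • g) - (x - x p • η) := by rw [smul_sub]; abel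
      have h1 : ‖x p‖ * ‖η - g‖ ≤ 2 * (C₃ * ‖ρ‖) := by
        rw [← norm_smul, e]
        refine (norm_sub_le _ _).trans ?_
        linarith
      have h2 : 1 / 2 * ‖η - g‖ ≤ ‖x p‖ * ‖η - g‖ :=
        mul_le_mul_of_nonneg_right hxp (norm_nonneg _)
      have h3 : C₃ * ‖ρ‖ ≤ C₃ ^ 2 * ‖ρ‖ := by gcongr
      have h4 : 0 ≤ C₃ ^ 2 * ‖ρ‖ := by positivity
      linarith
    · have e : (x p) ^ 2 * om η g = x p * om x g - x p * om x η +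
          om (x - x p • η) (x - x p • g) := by
        rw [om_sub_left, om_sub_right, om_sub_right, om_smul_left, om_smul_left, om_smul_right,
          om_smul_right, om_self, om_anti η x]
        ring
      have h1 : ‖x p‖ ^ 2 * ‖om η g‖ ≤ 6 * (C₃ ^ 2 * ‖ρ‖ ^ 2) := by
        rw [← norm_pow, ← norm_mul, e]
        refine (norm_add_le _ _).trans ?_
        have h2 := norm_sub_le (x p * om x g) (x p * om x η)
        rw [norm_mul, norm_mul] at h2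
        have h3 : ‖x p‖ * ‖om x g‖ ≤ 1 * (C₃ * ‖ρ‖ ^ 2) := by gcongr
        have h4 : ‖x p‖ * ‖om x η‖ ≤ 1 * (C₃ * ‖ρ‖ ^ 2) := by gcongr
        have h5 := norm_om_le (x - x p • η) (x - x p • g)
        have h6 : 4 * (‖x - x p • η‖ * ‖x - x p • g‖) ≤ 4 * ((C₃ * ‖ρ‖) * (C₃ * ‖ρ‖)) := by
          gcongr
        have h7 : C₃ * ‖ρ‖ ^ 2 ≤ C₃ ^ 2 * ‖ρ‖ ^ 2 := by gcongr
        nlinarith
      have h2 : (1 / 4 : ℝ) ≤ ‖x p‖ ^ 2 := by nlinarith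
      have h3 : 1 / 4 * ‖om η g‖ ≤ ‖x p‖ ^ 2 * ‖om η g‖ := by gcongr
      linarith
  · push Not at hs
    have h1 : ‖η - g‖ ≤ 2 := (norm_sub_le _ _).trans (by linarith)
    have h2 : ‖om η g‖ ≤ 4 := by
      refine (norm_om_le _ _).trans ?_
      have : ‖η‖ * ‖g‖ ≤ 1 * 1 := mul_le_mul hηn hgn (norm_nonneg _) zero_le_one
      linarith
    have h3 : C₃ * ‖ρ‖ ≤ C₃ ^ 2 * ‖ρ‖ := by gcongr
    have h4 : 1 / 4 ≤ C₃ ^ 2 * ‖ρ‖ ^ 2 := by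
      have : (1 / 2) ^ 2 ≤ (C₃ * ‖ρ‖) ^ 2 := by gcongr
      calc (1 / 4 : ℝ) = (1 / 2) ^ 2 := by norm_num
        _ ≤ (C₃ * ‖ρ‖) ^ 2 := this
        _ = _ := by ring
    refine ⟨hgp, hgn, by linarith, by linarith, hρ0, hρ1⟩

/-- far in the wedge form gives far in the coordinate form -/
lemma far_of {c₀ : ℝ} (hηp : η p = 1) (hηn : ‖η‖ ≤ 1) (hρ1 : ‖ρ‖ ≤ 1) (h0 : 0 < c₀)
    {y : Fin 4 → k} (hy : Nrm y)
    (h : ¬ (‖wd y η‖ ≤ c₀ * ‖ρ‖ ∧ ‖om y η‖ ≤ c₀ * ‖ρ‖ ^ 2)) :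
    ¬ (‖pr p (y - y p • η)‖ ≤ min c₀ 1 / 12 * ‖ρ‖ * ‖y‖ ∧
      ‖om η y‖ ≤ min c₀ 1 / 12 * ‖ρ‖ ^ 2 * ‖y‖) := by
  rintro ⟨h1, h2⟩
  rw [nrm_one hy, mul_one] at h1 h2
  have hm : min c₀ 1 ≤ c₀ := min_le_left _ _
  have hm0 : 0 < min c₀ 1 := lt_min h0 one_pos
  have hρ := norm_nonneg ρ
  refine h ⟨?_, ?_⟩
  · have h3 := norm_le_pr hηp (y - y p • η)
    rw [om_sub_right, om_smul_right, om_self, mul_zero, sub_zero] at h3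
    have h4 : ‖ρ‖ ^ 2 ≤ ‖ρ‖ := by nlinarith
    have h5 : ‖y - y p • η‖ ≤ 5 * (min c₀ 1 / 12 * ‖ρ‖) + min c₀ 1 / 12 * ‖ρ‖ := by
      have h6 : (1 + 4 * ‖η‖) * ‖pr p (y - y p • η)‖ ≤ 5 * (min c₀ 1 / 12 * ‖ρ‖) := by
        gcongr
        linarith
      have h7 : min c₀ 1 / 12 * ‖ρ‖ ^ 2 ≤ min c₀ 1 / 12 * ‖ρ‖ := by gcongr
      linarith
    rw [wd_sub_p (p := p) y]
    refine (wd_norm_le _ _).trans ?_
    have h8 : ‖y - y p • η‖ * ‖η‖ ≤ ‖y - y p • η‖ :=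
      mul_le_of_le_one_right (norm_nonneg _) hηn
    have h9 : min c₀ 1 * ‖ρ‖ ≤ c₀ * ‖ρ‖ := by gcongr
    linarith
  · rw [om_anti, norm_neg]
    refine h2.trans ?_
    have h3 : min c₀ 1 / 12 ≤ c₀ := by linarith
    gcongr

lemma near_of {C₃ : ℝ} (hηp : η p = 1) {y : Fin 4 → k} (hy : Nrm y)
    (h1 : ‖wd y η‖ ≤ C₃ * ‖ρ‖) (h2 : ‖om y η‖ ≤ C₃ * ‖ρ‖ ^ 2) :
    ‖pr p (y - y p • η)‖ ≤ C₃ * ‖ρ‖ * ‖y‖ ∧ ‖om η y‖ ≤ C₃ * ‖ρ‖ ^ 2 * ‖y‖ := by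
  rw [nrm_one hy, mul_one, mul_one]
  exact ⟨(norm_pr_le _ _).trans ((wd_p hηp y).trans h1), by rwa [om_anti, norm_neg]⟩

end small

section unit1

variable {𝕜 : Type} [NontriviallyNormedField 𝕜] [ProperSpace 𝕜] [MeasurableSpace 𝕜]
  [BorelSpace 𝕜] {K : Type} [NormedAddCommGroup K] [InnerProductSpace ℂ K] [CompleteSpace K]

lemma sq_om {M : Matrix (Fin 4) (Fin 4) 𝕜} {m : 𝕜}
    (hM : ∀ v w, om (M *ᵥ v) (M *ᵥ w) = m * om v w) {x : Fin 4 → 𝕜} {P : Fin 4 × Fin 4 → 𝕜}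
    (hx : x ≠ 0) (hP : w3 x P = 0) (h : P (0, 3) + P (1, 2) = 0) :
    (sq M *ᵥ P) (0, 3) + (sq M *ᵥ P) (1, 2) = 0 := by
  obtain ⟨n, rfl⟩ := wd_of_w3 hx hP
  rw [sq_wd, ← om_of_wd, hM, om_of_wd, h, mul_zero]

/-- isotropy is preserved by a similitude (form of the coordinate `Fin.rev`) -/
lemma sq_om' {M : Matrix (Fin 4) (Fin 4) 𝕜} {m : 𝕜}
    (hM : ∀ v w, om (M *ᵥ v) (M *ᵥ w) = m * om v w) {P : Fin 4 × Fin 4 → 𝕜}
    (hA : Alt P) : (sq M *ᵥ P) (0, 3) + (sq M *ᵥ P) (1, 2) =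
      m * (P (0, 3) + P (1, 2)) := by
  have key : ∀ i j : Fin 4, M 0 i * M 3 j + M 1 i * M 2 j - M 2 i * M 1 j - M 3 i * M 0 j =
      m * om (Pi.single i 1) (Pi.single j 1) := by
    intro i j
    rw [← hM]
    simp [om, Matrix.mulVec_single]
  rw [sq_apply, sq_apply]
  simp only [bl, Fin.sum_univ_four, hA.diag, hA.anti 1 0, hA.anti 2 0, hA.anti 3 0, hA.anti 2 1,
    hA.anti 3 1, hA.anti 3 2]
  have h01 := key 0 1
  have h02 := key 0 2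
  have h03 := key 0 3
  have h12 := key 1 2
  have h13 := key 1 3
  have h23 := key 2 3
  simp [om] at h01 h02 h03 h12 h13 h23
  linear_combination P (0, 1) * h01 + P (0, 2) * h02 + P (0, 3) * h03 + P (1, 2) * h12 +
    P (1, 3) * h13 + P (2, 3) * h23

set_option maxHeartbeats 1000000 in
/-- **the estimate of one class** -/
theorem unit1 (cl : Cells 𝕜) {φ : (Fin 4 × Fin 4 → 𝕜) → ℂ} (hφ : Tame K φ) (C C₂ C₃ c₀ : ℝ)
    (hC : 1 ≤ C) (h₂ : 1 ≤ C₂) (h₃ : 1 ≤ C₃) (h0 : 0 < c₀) :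
    ∃ T₀ C' : ℝ, 1 ≤ T₀ ∧ 0 ≤ C' ∧
    ∀ (X Y : Type) [TopologicalSpace X] [CompactSpace X] [TopologicalSpace.MetrizableSpace X]
      [MeasurableSpace X] [BorelSpace X] [TopologicalSpace Y] [CompactSpace Y]
      [TopologicalSpace.MetrizableSpace Y] [MeasurableSpace Y] [BorelSpace Y]
      (s : X → Fin 4 → 𝕜) (q : Y → Fin 4 × Fin 4 → 𝕜), (∀ x, Nrm (s x)) → Measurable q →
      (∀ y, Nrm (q y)) → (∀ y, Alt (q y)) → (∀ y, q y (0, 3) + q y (1, 2) = 0) →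
      ∀ Inc : X → Y → Prop, IsClosed {z : X × Y | Inc z.1 z.2} →
      (∀ x y, Inc x y → w3 (s x) (q y) = 0) →
      ∀ (b z : C(X, ℂ) →⋆ₐ[ℂ] (K →L[ℂ] K)) (l n : C(Y, ℂ) →⋆ₐ[ℂ] (K →L[ℂ] K)),
      CI Inc (H466.pv b) (H466.pv n) → CI Inc (H466.pv z) (H466.pv n) →
      CI Inc (H466.pv z) (H466.pv l) →
      ∀ (κ : Type) (S : Finset κ) (p : Fin 4) (M A : κ → Matrix (Fin 4) (Fin 4) 𝕜)
        (η : κ → Fin 4 → 𝕜) (c : κ → 𝕜) (m : ℝ), 1 ≤ m →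
      (∀ k ∈ S, Nf p C (M k) (η k) (c k) (A k)) →
      (∀ k ∈ S, m ≤ ‖c k‖ ∧ ‖c k‖ ≤ C * m) →
      ∀ ρ : 𝕜, ρ ≠ 0 → ‖ρ‖ ≤ 1 → T₀ ≤ m * ‖ρ‖ →
      ∀ B : κ → Set X, (∀ k ∈ S, IsClosed (B k)) →
      (∀ k ∈ S, ∀ x ∈ B k, ‖M k *ᵥ s x‖ * m ≤ C₂) →
      ∀ A' : Set X, MeasurableSet A' →
      (∀ k ∈ S, ∀ x ∈ A', ‖wd (s x) (η k)‖ ≤ C₃ * ‖ρ‖ ∧ ‖om (s x) (η k)‖ ≤ C₃ * ‖ρ‖ ^ 2) →
      (∀ k ∈ S, ∀ x ∈ A', ¬ (‖wd (s x) (η k)‖ ≤ c₀ * ‖ρ‖ ∧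
        ‖om (s x) (η k)‖ ≤ c₀ * ‖ρ‖ ^ 2)) →
      ∀ (E W : κ → (K →L[ℂ] K)) (F : κ → Y → ℂ) (N : ℝ), 0 ≤ N →
      (∀ k ∈ S, E k * H466.pv b (B k) = E k) →
      (∀ k ∈ S, ∀ D, MeasurableSet D → E k * H466.pv n D = H466.pv n D * E k) → Cap S E N →
      (∀ k ∈ S, ∀ y, F k y = φ (sq (M k) *ᵥ q y)) → (∀ k ∈ S, Measurable (F k)) →
      (∀ k ∈ S, Opf (H466.pv l) (F k) (W k)) →
      (∀ k ∈ S, ∀ D, MeasurableSet D → W k * H466.pv z D = H466.pv z D * W k) →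
      ∀ v, ∑ k ∈ S, ‖E k (W k (H466.pv z A' v))‖ ^ 2 ≤
        (C' * (1 + Real.log m) * N) ^ 2 * ‖H466.pv z A' v‖ ^ 2 := by
  classical
  set C₄ : ℝ := max C (24 * C₃ ^ 2) with hC₄
  have hC₄C : C ≤ C₄ := le_max_left _ _
  have hC₄1 : 1 ≤ C₄ := hC.trans hC₄C
  have hC₄3 : 24 * C₃ ^ 2 ≤ C₄ := le_max_right _ _
  set c₁ : ℝ := min c₀ 1 / 12 with hc₁
  have hc₁0 : 0 < c₁ := by have : 0 < min c₀ 1 := lt_min h0 one_pos; positivity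
  have hc₁1 : c₁ ≤ 1 := by have : min c₀ 1 ≤ 1 := min_le_right _ _; rw [hc₁]; linarith
  have hCC₂ : 1 ≤ C * C₂ := one_le_mul_of_one_le_of_one_le hC h₂
  set T₀ : ℝ := max 1 (T0 C₄ (C * C₂) C₃ c₁) with hT₀
  set C₁ : ℝ := max (122880 * C₄ ^ 4) (Ci C₄ (C * C₂) C₃ c₁) with hC₁
  have hbig : 1 ≤ 122880 * C₄ ^ 4 := by
    have : 1 ≤ C₄ ^ 4 := one_le_pow₀ hC₄1
    linarith
  have hC₁1 : 1 ≤ C₁ := hbig.trans (le_max_left _ _)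
  obtain ⟨CU, hCU0, hCU⟩ := H589.K2.unit (β := Fin 4 × Fin 4) (γ := Fin 4 × Fin 4) cl hφ C₁ hC₁1
  set Q : ℝ := 122880 * C₄ ^ 4 * C ^ 2 with hQ
  have hQ1 : 1 ≤ Q := one_le_mul_of_one_le_of_one_le hbig (one_le_pow₀ hC)
  have hl2 : 0 < Real.log 2 := Real.log_pos one_lt_two
  have hlQ : 0 ≤ Real.log Q := Real.log_nonneg hQ1
  refine ⟨T₀, CU * (2 + (Real.log Q + 2) / Real.log 2), le_max_left _ _, by positivity, ?_⟩
  intro X Y _ _ _ _ _ _ _ _ _ _ s q hs hqm hqn hqA hq0 Inc hI hinc b z l n hbn hzn hzl κ S p M A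
    η c m hm hnf hcm ρ hρ0 hρ1 hTρ B hB hBx A' hA' hnear hfar E W F N hN hEB hEn hcap hF hFm hW
    hWz v
  have hlm : 0 ≤ Real.log m := Real.log_nonneg hm
  have hfin0 : 0 ≤ (CU * (2 + (Real.log Q + 2) / Real.log 2) * (1 + Real.log m) * N) ^ 2 *
      ‖H466.pv z A' v‖ ^ 2 := by positivity
  rcases S.eq_empty_or_nonempty with rfl | ⟨k0, hk0⟩
  · simpa using hfin0
  rcases A'.eq_empty_or_nonempty with rfl | ⟨x0, hx0⟩
  · rw [(H604.pv_Pv z).empty]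
    simp
  -- the base point
  set g : Fin 4 → 𝕜 := η k0 with hg
  have nf0 := hnf k0 hk0
  have nf : ∀ k ∈ S, Nf p C₄ (M k) (η k) (c k) (A k) := fun k hk => (hnf k hk).mono hC₄C
  have nb : ∀ k ∈ S, Nb p C₄ (η k) g ρ := fun k hk =>
    (nb_of (hnf k hk).ηp (hnf k hk).ηn nf0.ηp nf0.ηn hρ0 hρ1 (hs x0) h₃ (hnear k hk x0 hx0).1
      (hnear k hk x0 hx0).2 (hnear k0 hk0 x0 hx0).1 (hnear k0 hk0 x0 hx0).2).mono hC₄3
  have hρn : 0 < ‖ρ‖ := norm_pos_iff.2 hρ0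
  have hTk : ∀ k ∈ S, T₀ ≤ ‖c k‖ * ‖ρ‖ := fun k hk =>
    hTρ.trans (mul_le_mul_of_nonneg_right (hcm k hk).1 hρn.le)
  have hTk1 : ∀ k ∈ S, 1 ≤ ‖c k‖ * ‖ρ‖ := fun k hk => (le_max_left _ _).trans (hTk k hk)
  have hTk2 : ∀ k ∈ S, T0 C₄ (C * C₂) C₃ c₁ ≤ ‖c k‖ * ‖ρ‖ := fun k hk =>
    (le_max_right _ _).trans (hTk k hk)
  -- the zoomed representative
  have hback : ∀ y, sq (HM p g ρ) *ᵥ (sq (HM p g ρ⁻¹) *ᵥ q y) = q y := by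
    intro y
    have e : HM p g ρ * HM p g ρ⁻¹ = 1 := by
      refine (Matrix.toLin' (R := 𝕜)).injective (LinearMap.ext fun w => ?_)
      rw [Matrix.toLin'_apply, Matrix.toLin'_apply, ← Matrix.mulVec_mulVec, HM_mulVec, HM_mulVec,
        Hm_inv nf0.ηp hρ0, Matrix.one_mulVec]
    have e1 : (H835.PlF.sq (1 : Matrix (Fin 4) (Fin 4) 𝕜)) = 1 := Matrix.one_kronecker_one
    rw [Matrix.mulVec_mulVec, ← sq_mul, e, e1, Matrix.one_mulVec]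
  have hpm : Measurable fun y => sq (HM p g ρ⁻¹) *ᵥ q y := by
    have hc : Continuous fun w : Fin 4 × Fin 4 → 𝕜 => sq (HM p g ρ⁻¹) *ᵥ w :=
      Continuous.matrix_mulVec continuous_const continuous_id
    exact hc.measurable.comp hqm
  obtain ⟨q', hqm', hq'⟩ := exists_nrm hpm (fun y h1 => by
    have h2 := hback y
    rw [h1, Matrix.mulVec_zero] at h2
    exact nrm_ne (hqn y) h2.symm)
  choose hqn' t ht0 hqt using hq'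
  have hqA' : ∀ y, Alt (q' y) := fun y => by
    rw [hqt y]
    have h := alt_sq (HM p g ρ⁻¹) (hqA y)
    exact ⟨fun a => by rw [Pi.smul_apply, h.diag, smul_zero],
      fun a b => by rw [Pi.smul_apply, Pi.smul_apply, h.anti a b, smul_neg]⟩
  have hHsy : ∀ v w, om (HM p g ρ⁻¹ *ᵥ v) (HM p g ρ⁻¹ *ᵥ w) = (ρ⁻¹) ^ 2 * om v w := fun v w => by
    rw [HM_mulVec, HM_mulVec, om_Hm nf0.ηp]
  have hq0' : ∀ y, q' y (0, 3) + q' y (1, 2) = 0 := fun y => by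
    rw [hqt y, Pi.smul_apply, Pi.smul_apply, ← smul_add, sq_om' hHsy (hqA y), hq0 y, mul_zero,
      smul_zero]
  have hpq : ∀ y, q y = (t y)⁻¹ • (sq (HM p g ρ) *ᵥ q' y) := by
    intro y
    rw [hqt y, Matrix.mulVec_smul, smul_smul, inv_mul_cancel₀ (ht0 y), one_smul, hback]
  -- lower bound
  have hlow : ∀ k ∈ S, ∀ y, 1 ≤ Q * m ^ 2 * ‖Lz (M k) p g (c k) ρ (q' y)‖ := by
    intro k hk y
    have h1 := Lz_low (nf k hk) (nb k hk) (hTk1 k hk) (hqA' y)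
    rw [nrm_one (hqn' y)] at h1
    refine h1.trans ?_
    have h2 : ‖c k‖ * ‖ρ‖ ≤ C * m := by
      calc ‖c k‖ * ‖ρ‖ ≤ ‖c k‖ * 1 := by gcongr
        _ ≤ C * m := by rw [mul_one]; exact (hcm k hk).2
    calc _ ≤ 122880 * C₄ ^ 4 * (C * m) ^ 2 * ‖Lz (M k) p g (c k) ρ (q' y)‖ := by gcongr
      _ = _ := by rw [hQ]; ring
  -- the number of scales
  have hQm : 1 ≤ Q * m ^ 2 := one_le_mul_of_one_le_of_one_le hQ1 (one_le_pow₀ hm)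
  obtain ⟨J, hJ1, hJ2⟩ : ∃ J : ℕ, Q * m ^ 2 ≤ 2 ^ J ∧
      ((J : ℝ) + 1) ≤ (2 + (Real.log Q + 2) / Real.log 2) * (1 + Real.log m) := by
    refine ⟨⌈Real.log (Q * m ^ 2) / Real.log 2⌉₊, ?_, ?_⟩
    · have h1 := Nat.le_ceil (Real.log (Q * m ^ 2) / Real.log 2)
      rw [div_le_iff₀ hl2] at h1
      have h2 := Real.exp_le_exp.2 h1
      rw [Real.exp_log (by linarith)] at h2
      refine h2.trans (le_of_eq ?_)
      rw [mul_comm, Real.exp_mul, Real.exp_log two_pos, Real.rpow_natCast]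
    · have h1 := Nat.ceil_lt_add_one (a := Real.log (Q * m ^ 2) / Real.log 2)
        (div_nonneg (Real.log_nonneg hQm) hl2.le)
      have h2 : Real.log (Q * m ^ 2) = Real.log Q + 2 * Real.log m := by
        rw [Real.log_mul (by linarith) (by positivity), Real.log_pow]; push_cast; ring
      rw [h2] at h1 ⊢
      have h3 : (Real.log Q + 2 * Real.log m) / Real.log 2 ≤
          ((Real.log Q + 2) / Real.log 2) * (1 + Real.log m) := by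
        rw [div_mul_eq_mul_div]
        gcongr
        nlinarith [mul_nonneg hlQ hlm]
      nlinarith
  have hlow2 : ∀ k ∈ S, ∀ y, (1 / 2) ^ J ≤ ‖Lz (M k) p g (c k) ρ (q' y)‖ := by
    intro k hk y
    have h1 := hlow k hk y
    have h2 : Q * m ^ 2 * ‖Lz (M k) p g (c k) ρ (q' y)‖ ≤
        2 ^ J * ‖Lz (M k) p g (c k) ρ (q' y)‖ := by gcongr
    rw [one_div, inv_pow, inv_le_iff_one_le_mul₀' (by positivity)]
    exact h1.trans h2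
  have hfin := hCU Y q' hqm' hqn' (H466.pv l) (H466.pv n) (H604.pv_Pv l) (H604.pv_Pv n) κ S
    (fun k => Lz (M k) p g (c k) ρ) ?_ J hlow2 E W F N hN hcap ?_ hFm hW (H466.pv z A') ?_ v
  · refine hfin.trans ?_
    have h1 : CU * ((J : ℝ) + 1) * N ≤
        CU * (2 + (Real.log Q + 2) / Real.log 2) * (1 + Real.log m) * N := by
      calc CU * ((J : ℝ) + 1) * N
          ≤ CU * ((2 + (Real.log Q + 2) / Real.log 2) * (1 + Real.log m)) * N := by gcongr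
        _ = _ := by ring
    exact mul_le_mul_of_nonneg_right (pow_le_pow_left₀ (by positivity) h1 2) (sq_nonneg _)
  · intro k hk w
    refine (Lz_up (nf k hk) (nb k hk) (hTk1 k hk) w).trans ?_
    gcongr
    exact le_max_left _ _
  · intro k hk y
    have hck := (nf k hk).c0
    have e1 : sq (M k) *ᵥ q y = ((t y)⁻¹ * (c k * ρ ^ 3)) • Lz (M k) p g (c k) ρ (q' y) := by
      rw [Lz_alt _ _ _ _ _ (hqA' y), smul_smul, mul_assoc, mul_inv_cancel₀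
        (mul_ne_zero hck (pow_ne_zero 3 hρ0)), mul_one]
      conv_lhs => rw [hpq y]
      rw [Matrix.mulVec_smul, Matrix.mulVec_mulVec, ← sq_mul]
    rw [hF k hk y, e1, hφ.1 _ _ (mul_ne_zero (inv_ne_zero (ht0 y))
      (mul_ne_zero hck (pow_ne_zero 3 hρ0)))]
  · intro k hk D D' hD hD' hDD
    refine chainB hI b z l n hbn hzn hzl (hB k hk) hA' hD hD' (hEB k hk) (hEn k hk) (hWz k hk) ?_
    intro ν hν ω hω x hx y hy hxν hyν hyω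
    obtain ⟨P, R, hPR⟩ := hDD ν hν ω hω
    have hnn := near_of (hnf k hk).ηp (hs y) (hnear k hk y hy).1 (hnear k hk y hy).2
    have hff := far_of (hnf k hk).ηp (hnf k hk).ηn hρ1 h0 (hs y) (hfar k hk y hy)
    have hx2 : ‖M k *ᵥ s x‖ * ‖c k‖ ≤ C * C₂ * ‖s x‖ := by
      rw [nrm_one (hs x), mul_one]
      have h1 := hBx k hk x hx
      have h2 := (hcm k hk).2
      calc ‖M k *ᵥ s x‖ * ‖c k‖ ≤ ‖M k *ᵥ s x‖ * (C * m) := by gcongr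
        _ = C * (‖M k *ᵥ s x‖ * m) := by ring
        _ ≤ C * C₂ := by gcongr
    have h3 := hins1 (nf k hk) (nb k hk) hCC₂ h₃ hc₁0 hc₁1 (hTk2 k hk) (nrm_ne (hs x)) hx2
      (nrm_ne (hs y)) hnn.1 hnn.2 hff (ht0 ν) (ht0 ω) (hqt ν) (hqt ω) (hqn' ν) (hqn' ω) (hqA' ω)
      (hq0 ν) (hq0' ω) (hinc x ν hxν) (hinc y ν hyν) (hinc y ω hyω) P R
    have h4 : Ci C₄ (C * C₂) C₃ c₁ * ‖Lz (M k) p g (c k) ρ (q' ω)‖ ≤
        C₁ * ‖Lz (M k) p g (c k) ρ (q' ω)‖ := by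
      gcongr
      exact le_max_right _ _
    exact absurd (h3.trans h4) (not_le.2 hPR)

end unit1

end Vale.Agent.P092.H217.PK
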