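import Vale.Agent.P092.H217.PK6

/-!
P092, TEAM P, [P-KEY] (helper217), part 7: `nf1`, the normal form of a near-1-wall element, and
`near_cap`, the last level.
-/

set_option linter.all false

namespace Vale.Agent.P092.H217.PK

open Finset Matrix
open Vale.Agent.P092.H820 (wd)
open Vale.Agent.P092.H835.PlF (w3 Alt sq sq_wd alt_wd alt_sq bl sq_apply)
open Vale.Agent.P092.H87.N (cn mulVec_le)
open Vale.Agent.P092.H589.K2 (mn mn_wd wd_norm_le chain_mn Nrm nrm_ne nrm_one w3_sq)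

section nf

variable {k : Type} [NontriviallyNormedField k]

lemma sg_sq (a : Fin 4) : (sg a : k) * sg a = 1 := by fin_cases a <;> simp [sg]

lemma sg_ne (a : Fin 4) : (sg a : k) ≠ 0 := by fin_cases a <;> simp [sg]

/-- the sign of a pivot -/
def sgn (j i : Fin 4) : k := sg (Fin.rev j) * sg (Fin.rev i)

lemma sgn_sq (j i : Fin 4) : (sgn j i : k) * sgn j i = 1 := by
  unfold sgn
  calc _ = (sg (Fin.rev j) * sg (Fin.rev j)) * (sg (Fin.rev i) * sg (Fin.rev i) : k) := by ring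
    _ = 1 := by rw [sg_sq, sg_sq, mul_one]

lemma norm_sgn (j i : Fin 4) : ‖(sgn j i : k)‖ = 1 := by
  rw [sgn, norm_mul, norm_sg, norm_sg, mul_one]

lemma norm_single_le (j : Fin 4) : ‖(Pi.single j 1 : Fin 4 → k)‖ ≤ 1 := by
  refine (pi_norm_le_iff_of_nonneg zero_le_one).2 fun i => ?_
  by_cases hij : i = j
  · rw [hij]; simp
  · rw [Pi.single_eq_of_ne hij]; simp

/-- **normal form** -/
theorem nf1 {R : ℝ} (hR : 0 ≤ R) (G : Matrix (Fin 4) (Fin 4) k) (j i : Fin 4)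
    (hG : ∀ v w, om (G *ᵥ v) (G *ᵥ w) = om v w) (hp : ∀ a b, ‖G a b‖ ≤ ‖G j i‖)
    (hm : ∀ a b d e, ‖G a d * G b e - G a e * G b d‖ ≤ R * ‖G j i‖) (h1 : 1 ≤ ‖G j i‖) :
    ∃ (η : Fin 4 → k) (A : Matrix (Fin 4) (Fin 4) k),
      Nf (Fin.rev i) (R + 6) G η (sgn j i * G j i) A ∧
      G *ᵥ η = (sgn j i * G j i)⁻¹ • Pi.single (Fin.rev j) 1 := by
  set p := Fin.rev i with hpd
  set c : k := sgn j i * G j i with hc
  have hcn : ‖c‖ = ‖G j i‖ := by rw [hc, norm_mul, norm_sgn, one_mul]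
  have hc1 : 1 ≤ ‖c‖ := by rw [hcn]; exact h1
  have hc0 : c ≠ 0 := fun h => by rw [h, norm_zero] at hc1; linarith
  have hG0 : G j i ≠ 0 := fun h => by rw [h, norm_zero] at h1; linarith
  have had : ad G * G = 1 := by
    have := ad_mul (m := 1) (M := G) (fun v w => by rw [hG, one_mul])
    rwa [one_smul] at this
  have had' : G * ad G = 1 := mul_eq_one_comm.1 had
  set e : Fin 4 → k := Pi.single (Fin.rev j) 1 with he
  set η : Fin 4 → k := c⁻¹ • (ad G *ᵥ e) with hη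
  have hco : ∀ a, (ad G *ᵥ e) a = sg (Fin.rev j) * (sg a * G j (Fin.rev a)) := by
    intro a
    rw [ad_mulVec, he, om_single, Fin.rev_rev, mulVec_ev]
  have hηp : η p = 1 := by
    rw [hη, Pi.smul_apply, hco, hpd, Fin.rev_rev, smul_eq_mul, ← mul_assoc (sg (Fin.rev j))]
    exact inv_mul_cancel₀ hc0
  have hηn : ‖η‖ ≤ 1 := by
    refine (pi_norm_le_iff_of_nonneg zero_le_one).2 fun a => ?_
    rw [hη, Pi.smul_apply, smul_eq_mul, norm_mul, norm_inv, inv_mul_le_iff₀ (by linarith), mul_one,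
      hco, norm_mul, norm_mul, norm_sg, norm_sg, one_mul, one_mul, hcn]
    exact hp _ _
  have hGη : G *ᵥ η = c⁻¹ • e := by
    rw [hη, Matrix.mulVec_smul, Matrix.mulVec_mulVec, had', Matrix.one_mulVec]
  -- the form with `η`
  have hom : ∀ v, om η v = (G j i)⁻¹ * (sg (Fin.rev i) * (G *ᵥ v) j) := by
    intro v
    rw [← hG, hGη, om_smul_left, he, om_single, Fin.rev_rev, hc, mul_inv]
    have h2 : (sgn j i : k)⁻¹ = sgn j i := inv_eq_of_mul_eq_one_left (sgn_sq j i)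
    have h3 : (sgn j i : k) * sg (Fin.rev j) = sg (Fin.rev i) := by
      unfold sgn
      calc _ = (sg (Fin.rev j) * sg (Fin.rev j)) * (sg (Fin.rev i) : k) := by ring
        _ = _ := by rw [sg_sq, one_mul]
    rw [h2]
    calc _ = (G j i)⁻¹ * ((sgn j i * sg (Fin.rev j)) * (G *ᵥ v) j) := by ring
      _ = _ := by rw [h3]
  set A : Matrix (Fin 4) (Fin 4) k := c • (G * HM p η c⁻¹) with hA
  have hAv : ∀ v, A *ᵥ v = c • (G *ᵥ Hm p η c⁻¹ v) := fun v => by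
    rw [hA, Matrix.smul_mulVec, ← Matrix.mulVec_mulVec, HM_mulVec]
  refine ⟨η, A, ⟨fun v => ?_, hc1, hηp, hηn, by linarith, fun a b => ?_, hG⟩, hGη⟩
  · rw [hAv, Hm_inv' hηp hc0]
  · rw [om_single_mul A a b, hAv]
    set v : Fin 4 → k := Pi.single b 1 with hv
    have hvn : ‖v‖ ≤ 1 := norm_single_le b
    have e1 : c • (G *ᵥ Hm p η c⁻¹ v) = (G *ᵥ v - om η v • (G *ᵥ ev p)) +
        (c⁻¹ * om η v) • (G *ᵥ ev p) + ((c - 1) * v p * c⁻¹) • e := by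
      rw [Hm_apply, Matrix.mulVec_add, Matrix.mulVec_add, Matrix.mulVec_smul, Matrix.mulVec_smul,
        Matrix.mulVec_smul, hGη]
      funext x
      simp only [Pi.add_apply, Pi.smul_apply, smul_eq_mul, Pi.sub_apply]
      field_simp
      ring
    rw [e1, Pi.add_apply, Pi.add_apply]
    have hev : ∀ x, (G *ᵥ ev p) x = sg (Fin.rev i) * G x i := fun x => by
      rw [mulVec_ev, hpd, Fin.rev_rev]
    have hGv : ∀ x, (G *ᵥ v) x = G x b := fun x => (om_single_mul G x b).symm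
    have b1 : ‖(G *ᵥ v - om η v • (G *ᵥ ev p)) a‖ ≤ R := by
      have e2 : (G *ᵥ v - om η v • (G *ᵥ ev p)) a =
          (G j i)⁻¹ * (G a b * G j i - G a i * G j b) := by
        rw [Pi.sub_apply, Pi.smul_apply, smul_eq_mul, hom, hev, hGv, hGv]
        have h2 := sg_sq (k := k) (Fin.rev i)
        have h3 : (G j i)⁻¹ * (sg (Fin.rev i) * G j b) * (sg (Fin.rev i) * G a i) =
            (G j i)⁻¹ * (G a i * G j b) * (sg (Fin.rev i) * sg (Fin.rev i)) := by ring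
        rw [h3, h2]
        field_simp
      rw [e2, norm_mul, norm_inv, inv_mul_le_iff₀ (by linarith)]
      have := hm a j b i
      linarith
    have b2 : ‖((c⁻¹ * om η v) • (G *ᵥ ev p)) a‖ ≤ 4 := by
      rw [Pi.smul_apply, smul_eq_mul, hev, norm_mul, norm_mul, norm_mul, norm_inv, norm_sg,
        one_mul]
      have h2 : ‖om η v‖ ≤ 4 := by
        refine (norm_om_le _ _).trans ?_
        have : ‖η‖ * ‖v‖ ≤ 1 * 1 := mul_le_mul hηn hvn (norm_nonneg _) zero_le_one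
        linarith
      have h3 : ‖G a i‖ ≤ ‖c‖ := by rw [hcn]; exact hp a i
      calc ‖c‖⁻¹ * ‖om η v‖ * ‖G a i‖ ≤ ‖c‖⁻¹ * 4 * ‖c‖ := by gcongr
        _ = 4 := by
            have : ‖c‖ ≠ 0 := by linarith
            field_simp
    have b3 : ‖(((c - 1) * v p * c⁻¹) • e) a‖ ≤ 2 := by
      rw [Pi.smul_apply, smul_eq_mul, norm_mul, norm_mul, norm_mul, norm_inv]
      have h2 : ‖c - 1‖ ≤ 2 * ‖c‖ := (norm_sub_le _ _).trans (by rw [norm_one]; linarith)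
      have h3 : ‖v p‖ ≤ 1 := (norm_le_pi_norm v p).trans hvn
      have h4 : ‖e a‖ ≤ 1 := (norm_le_pi_norm e a).trans (norm_single_le _)
      calc ‖c - 1‖ * ‖v p‖ * ‖c‖⁻¹ * ‖e a‖ ≤ (2 * ‖c‖) * 1 * ‖c‖⁻¹ * 1 := by gcongr
        _ = 2 := by
            have : ‖c‖ ≠ 0 := by linarith
            field_simp
    refine (norm_add_le _ _).trans ?_
    have b4 := norm_add_le ((G *ᵥ v - om η v • (G *ᵥ ev p)) a) (((c⁻¹ * om η v) • (G *ᵥ ev p)) a)
    linarith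

/-- **the last level** -/
theorem near_cap {p : Fin 4} {C : ℝ} {M A : Matrix (Fin 4) (Fin 4) k} {η : Fin 4 → k} {c : k}
    (nf : Nf p C M η c A) {m D : ℝ} (hm : 0 ≤ m) (h1 : m ≤ ‖c‖) (h2 : ‖c‖ ≤ C * m)
    (hD : 0 ≤ D) {x : Fin 4 → k} (hx : Nrm x) (a1 : ‖wd x η‖ * m ≤ D)
    (a2 : ‖om x η‖ * m ^ 2 ≤ D) : ‖M *ᵥ x‖ * m ≤ 4 * C * (1 + 5 * (C * D) + C ^ 2 * D) := by
  have hC := nf.C1
  have hc : 0 < ‖c‖ := by linarith [nf.c1]
  have hxn := nrm_one hx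
  set w := x - x p • η with hw
  have hwp : w p = 0 := by
    rw [hw, Pi.sub_apply, Pi.smul_apply, nf.ηp, smul_eq_mul, mul_one, sub_self]
  have e : Hm p η c x = x p • η + Hm p η c w := by
    have e1 : x = x p • η + w := by rw [hw]; abel
    conv_lhs => rw [e1]
    rw [map_add, map_smul, Hm_self nf.ηp]
  have hpr : ‖pr p w‖ ≤ ‖wd x η‖ := (norm_pr_le _ _).trans (wd_p nf.ηp x)
  have b0 : ‖Hm p η c w‖ ≤ 5 * (‖c‖ * ‖pr p w‖) + ‖c‖ ^ 2 * ‖om η w‖ := by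
    have h3 := zoom_up (ρ := c⁻¹) nf.ηp nf.ηn (inv_ne_zero nf.c0) hwp
    rw [inv_inv, norm_inv] at h3
    have h4 : ‖c‖ ^ 2 * ((‖c‖⁻¹) ^ 2 * ‖Hm p η c w‖) ≤
        ‖c‖ ^ 2 * (5 * (‖c‖⁻¹ * ‖pr p w‖) + ‖om η w‖) := by gcongr
    calc ‖Hm p η c w‖ = ‖c‖ ^ 2 * ((‖c‖⁻¹) ^ 2 * ‖Hm p η c w‖) := by field_simp
      _ ≤ _ := h4
      _ = _ := by field_simp
  have ho : ‖om η w‖ = ‖om x η‖ := by
    rw [hw, om_sub_right, om_smul_right, om_self, mul_zero, sub_zero, om_anti, norm_neg]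
  rw [ho] at b0
  have b1 : ‖c‖ * ‖pr p w‖ ≤ C * D := by
    calc ‖c‖ * ‖pr p w‖ ≤ (C * m) * ‖wd x η‖ := by gcongr
      _ = C * (‖wd x η‖ * m) := by ring
      _ ≤ C * D := by gcongr
  have b2 : ‖c‖ ^ 2 * ‖om x η‖ ≤ C ^ 2 * D := by
    calc ‖c‖ ^ 2 * ‖om x η‖ ≤ (C * m) ^ 2 * ‖om x η‖ := by gcongr
      _ = C ^ 2 * (‖om x η‖ * m ^ 2) := by ring
      _ ≤ C ^ 2 * D := by gcongr
  have b3 : ‖Hm p η c x‖ ≤ 1 + (5 * (C * D) + C ^ 2 * D) := by
    rw [e]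
    refine (norm_add_le _ _).trans (add_le_add ?_ (by linarith))
    rw [norm_smul]
    have h3 : ‖x p‖ ≤ 1 := (norm_le_pi_norm x p).trans hxn.le
    calc ‖x p‖ * ‖η‖ ≤ 1 * 1 := mul_le_mul h3 nf.ηn (norm_nonneg _) zero_le_one
      _ = 1 := one_mul 1
  calc ‖M *ᵥ x‖ * m ≤ ‖M *ᵥ x‖ * ‖c‖ := by gcongr
    _ ≤ 4 * C * ‖Hm p η c x‖ := nf.up x
    _ ≤ 4 * C * (1 + (5 * (C * D) + C ^ 2 * D)) := by gcongr
    _ = _ := by ring

end nf

end Vale.Agent.P092.H217.PK
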